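import Mathlib
import Crest.Agent.R213.J0bGen

-- ▼ part R213/A/FourGS
section

/-!
# Row 213, part A, block A-FOUR (helper944): abstract parts

* `exists_gs`: in a second countable Hilbert space every subspace `E` has a sequence of orthogonal vectors of
  norm `0` or `1` which computes the norm of every continuous functional on `E`.
* `plancherel`: Plancherel for smooth compactly supported functions.
-/

set_option autoImplicit false

open Set MeasureTheory Filter Topology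
open scoped ContDiff FourierTransform InnerProductSpace

noncomputable section

namespace Crest.Agent.R213.A

section gs
variable {H : Type*} [NormedAddCommGroup H] [InnerProductSpace ℂ H]

local notation "⟪" x ", " y "⟫" => inner ℂ x y

lemma gs_finsupp (e : ℕ → H) (horth : ∀ i j, i ≠ j → ⟪e i, e j⟫ = 0)
    (hn : ∀ i, e i = 0 ∨ ‖e i‖ = 1) (h : H) (S : ℝ)
    (hS : ∀ n, ∑ k ∈ Finset.range n, ‖⟪e k, h⟫‖ ^ 2 ≤ S) (c : ℕ →₀ ℂ) :
    ‖⟪c.sum fun i a => a • e i, h⟫‖ ^ 2 ≤ S * ‖c.sum fun i a => a • e i‖ ^ 2 := by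
  classical
  have hv : (c.sum fun i a => a • e i) = ∑ i ∈ c.support, c i • e i := rfl
  rw [hv]
  have h1 : ⟪∑ i ∈ c.support, c i • e i, h⟫ = ∑ i ∈ c.support, (starRingEnd ℂ (c i)) * ⟪e i, h⟫ := by
    rw [sum_inner]
    exact Finset.sum_congr rfl fun i _ => by rw [inner_smul_left]
  have h2 : ‖∑ i ∈ c.support, c i • e i‖ ^ 2 = ∑ i ∈ c.support, (‖c i‖ * ‖e i‖) ^ 2 := by
    have : (‖∑ i ∈ c.support, c i • e i‖ ^ 2 : ℝ) =
        RCLike.re ⟪∑ i ∈ c.support, c i • e i, ∑ i ∈ c.support, c i • e i⟫ := by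
      rw [inner_self_eq_norm_sq (𝕜 := ℂ)]
    rw [this, sum_inner, map_sum]
    refine Finset.sum_congr rfl fun i hi => ?_
    rw [inner_sum, Finset.sum_eq_single i]
    · rw [inner_smul_left, inner_smul_right, ← mul_assoc, mul_comm (starRingEnd ℂ (c i)),
        RCLike.mul_conj, ← inner_self_ofReal_re, mul_pow]
      rw [inner_self_eq_norm_sq (𝕜 := ℂ)]
      norm_cast
    · intro j _ hj
      rw [inner_smul_left, inner_smul_right, horth i j (Ne.symm hj)]; simp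
    · intro hi'; exact absurd hi hi'
  have h3 : ‖⟪∑ i ∈ c.support, c i • e i, h⟫‖ ≤
      ∑ i ∈ c.support, (‖c i‖ * ‖e i‖) * ‖⟪e i, h⟫‖ := by
    rw [h1]
    refine (norm_sum_le _ _).trans (Finset.sum_le_sum fun i _ => ?_)
    rw [norm_mul, RCLike.norm_conj]
    rcases hn i with h0 | h0
    · simp [h0]
    · rw [h0, mul_one]
  have h4 : ∑ i ∈ c.support, ‖⟪e i, h⟫‖ ^ 2 ≤ S := by
    refine le_trans (Finset.sum_le_sum_of_subset_of_nonneg ?_ fun _ _ _ => by positivity)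
      (hS (c.support.sup id + 1))
    intro i hi
    rw [Finset.mem_range]
    exact Nat.lt_succ_of_le (Finset.le_sup (f := id) hi)
  calc ‖⟪∑ i ∈ c.support, c i • e i, h⟫‖ ^ 2
      ≤ (∑ i ∈ c.support, (‖c i‖ * ‖e i‖) * ‖⟪e i, h⟫‖) ^ 2 :=
        pow_le_pow_left₀ (norm_nonneg _) h3 2
    _ ≤ (∑ i ∈ c.support, (‖c i‖ * ‖e i‖) ^ 2) * ∑ i ∈ c.support, ‖⟪e i, h⟫‖ ^ 2 :=
        Finset.sum_mul_sq_le_sq_mul_sq _ _ _
    _ ≤ (∑ i ∈ c.support, (‖c i‖ * ‖e i‖) ^ 2) * S :=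
        mul_le_mul_of_nonneg_left h4 (Finset.sum_nonneg fun _ _ => by positivity)
    _ = S * ‖∑ i ∈ c.support, c i • e i‖ ^ 2 := by rw [h2, mul_comm]

/-- a sequence in the subspace `E` which computes the norm of every functional `⟪·, h⟫` on `E` -/
theorem exists_gs [SecondCountableTopology H] (E : Submodule ℂ H) :
    ∃ e : ℕ → H, (∀ k, e k ∈ E) ∧ (∀ i j, i ≠ j → ⟪e i, e j⟫ = 0) ∧ (∀ i, e i = 0 ∨ ‖e i‖ = 1) ∧
      ∀ (h : H) (S : ℝ), (∀ n, ∑ k ∈ Finset.range n, ‖⟪e k, h⟫‖ ^ 2 ≤ S) →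
        ∀ v ∈ E, ‖⟪v, h⟫‖ ^ 2 ≤ S * ‖v‖ ^ 2 := by
  classical
  have : TopologicalSpace.SeparableSpace E := inferInstance
  set d : ℕ → E := TopologicalSpace.denseSeq E
  set f : ℕ → E := InnerProductSpace.gramSchmidtNormed ℂ d
  have horth : ∀ i j, i ≠ j → ⟪(f i : H), (f j : H)⟫ = 0 := by
    intro i j hij
    have := InnerProductSpace.gramSchmidt_orthogonal ℂ d hij
    rw [← Submodule.coe_inner]
    simp only [f, InnerProductSpace.gramSchmidtNormed, inner_smul_left, inner_smul_right, this,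
      mul_zero]
  have hn : ∀ i, (f i : H) = 0 ∨ ‖(f i : H)‖ = 1 := by
    intro i
    by_cases h0 : f i = 0
    · left; rw [h0]; rfl
    · right
      exact InnerProductSpace.gramSchmidtNormed_unit_length' h0
  refine ⟨fun k => (f k : H), fun k => (f k).2, horth, hn, ?_⟩
  intro h S hS v hv
  have hspan : ∀ w ∈ Submodule.span ℂ (Set.range f), ‖⟪(w : H), h⟫‖ ^ 2 ≤ S * ‖(w : H)‖ ^ 2 := by
    intro w hw
    rw [Finsupp.mem_span_range_iff_exists_finsupp] at hw
    obtain ⟨c, hc⟩ := hw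
    have hc' : (w : H) = c.sum fun i a => a • (f i : H) := by
      rw [← hc, Finsupp.sum, Finsupp.sum]
      simp
    rw [hc']
    exact gs_finsupp (fun k => (f k : H)) horth hn h S hS c
  have hclosed : IsClosed {w : E | ‖⟪(w : H), h⟫‖ ^ 2 ≤ S * ‖(w : H)‖ ^ 2} := by
    refine isClosed_le ?_ ?_
    · fun_prop
    · fun_prop
  have hdense : Dense (Submodule.span ℂ (Set.range f) : Set E) := by
    rw [InnerProductSpace.span_gramSchmidtNormed_range, InnerProductSpace.span_gramSchmidt]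
    exact (TopologicalSpace.denseRange_denseSeq E).mono Submodule.subset_span
  have := hclosed.closure_subset_iff.2 (show (Submodule.span ℂ (Set.range f) : Set E) ⊆ _ from
    fun w hw => hspan w hw)
  exact this (hdense.closure_eq ▸ mem_univ (⟨v, hv⟩ : E))

end gs

/-- Plancherel for smooth compactly supported functions. -/
theorem plancherel {f : ℝ → ℂ} (hf : ContDiff ℝ ∞ f) (hc : HasCompactSupport f) :
    ∫ ξ, ‖𝓕 f ξ‖ ^ 2 = ∫ x, ‖f x‖ ^ 2 := by
  have h := SchwartzMap.integral_norm_sq_fourier (hc.toSchwartzMap hf)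
  have e : ((hc.toSchwartzMap hf : SchwartzMap ℝ ℂ) : ℝ → ℂ) = f := rfl
  rw [SchwartzMap.fourier_coe, e] at h
  exact h

end Crest.Agent.R213.A
end
end

-- ▼ part R213/A/FourReg
section

/-!
# Row 213, part A, block A-FOUR (helper944): test functions on the half line and on `ℝ × [0,∞)`
-/

set_option autoImplicit false

open Set MeasureTheory Filter Topology
open scoped ContDiff FourierTransform InnerProductSpace

noncomputable section

namespace Crest.Agent.R213.A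

section defs
variable {E : Type*} [NormedAddCommGroup E] [NormedSpace ℝ E]

/-- static test functions: smooth on `[0,∞)` (one-sided at `0`), bounded support -/
def TD (P : ℝ → E) : Prop :=
  ContDiffOn ℝ ∞ P (Ici 0) ∧ ∃ R : ℝ, ∀ y, R ≤ y → P y = 0

/-- one-sided derivative on `[0,∞)` -/
def dh (P : ℝ → E) : ℝ → E := fun y => derivWithin P (Ici 0) y

/-- space-time test functions: smooth on `ℝ × [0,∞)`, bounded support -/
def TS (P : ℝ → ℝ → E) : Prop :=
  ContDiffOn ℝ ∞ (fun p : ℝ × ℝ => P p.1 p.2) (univ ×ˢ Ici 0) ∧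
    ∃ R : ℝ, ∀ s y, 0 ≤ y → (R ≤ |s| ∨ R ≤ y) → P s y = 0

/-- `∂_s` -/
def ds (P : ℝ → ℝ → E) : ℝ → ℝ → E := fun s y => deriv (fun r => P r y) s

/-- `∂_y` (one-sided at `0`) -/
def dy (P : ℝ → ℝ → E) : ℝ → ℝ → E := fun s y => dh (P s) y

end defs

section TD
variable {E : Type*} [NormedAddCommGroup E] [NormedSpace ℝ E]
variable {P Q : ℝ → E}

lemma TD.cont (h : TD P) : ContinuousOn P (Ici 0) := h.1.continuousOn

lemma TD.diff (h : TD P) : DifferentiableOn ℝ P (Ici 0) := h.1.differentiableOn (by simp)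

lemma TD.zero : TD (fun _ => (0 : E)) := ⟨contDiffOn_const, 0, fun _ _ => rfl⟩

lemma TD.add (h : TD P) (k : TD Q) : TD (fun y => P y + Q y) := by
  obtain ⟨h1, R, hR⟩ := h
  obtain ⟨k1, S, hS⟩ := k
  exact ⟨h1.add k1, max R S, fun y hy => by
    simp only [hR y (le_trans (le_max_left _ _) hy), hS y (le_trans (le_max_right _ _) hy), add_zero]⟩


lemma TD.clm {F : Type*} [NormedAddCommGroup F] [NormedSpace ℝ F] (h : TD P) (A : E →L[ℝ] F) :
    TD (fun y => A (P y)) := by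
  obtain ⟨h1, R, hR⟩ := h
  exact ⟨A.contDiff.comp_contDiffOn h1, R, fun y hy => by simp only [hR y hy, map_zero]⟩

lemma TD.sum {ι : Type*} (s : Finset ι) {P : ι → ℝ → E} (h : ∀ i ∈ s, TD (P i)) :
    TD (fun y => ∑ i ∈ s, P i y) := by
  classical
  induction s using Finset.induction_on with
  | empty => simpa using TD.zero
  | insert a s ha ih =>
    have := (h a (Finset.mem_insert_self _ _)).add (ih fun i hi => h i (Finset.mem_insert_of_mem hi))
    simpa [Finset.sum_insert ha] using this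

lemma TD.tdh (h : TD P) : TD (dh P) := by
  obtain ⟨h1, R, hR⟩ := h
  refine ⟨h1.derivWithin (uniqueDiffOn_Ici 0) (by simp), max R 0 + 1, fun y hy => ?_⟩
  have hy1 : R < y := lt_of_le_of_lt (le_max_left R 0) (by linarith)
  have e : P =ᶠ[𝓝[Ici 0] y] fun _ => (0 : E) := by
    refine mem_nhdsWithin_of_mem_nhds ?_
    filter_upwards [lt_mem_nhds hy1] with z hz using hR z hz.le
  have : derivWithin P (Ici 0) y = derivWithin (fun _ => (0 : E)) (Ici 0) y :=
    e.derivWithin_eq (hR y hy1.le)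
  show derivWithin P (Ici 0) y = 0
  rw [this]
  simp

lemma TD.hasDeriv (h : TD P) {y : ℝ} (hy : 0 ≤ y) :
    HasDerivWithinAt P (dh P y) (Ici 0) y :=
  (h.diff y hy).hasDerivWithinAt

lemma dh_eq {P' : E} {y : ℝ} (hy : 0 ≤ y) (h : HasDerivWithinAt P P' (Ici 0) y) : dh P y = P' :=
  h.derivWithin (uniqueDiffOn_Ici 0 y hy)

lemma dh_congr (h : ∀ y, 0 ≤ y → P y = Q y) {y : ℝ} (hy : 0 ≤ y) : dh P y = dh Q y :=
  derivWithin_congr (fun z hz => h z hz) (h y hy)

lemma dh_add (h : TD P) (k : TD Q) {y : ℝ} (hy : 0 ≤ y) :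
    dh (fun y => P y + Q y) y = dh P y + dh Q y :=
  dh_eq hy ((h.hasDeriv hy).add (k.hasDeriv hy))

lemma dh_sum {ι : Type*} (s : Finset ι) {P : ι → ℝ → E} (h : ∀ i ∈ s, TD (P i)) {y : ℝ}
    (hy : 0 ≤ y) : dh (fun y => ∑ i ∈ s, P i y) y = ∑ i ∈ s, dh (P i) y :=
  dh_eq hy (HasDerivWithinAt.fun_sum fun i hi => (h i hi).hasDeriv hy)

lemma dh_clm {F : Type*} [NormedAddCommGroup F] [NormedSpace ℝ F] (h : TD P) (A : E →L[ℝ] F)
    {y : ℝ} (hy : 0 ≤ y) : dh (fun y => A (P y)) y = A (dh P y) :=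
  dh_eq hy (A.hasFDerivAt.comp_hasDerivWithinAt y (h.hasDeriv hy))

lemma deriv_eq_dh (h : TD P) {y : ℝ} (hy : 0 < y) : deriv P y = dh P y :=
  ((h.hasDeriv hy.le).hasDerivAt (Ici_mem_nhds hy)).deriv

end TD

section TS
variable {E : Type*} [NormedAddCommGroup E] [NormedSpace ℝ E]
variable {P Q : ℝ → ℝ → E}

lemma uniqueDiffOn_half : UniqueDiffOn ℝ ((univ : Set ℝ) ×ˢ Ici (0 : ℝ)) :=
  uniqueDiffOn_univ.prod (uniqueDiffOn_Ici 0)

lemma TS.cont (h : TS P) :
    ContinuousOn (fun p : ℝ × ℝ => P p.1 p.2) (univ ×ˢ Ici 0) := h.1.continuousOn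

lemma TS.zero : TS (fun _ _ => (0 : E)) := ⟨contDiffOn_const, 0, fun _ _ _ _ => rfl⟩

lemma TS.add (h : TS P) (k : TS Q) : TS (fun s y => P s y + Q s y) := by
  obtain ⟨h1, R, hR⟩ := h
  obtain ⟨k1, S, hS⟩ := k
  refine ⟨h1.add k1, max R S, fun s y h0 hy => ?_⟩
  simp only [hR s y h0 (hy.imp (le_trans (le_max_left _ _)) (le_trans (le_max_left _ _))),
    hS s y h0 (hy.imp (le_trans (le_max_right _ _)) (le_trans (le_max_right _ _))), add_zero]

lemma TS.clm {F : Type*} [NormedAddCommGroup F] [NormedSpace ℝ F] (h : TS P) (A : E →L[ℝ] F) :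
    TS (fun s y => A (P s y)) := by
  obtain ⟨h1, R, hR⟩ := h
  exact ⟨A.contDiff.comp_contDiffOn h1, R, fun s y h0 hy => by simp only [hR s y h0 hy, map_zero]⟩


lemma TS.sum {ι : Type*} (t : Finset ι) {P : ι → ℝ → ℝ → E} (h : ∀ i ∈ t, TS (P i)) :
    TS (fun s y => ∑ i ∈ t, P i s y) := by
  classical
  induction t using Finset.induction_on with
  | empty => simpa using TS.zero
  | insert a t ha ih =>
    have := (h a (Finset.mem_insert_self _ _)).add (ih fun i hi => h i (Finset.mem_insert_of_mem hi))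
    simpa [Finset.sum_insert ha] using this

lemma TS.slice (h : TS P) (s : ℝ) : TD (P s) := by
  obtain ⟨h1, R, hR⟩ := h
  refine ⟨?_, max R 0, fun y hy => hR s y (le_trans (le_max_right _ _) hy)
    (Or.inr (le_trans (le_max_left _ _) hy))⟩
  exact h1.comp (f := fun y : ℝ => (s, y)) (by fun_prop) (fun y hy => ⟨trivial, hy⟩)

lemma TS.sliceS (h : TS P) {y : ℝ} (hy : 0 ≤ y) : ContDiff ℝ ∞ (fun s => P s y) := by
  rw [← contDiffOn_univ]
  exact h.1.comp (f := fun s : ℝ => (s, y)) (by fun_prop) (fun s _ => ⟨trivial, hy⟩)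

lemma TS.compS (h : TS P) {y : ℝ} (hy : 0 ≤ y) : HasCompactSupport (fun s => P s y) := by
  obtain ⟨h1, R, hR⟩ := h
  refine HasCompactSupport.intro (isCompact_Icc (a := -R) (b := R)) fun s hs => ?_
  refine hR s y hy (Or.inl ?_)
  by_contra hlt
  push Not at hlt
  exact hs (abs_le.1 hlt.le)

/-- Frechet derivative within the half plane -/
def fd (P : ℝ → ℝ → E) : ℝ × ℝ → ℝ × ℝ →L[ℝ] E :=
  fderivWithin ℝ (fun p : ℝ × ℝ => P p.1 p.2) (univ ×ˢ Ici 0)

lemma TS.hasFD (h : TS P) {s y : ℝ} (hy : 0 ≤ y) :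
    HasFDerivWithinAt (fun p : ℝ × ℝ => P p.1 p.2) (fd P (s, y)) (univ ×ˢ Ici 0) (s, y) :=
  (h.1.differentiableOn (by simp) (s, y) ⟨trivial, hy⟩).hasFDerivWithinAt

lemma TS.hasDerivS (h : TS P) (s : ℝ) {y : ℝ} (hy : 0 ≤ y) :
    HasDerivAt (fun r => P r y) (ds P s y) s :=
  ((h.sliceS hy).differentiable (by simp) s).hasDerivAt

lemma TS.hasDerivY (h : TS P) (s : ℝ) {y : ℝ} (hy : 0 ≤ y) :
    HasDerivWithinAt (P s) (dy P s y) (Ici 0) y := (h.slice s).hasDeriv hy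

lemma TS.ds_eq (h : TS P) (s : ℝ) {y : ℝ} (hy : 0 ≤ y) : ds P s y = fd P (s, y) (1, 0) := by
  have h1 : HasDerivWithinAt (fun r : ℝ => ((r, y) : ℝ × ℝ)) (1, 0) univ s :=
    ((hasDerivAt_id s).prodMk (hasDerivAt_const s y)).hasDerivWithinAt
  have := (h.hasFD hy (s := s)).comp_hasDerivWithinAt s h1
    (fun r _ => (⟨trivial, hy⟩ : ((r, y) : ℝ × ℝ) ∈ (univ : Set ℝ) ×ˢ Ici (0 : ℝ)))
  exact (hasDerivWithinAt_univ.1 this).deriv

lemma TS.dy_eq (h : TS P) (s : ℝ) {y : ℝ} (hy : 0 ≤ y) : dy P s y = fd P (s, y) (0, 1) := by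
  have h1 : HasDerivWithinAt (fun z : ℝ => ((s, z) : ℝ × ℝ)) (0, 1) (Ici 0) y :=
    ((hasDerivAt_const y s).prodMk (hasDerivAt_id y)).hasDerivWithinAt
  have := (h.hasFD hy (s := s)).comp_hasDerivWithinAt y h1
    (fun r hr => (⟨trivial, hr⟩ : ((s, r) : ℝ × ℝ) ∈ (univ : Set ℝ) ×ˢ Ici (0 : ℝ)))
  exact dh_eq hy this

lemma TS.fd_smooth (h : TS P) (v : ℝ × ℝ) :
    ContDiffOn ℝ ∞ (fun p : ℝ × ℝ => fd P p v) (univ ×ˢ Ici 0) :=
  (h.1.fderivWithin uniqueDiffOn_half (by simp)).clm_apply contDiffOn_const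

lemma TS.fd_zero (h : TS P) : ∃ R : ℝ, ∀ s y, 0 ≤ y → (R ≤ |s| ∨ R ≤ y) → fd P (s, y) = 0 := by
  obtain ⟨h1, R, hR⟩ := h
  refine ⟨|R| + 1, fun s y hy hsy => ?_⟩
  have hR' : R < |R| + 1 := lt_of_le_of_lt (le_abs_self R) (by linarith)
  have e : (fun p : ℝ × ℝ => P p.1 p.2) =ᶠ[𝓝[univ ×ˢ Ici 0] (s, y)] fun _ => (0 : E) := by
    rcases hsy with hs | hy'
    · have : ∀ᶠ p : ℝ × ℝ in 𝓝 (s, y), R < |p.1| :=
        (show ContinuousAt (fun p : ℝ × ℝ => |p.1|) (s, y) by fun_prop).eventually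
          (lt_mem_nhds (lt_of_lt_of_le hR' hs))
      filter_upwards [mem_nhdsWithin_of_mem_nhds this, self_mem_nhdsWithin] with p hp hp0
        using hR _ _ hp0.2 (Or.inl (le_of_lt hp))
    · have : ∀ᶠ p : ℝ × ℝ in 𝓝 (s, y), R < p.2 :=
        (show ContinuousAt (fun p : ℝ × ℝ => p.2) (s, y) by fun_prop).eventually
          (lt_mem_nhds (lt_of_lt_of_le hR' hy'))
      filter_upwards [mem_nhdsWithin_of_mem_nhds this, self_mem_nhdsWithin] with p hp hp0
        using hR _ _ hp0.2 (Or.inr (le_of_lt hp))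
  have h0 : P s y = 0 := hR s y hy (hsy.imp (le_trans hR'.le) (le_trans hR'.le))
  unfold fd
  rw [e.fderivWithin_eq h0]
  simp

lemma TS.tds (h : TS P) : TS (ds P) := by
  obtain ⟨R, hR⟩ := h.fd_zero
  refine ⟨(h.fd_smooth (1, 0)).congr fun p hp => h.ds_eq p.1 hp.2, R, fun s y hy hsy => ?_⟩
  rw [h.ds_eq s hy, hR s y hy hsy]; simp

lemma TS.tdy (h : TS P) : TS (dy P) := by
  obtain ⟨R, hR⟩ := h.fd_zero
  refine ⟨(h.fd_smooth (0, 1)).congr fun p hp => h.dy_eq p.1 hp.2, R, fun s y hy hsy => ?_⟩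
  rw [h.dy_eq s hy, hR s y hy hsy]; simp

end TS

end Crest.Agent.R213.A
end
end

-- ▼ part R213/A/FourInt

/-!
# Row 213, part A, block A-FOUR (helper944): integrals and partial Fourier transform
-/

set_option autoImplicit false

open Set MeasureTheory Filter Topology
open scoped ContDiff FourierTransform InnerProductSpace

noncomputable section

namespace Crest.Agent.R213.A

section CS
variable {E : Type*} [NormedAddCommGroup E]

/-- continuous on the closed half plane, bounded support -/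
def CS (F : ℝ → ℝ → E) : Prop :=
  ContinuousOn (fun p : ℝ × ℝ => F p.1 p.2) (univ ×ˢ Ici 0) ∧
    ∃ R : ℝ, ∀ s y, 0 ≤ y → (R ≤ |s| ∨ R ≤ y) → F s y = 0

/-- continuous on the closed half line, bounded support -/
def CD (F : ℝ → E) : Prop :=
  ContinuousOn F (Ici 0) ∧ ∃ R : ℝ, ∀ y, 0 ≤ y → R ≤ y → F y = 0

lemma CD.integrableOn {F : ℝ → E} (h : CD F) : IntegrableOn F (Ioi 0) := by
  obtain ⟨hc, R, hR⟩ := h
  have h1 : IntegrableOn F (Icc 0 (max R 0)) :=
    (hc.mono fun y hy => hy.1).integrableOn_compact isCompact_Icc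
  refine h1.of_forall_sdiff_eq_zero measurableSet_Ioi fun y hy => ?_
  have h0 : (0 : ℝ) < y := hy.1
  refine hR y h0.le ?_
  by_contra hlt
  push Not at hlt
  exact hy.2 ⟨h0.le, le_trans hlt.le (le_max_left _ _)⟩

lemma CS.integrableOn {F : ℝ → ℝ → E} (h : CS F) :
    IntegrableOn (fun p : ℝ × ℝ => F p.1 p.2) (univ ×ˢ Ioi 0) := by
  obtain ⟨hc, R, hR⟩ := h
  set S := max R 0
  have h1 : IntegrableOn (fun p : ℝ × ℝ => F p.1 p.2) (Icc (-S) S ×ˢ Icc 0 S) :=
    (hc.mono fun p hp => ⟨trivial, hp.2.1⟩).integrableOn_compact (isCompact_Icc.prod isCompact_Icc)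
  refine h1.of_forall_sdiff_eq_zero (MeasurableSet.univ.prod measurableSet_Ioi) fun p hp => ?_
  have h0 : (0 : ℝ) < p.2 := hp.1.2
  refine hR _ _ h0.le ?_
  by_contra hlt
  push Not at hlt
  refine hp.2 ⟨abs_le.1 (le_trans hlt.1.le (le_max_left _ _)), h0.le,
    le_trans hlt.2.le (le_max_left _ _)⟩

lemma CS.slice {F : ℝ → ℝ → E} (h : CS F) (s : ℝ) : CD (F s) := by
  obtain ⟨hc, R, hR⟩ := h
  exact ⟨hc.comp (f := fun y : ℝ => (s, y)) (by fun_prop) (fun y hy => ⟨trivial, hy⟩), R,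
    fun y h0 hy => hR s y h0 (Or.inr hy)⟩

lemma CS.sliceS {F : ℝ → ℝ → E} (h : CS F) {y : ℝ} (hy : 0 ≤ y) :
    Continuous (fun s => F s y) ∧ HasCompactSupport (fun s => F s y) := by
  obtain ⟨hc, R, hR⟩ := h
  constructor
  · rw [← continuousOn_univ]
    exact hc.comp (f := fun s : ℝ => (s, y)) (by fun_prop) (fun s _ => ⟨trivial, hy⟩)
  · refine HasCompactSupport.intro (isCompact_Icc (a := -R) (b := R)) fun s hs => ?_
    refine hR s y hy (Or.inl ?_)
    by_contra hlt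
    push Not at hlt
    exact hs (abs_le.1 hlt.le)

lemma CS.integrableS {F : ℝ → ℝ → E} (h : CS F) {y : ℝ} (hy : 0 ≤ y) :
    Integrable (fun s => F s y) :=
  (h.sliceS hy).1.integrable_of_hasCompactSupport (h.sliceS hy).2

lemma TS.toCS [NormedSpace ℝ E] {F : ℝ → ℝ → E} (h : TS F) : CS F := ⟨h.cont, h.2⟩

lemma TD.toCD [NormedSpace ℝ E] {F : ℝ → E} (h : TD F) : CD F := by
  obtain ⟨R, hR⟩ := h.2
  exact ⟨h.cont, R, fun y _ hy => hR y hy⟩

/-- image of a CS function under a map which is continuous and fixes `0` -/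
lemma CS.map {E' : Type*} [NormedAddCommGroup E'] {F : ℝ → ℝ → E} (h : CS F) {a : ℝ → E → E'}
    (ha : ContinuousOn (fun p : ℝ × E => a p.1 p.2) (Ici 0 ×ˢ univ)) (h0 : ∀ y, a y 0 = 0) :
    CS (fun s y => a y (F s y)) := by
  obtain ⟨hc, R, hR⟩ := h
  refine ⟨?_, R, fun s y hy hsy => by simp only [hR s y hy hsy, h0]⟩
  exact ha.comp (f := fun p : ℝ × ℝ => (p.2, F p.1 p.2)) (continuousOn_snd.prodMk hc)
    (fun p hp => ⟨hp.2, trivial⟩)

lemma CD.map {E' : Type*} [NormedAddCommGroup E'] {F : ℝ → E} (h : CD F) {a : ℝ → E → E'}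
    (ha : ContinuousOn (fun p : ℝ × E => a p.1 p.2) (Ici 0 ×ˢ univ)) (h0 : ∀ y, a y 0 = 0) :
    CD (fun y => a y (F y)) := by
  obtain ⟨hc, R, hR⟩ := h
  refine ⟨?_, R, fun y hy hsy => by simp only [hR y hy hsy, h0]⟩
  exact ha.comp (f := fun y : ℝ => (y, F y)) (continuousOn_id.prodMk hc)
    (fun p hp => ⟨hp, trivial⟩)

lemma CS.add {F G : ℝ → ℝ → E} (h : CS F) (k : CS G) : CS (fun s y => F s y + G s y) := by
  obtain ⟨h1, R, hR⟩ := h
  obtain ⟨k1, S, hS⟩ := k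
  refine ⟨h1.add k1, max R S, fun s y h0 hy => ?_⟩
  simp only [hR s y h0 (hy.imp (le_trans (le_max_left _ _)) (le_trans (le_max_left _ _))),
    hS s y h0 (hy.imp (le_trans (le_max_right _ _)) (le_trans (le_max_right _ _))), add_zero]

lemma CD.add {F G : ℝ → E} (h : CD F) (k : CD G) : CD (fun y => F y + G y) := by
  obtain ⟨h1, R, hR⟩ := h
  obtain ⟨k1, S, hS⟩ := k
  refine ⟨h1.add k1, max R S, fun y h0 hy => ?_⟩
  simp only [hR y h0 (le_trans (le_max_left _ _) hy), hS y h0 (le_trans (le_max_right _ _) hy),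
    add_zero]

/-- Fubini on the half plane -/
lemma CS.integral_prod [NormedSpace ℝ E] {F : ℝ → ℝ → E} (h : CS F) :
    ∫ p in (univ ×ˢ Ioi 0 : Set (ℝ × ℝ)), F p.1 p.2 = ∫ s, ∫ y in Ioi (0 : ℝ), F s y := by
  have := setIntegral_prod (μ := (volume : Measure ℝ)) (ν := (volume : Measure ℝ))
    (s := univ) (t := Ioi 0) (fun p : ℝ × ℝ => F p.1 p.2) h.integrableOn
  rw [Measure.restrict_univ] at this
  exact this

lemma CS.integral_swap [NormedSpace ℝ E] {F : ℝ → ℝ → E} (h : CS F) :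
    ∫ s, ∫ y in Ioi (0 : ℝ), F s y = ∫ y in Ioi (0 : ℝ), ∫ s, F s y := by
  have hi : Integrable (Function.uncurry F)
      ((volume : Measure ℝ).prod ((volume : Measure ℝ).restrict (Ioi 0))) := by
    have := h.integrableOn
    rw [IntegrableOn, Measure.volume_eq_prod, ← Measure.prod_restrict, Measure.restrict_univ] at this
    exact this
  exact integral_integral_swap hi

end CS

section hat

/-- partial Fourier transform in the first variable -/
def hat (P : ℝ → ℝ → ℂ) (ξ y : ℝ) : ℂ := 𝓕 (fun s => P s y) ξ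

variable {P Q : ℝ → ℝ → ℂ}

/-- the kernel -/
def ek (s ξ : ℝ) : ℂ := Complex.exp (↑(-2 * Real.pi * s * ξ) * Complex.I)

lemma norm_ek (s ξ : ℝ) : ‖ek s ξ‖ = 1 := by
  unfold ek
  exact Complex.norm_exp_ofReal_mul_I _

lemma ek_smooth : ContDiff ℝ ∞ (fun p : ℝ × ℝ => ek p.1 p.2) := by
  unfold ek
  have h1 : ContDiff ℝ ∞ (fun p : ℝ × ℝ => (-2 * Real.pi * p.1 * p.2 : ℝ)) := by fun_prop
  have h2 : ContDiff ℝ ∞ (fun p : ℝ × ℝ => ((-2 * Real.pi * p.1 * p.2 : ℝ) : ℂ)) :=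
    Complex.ofRealCLM.contDiff.comp h1
  exact (h2.mul contDiff_const).cexp

lemma hat_eq (ξ y : ℝ) : hat P ξ y = ∫ s, ek s ξ * P s y := by
  unfold hat ek
  rw [Real.fourier_real_eq_integral_exp_smul]
  rfl

lemma TS.hat_interval (h : TS P) : ∃ R : ℝ, 0 < R ∧ ∀ S, R ≤ S → ∀ ξ y, 0 ≤ y →
    hat P ξ y = ∫ s in (-S)..S, ek s ξ * P s y := by
  obtain ⟨R, hR⟩ := h.2
  refine ⟨|R| + 1, by positivity, fun S hS ξ y hy => ?_⟩
  rw [hat_eq, intervalIntegral.integral_eq_integral_of_support_subset]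
  intro s hs
  by_contra hn
  have h1 : R ≤ |s| := by
    by_contra hlt
    push Not at hlt
    have h3 := abs_lt.1 (lt_of_lt_of_le hlt (le_abs_self R))
    exact hn ⟨by linarith [h3.1], by linarith [h3.2]⟩
  exact hs (by simp [hR s y hy (Or.inl h1)])

lemma TS.hat_joint (h : TS P) :
    ContDiffOn ℝ ∞ (fun p : ℝ × ℝ => hat P p.1 p.2) (univ ×ˢ Ici 0) := by
  obtain ⟨R, hR, hI⟩ := h.hat_interval
  have hH : ContDiffOn ℝ ∞ (fun z : ℝ × (ℝ × ℝ) => ek z.1 z.2.1 * P z.1 z.2.2)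
      (Icc (-R) R ×ˢ (univ ×ˢ Ici 0)) := by
    refine ContDiffOn.mul ?_ ?_
    · exact (ek_smooth.comp (contDiff_fst.prodMk (contDiff_fst.comp contDiff_snd))).contDiffOn
    · exact h.1.comp (f := fun z : ℝ × (ℝ × ℝ) => (z.1, z.2.2))
        (contDiff_fst.prodMk (contDiff_snd.comp contDiff_snd)).contDiffOn
        (fun z hz => ⟨trivial, hz.2.2⟩)
  have hK : Convex ℝ ((univ : Set ℝ) ×ˢ Ici (0 : ℝ)) := convex_univ.prod (convex_Ici 0)
  have := contDiffOn_pint (a := -R) (b := R) (by linarith) hK uniqueDiffOn_half hH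
  exact this.congr fun p hp => hI R le_rfl p.1 p.2 hp.2

lemma TS.hat_supp (h : TS P) : ∃ R : ℝ, ∀ ξ y, 0 ≤ y → R ≤ y → hat P ξ y = 0 := by
  obtain ⟨R, hR⟩ := h.2
  refine ⟨R, fun ξ y h0 hy => ?_⟩
  rw [hat_eq]
  have : ∀ s, ek s ξ * P s y = 0 := fun s => by rw [hR s y h0 (Or.inr hy), mul_zero]
  simp [this]

lemma TS.hat_TD (h : TS P) (ξ : ℝ) : TD (hat P ξ) := by
  obtain ⟨R, hR⟩ := h.hat_supp
  refine ⟨?_, max R 0, fun y hy => hR ξ y (le_trans (le_max_right _ _) hy)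
    (le_trans (le_max_left _ _) hy)⟩
  exact h.hat_joint.comp (f := fun y : ℝ => (ξ, y)) (by fun_prop) (fun y hy => ⟨trivial, hy⟩)

lemma ek_cont (ξ : ℝ) : Continuous (fun s => ek s ξ) :=
  ek_smooth.continuous.comp (continuous_id.prodMk continuous_const)

lemma TS.dh_hat (h : TS P) (ξ : ℝ) {y : ℝ} (hy : 0 ≤ y) : dh (hat P ξ) y = hat (dy P) ξ y := by
  obtain ⟨R1, hR1, hI⟩ := h.hat_interval
  obtain ⟨R2, hR2, hI'⟩ := h.tdy.hat_interval
  set S := max R1 R2
  have hS : 0 < S := lt_of_lt_of_le hR1 (le_max_left _ _)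
  have hc1 : ContinuousOn (fun z : ℝ × ℝ => ek z.1 ξ * P z.1 z.2) (Icc (-S) S ×ˢ Ici 0) :=
    (((ek_cont ξ).comp continuous_fst).continuousOn).mul
      (h.cont.mono fun z hz => ⟨trivial, hz.2⟩)
  have hc2 : ContinuousOn (fun z : ℝ × ℝ => ek z.1 ξ * dy P z.1 z.2) (Icc (-S) S ×ˢ Ici 0) :=
    (((ek_cont ξ).comp continuous_fst).continuousOn).mul
      (h.tdy.cont.mono fun z hz => ⟨trivial, hz.2⟩)
  have hc3 : ContinuousOn (fun z : ℝ × ℝ => ContinuousLinearMap.toSpanSingleton ℝ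
      (ek z.1 ξ * dy P z.1 z.2)) (Icc (-S) S ×ˢ Ici 0) :=
    (ContinuousLinearMap.toSpanSingletonLIE ℝ ℂ).continuous.comp_continuousOn hc2
  have := hasFDerivWithinAt_pint (K := Ici (0 : ℝ)) (a := -S) (b := S) (by linarith)
    (convex_Ici 0) (H := fun z : ℝ × ℝ => ek z.1 ξ * P z.1 z.2) hc1 hc3
    (fun r _ q hq => ((h.hasDerivY r hq).const_mul (ek r ξ)).hasFDerivWithinAt) (p := y) hy
  have h2 := this.hasDerivWithinAt
  have h3 : (∫ r in (-S)..S, ContinuousLinearMap.toSpanSingleton ℝ (ek r ξ * dy P r y)) 1 =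
      ∫ s in (-S)..S, ek s ξ * dy P s y := by
    rw [ContinuousLinearMap.intervalIntegral_apply]
    · simp
    · exact ContinuousOn.intervalIntegrable_of_Icc (by linarith)
        (hc3.comp (f := fun s : ℝ => (s, y)) (by fun_prop) (fun s hs => ⟨hs, hy⟩))
  rw [h3] at h2
  rw [hI' S (le_max_right _ _) ξ y hy]
  exact dh_eq hy (h2.congr (fun z hz' => hI S (le_max_left _ _) ξ z hz')
    (hI S (le_max_left _ _) ξ y hy))

lemma TS.hat_ds (h : TS P) (ξ : ℝ) {y : ℝ} (hy : 0 ≤ y) :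
    hat (ds P) ξ y = (2 * Real.pi * Complex.I * ξ) * hat P ξ y := by
  have hd : (fun s => ds P s y) = deriv (fun s => P s y) := rfl
  unfold hat
  rw [hd, Real.fourier_deriv]
  · rfl
  · exact h.toCS.integrableS hy
  · exact (h.sliceS hy).differentiable (by simp)
  · exact h.tds.toCS.integrableS hy

lemma hat_smul (a : ℝ → ℂ) (ξ y : ℝ) : hat (fun s y => a y * P s y) ξ y = a y * hat P ξ y := by
  rw [hat_eq, hat_eq, ← integral_const_mul]
  congr 1
  ext s
  ring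

lemma CS.ek_int (h : CS P) (ξ : ℝ) {y : ℝ} (hy : 0 ≤ y) : Integrable (fun s => ek s ξ * P s y) :=
  (h.integrableS hy).bdd_mul (c := 1) (ek_cont ξ).aestronglyMeasurable
    (Filter.Eventually.of_forall fun s => (norm_ek s ξ).le)

lemma hat_add (hP : CS P) (hQ : CS Q) (ξ : ℝ) {y : ℝ} (hy : 0 ≤ y) :
    hat (fun s y => P s y + Q s y) ξ y = hat P ξ y + hat Q ξ y := by
  rw [hat_eq, hat_eq, hat_eq, ← integral_add (hP.ek_int ξ hy) (hQ.ek_int ξ hy)]
  congr 1
  ext s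
  ring

/-- the integral in `y` of a test function is a test function in `s` -/
lemma TS.q_smooth (h : TS P) : ContDiff ℝ ∞ (fun s => ∫ y in Ioi (0 : ℝ), P s y) ∧
    HasCompactSupport (fun s => ∫ y in Ioi (0 : ℝ), P s y) := by
  obtain ⟨R, hR⟩ := h.2
  constructor
  · set S := |R| + 1
    have hS : 0 < S := by positivity
    have e : (fun s => ∫ y in Ioi (0 : ℝ), P s y) = fun s => ∫ y in (0 : ℝ)..S, P s y := by
      ext s
      rw [intervalIntegral.integral_of_le hS.le]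
      refine setIntegral_eq_of_subset_of_forall_sdiff_eq_zero (s := Ioc 0 S) measurableSet_Ioi
        (fun y hy => hy.1) ?_
      intro y hy
      have h0 : (0 : ℝ) < y := hy.1
      refine hR s y h0.le (Or.inr ?_)
      by_contra hlt
      push Not at hlt
      exact hy.2 ⟨h0, by linarith [le_abs_self R]⟩
    rw [e, ← contDiffOn_univ]
    refine contDiffOn_pint (a := 0) (b := S) hS convex_univ uniqueDiffOn_univ
      (H := fun z : ℝ × ℝ => P z.2 z.1) ?_
    exact h.1.comp (f := fun z : ℝ × ℝ => (z.2, z.1)) (by fun_prop)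
      (fun z hz => ⟨trivial, hz.1.1⟩)
  · refine HasCompactSupport.intro (isCompact_Icc (a := -R) (b := R)) fun s hs => ?_
    have hR' : R ≤ |s| := by
      by_contra hlt
      push Not at hlt
      exact hs (abs_le.1 hlt.le)
    refine setIntegral_eq_zero_of_forall_eq_zero fun y hy => hR s y (le_of_lt hy) (Or.inl hR')

/-- Fourier transform of the integral in `y` -/
lemma CS.fourier_q (h : CS P) (ξ : ℝ) :
    𝓕 (fun s => ∫ y in Ioi (0 : ℝ), P s y) ξ = ∫ y in Ioi (0 : ℝ), hat P ξ y := by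
  have h1 : CS (fun s y => ek s ξ * P s y) := by
    obtain ⟨hc, R, hR⟩ := h
    refine ⟨(((ek_cont ξ).comp continuous_fst).continuousOn).mul hc, R, fun s y hy hsy => ?_⟩
    simp only [hR s y hy hsy, mul_zero]
  have e1 : 𝓕 (fun s => ∫ y in Ioi (0 : ℝ), P s y) ξ =
      ∫ s, ek s ξ * ∫ y in Ioi (0 : ℝ), P s y := by
    rw [Real.fourier_real_eq_integral_exp_smul]; rfl
  rw [e1]
  have e2 : ∀ s, ek s ξ * ∫ y in Ioi (0 : ℝ), P s y = ∫ y in Ioi (0 : ℝ), ek s ξ * P s y :=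
    fun s => (integral_const_mul _ _).symm
  simp_rw [e2]
  rw [h1.integral_swap]
  simp_rw [hat_eq]

end hat

/-- Plancherel, `lintegral` form -/
theorem plancherel_lintegral {f : ℝ → ℂ} (hf : ContDiff ℝ ∞ f) (hc : HasCompactSupport f) :
    ∫⁻ ξ, ENNReal.ofReal (‖𝓕 f ξ‖ ^ 2) = ∫⁻ x, ENNReal.ofReal (‖f x‖ ^ 2) := by
  set φ : SchwartzMap ℝ ℂ := hc.toSchwartzMap hf
  have e : ((φ : SchwartzMap ℝ ℂ) : ℝ → ℂ) = f := rfl
  have e2 : ((𝓕 φ : SchwartzMap ℝ ℂ) : ℝ → ℂ) = 𝓕 f := by rw [SchwartzMap.fourier_coe, e]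
  have i1 : Integrable (fun x => ‖f x‖ ^ 2) := by
    have := (φ.memLp 2 volume).integrable_norm_pow (by norm_num)
    simpa [e] using this
  have i2 : Integrable (fun x => ‖𝓕 f x‖ ^ 2) := by
    have := ((𝓕 φ).memLp 2 volume).integrable_norm_pow (by norm_num)
    rw [← e2]
    simpa using this
  rw [← ofReal_integral_eq_lintegral_ofReal i2 (Filter.Eventually.of_forall fun _ => by positivity),
    ← ofReal_integral_eq_lintegral_ofReal i1 (Filter.Eventually.of_forall fun _ => by positivity),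
    plancherel hf hc]

end Crest.Agent.R213.A
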