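import Crest.Agent.R213.Defs
import Crest.Agent.R213.A.ADefs
import Mathlib

-- ▼ part R213/A/Calc
section

/-!
# Row 213, part A: calculus on the strip (self-contained)

Continuity / integrability / null Lagrangians for functions with compact support in `τ`.
-/

set_option autoImplicit false

open Set MeasureTheory Filter Topology

noncomputable section

namespace Crest.Agent.R213.A

variable {L : ℝ} {u v F : ℝ → ℝ → ℝ}

/-- the strip -/
abbrev I01 : Set ℝ := Ioo (0 : ℝ) 1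

theorem isOpen_I01 : IsOpen I01 := isOpen_Ioo

theorem ud (hL : 0 < L) : UniqueDiffOn ℝ (I01 ×ˢ Icc 0 L) :=
  isOpen_I01.uniqueDiffOn.prod (uniqueDiffOn_Icc hL)

theorem sm_contOn (hu : Sm I01 L u) :
    ContinuousOn (fun p : ℝ × ℝ => u p.1 p.2) (I01 ×ˢ Icc 0 L) :=
  ContDiffOn.continuousOn hu

theorem sm_diff (hu : Sm I01 L u) {t x : ℝ} (ht : t ∈ I01) (hx : x ∈ Icc 0 L) :
    DifferentiableWithinAt ℝ (fun p : ℝ × ℝ => u p.1 p.2) (I01 ×ˢ Icc 0 L) (t, x) :=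
  (ContDiffOn.differentiableOn hu (by simp)) (t, x) ⟨ht, hx⟩

theorem sm_hasDx_aux (hu : Sm I01 L u) {t x : ℝ} (ht : t ∈ I01) (hx : x ∈ Icc 0 L) :
    HasDerivWithinAt (fun y => u t y)
      (fderivWithin ℝ (fun p : ℝ × ℝ => u p.1 p.2) (I01 ×ˢ Icc 0 L) (t, x) (0, 1))
      (Icc 0 L) x := by
  have h1 : HasDerivWithinAt (fun y : ℝ => (t, y)) ((0 : ℝ), (1 : ℝ)) (Icc 0 L) x :=
    (hasDerivWithinAt_const x _ t).prodMk (hasDerivWithinAt_id x _)
  exact (sm_diff hu ht hx).hasFDerivWithinAt.comp_hasDerivWithinAt x h1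
    (fun y hy => Set.mk_mem_prod ht hy)

theorem sm_hasDt_aux (hu : Sm I01 L u) {t x : ℝ} (ht : t ∈ I01) (hx : x ∈ Icc 0 L) :
    HasDerivAt (fun r => u r x)
      (fderivWithin ℝ (fun p : ℝ × ℝ => u p.1 p.2) (I01 ×ˢ Icc 0 L) (t, x) (1, 0)) t := by
  have h1 : HasDerivWithinAt (fun r : ℝ => (r, x)) ((1 : ℝ), (0 : ℝ)) I01 t :=
    (hasDerivWithinAt_id t _).prodMk (hasDerivWithinAt_const t _ x)
  exact ((sm_diff hu ht hx).hasFDerivWithinAt.comp_hasDerivWithinAt t h1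
    (fun y hy => Set.mk_mem_prod hy hx)).hasDerivAt (isOpen_I01.mem_nhds ht)

theorem dx_val {a t x : ℝ} (hL : 0 < L) (hx : x ∈ Icc 0 L)
    (h : HasDerivWithinAt (fun y => u t y) a (Icc 0 L) x) : dx L u t x = a :=
  h.derivWithin ((uniqueDiffOn_Icc hL) x hx)

theorem dt_val {a t x : ℝ} (h : HasDerivAt (fun r => u r x) a t) : dt u t x = a := h.deriv

theorem sm_hasDx (hL : 0 < L) (hu : Sm I01 L u) {t x : ℝ} (ht : t ∈ I01) (hx : x ∈ Icc 0 L) :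
    HasDerivWithinAt (fun y => u t y) (dx L u t x) (Icc 0 L) x := by
  rw [dx_val hL hx (sm_hasDx_aux hu ht hx)]
  exact sm_hasDx_aux hu ht hx

theorem sm_hasDt (hu : Sm I01 L u) {t x : ℝ} (ht : t ∈ I01) (hx : x ∈ Icc 0 L) :
    HasDerivAt (fun r => u r x) (dt u t x) t := by
  rw [dt_val (sm_hasDt_aux hu ht hx)]
  exact sm_hasDt_aux hu ht hx

theorem sm_hasDx' (hL : 0 < L) (hu : Sm I01 L u) {t x : ℝ} (ht : t ∈ I01) (hx : x ∈ Ioo 0 L) :
    HasDerivAt (fun y => u t y) (dx L u t x) x :=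
  (sm_hasDx hL hu ht (Ioo_subset_Icc_self hx)).hasDerivAt (Icc_mem_nhds hx.1 hx.2)

theorem sm_congr (hu : Sm I01 L u) (h : ∀ t ∈ I01, ∀ x ∈ Icc 0 L, v t x = u t x) :
    Sm I01 L v :=
  ContDiffOn.congr hu (fun p hp => h p.1 hp.1 p.2 hp.2)

theorem sm_fderiv (hL : 0 < L) (hu : Sm I01 L u) (w : ℝ × ℝ) :
    ContDiffOn ℝ (⊤ : ℕ∞)
      (fun p => fderivWithin ℝ (fun p : ℝ × ℝ => u p.1 p.2) (I01 ×ˢ Icc 0 L) p w)
      (I01 ×ˢ Icc 0 L) :=
  (ContDiffOn.fderivWithin hu (ud hL) (by simp)).clm_apply contDiffOn_const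

theorem sm_dx (hL : 0 < L) (hu : Sm I01 L u) : Sm I01 L (dx L u) :=
  ContDiffOn.congr (sm_fderiv hL hu (0, 1))
    (fun _ hp => dx_val hL hp.2 (sm_hasDx_aux hu hp.1 hp.2))

theorem sm_dt (hL : 0 < L) (hu : Sm I01 L u) : Sm I01 L (dt u) :=
  ContDiffOn.congr (sm_fderiv hL hu (1, 0))
    (fun _ hp => dt_val (sm_hasDt_aux hu hp.1 hp.2))

theorem sm_mul (hu : Sm I01 L u) (hv : Sm I01 L v) : Sm I01 L (fun t x => u t x * v t x) :=
  ContDiffOn.mul hu hv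

theorem sm_add (hu : Sm I01 L u) (hv : Sm I01 L v) : Sm I01 L (fun t x => u t x + v t x) :=
  ContDiffOn.add hu hv

theorem sm_sub (hu : Sm I01 L u) (hv : Sm I01 L v) : Sm I01 L (fun t x => u t x - v t x) :=
  ContDiffOn.sub hu hv


theorem sm_pow (hu : Sm I01 L u) (n : ℕ) : Sm I01 L (fun t x => u t x ^ n) :=
  ContDiffOn.pow hu n

theorem sm_const (c : ℝ) : Sm I01 L (fun _ _ => c) := contDiffOn_const

theorem sm_fst : Sm I01 L (fun t _ => t) := contDiff_fst.contDiffOn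

theorem sm_snd : Sm I01 L (fun _ x => x) := contDiff_snd.contDiffOn

theorem sm_div (hu : Sm I01 L u) (hv : Sm I01 L v) (h : ∀ t ∈ I01, ∀ x ∈ Icc 0 L, v t x ≠ 0) :
    Sm I01 L (fun t x => u t x / v t x) :=
  ContDiffOn.div hu hv (fun p hp => h p.1 hp.1 p.2 hp.2)

theorem sm_rpow (hu : Sm I01 L u) (a : ℝ) (h : ∀ t ∈ I01, ∀ x ∈ Icc 0 L, u t x ≠ 0) :
    Sm I01 L (fun t x => u t x ^ a) :=
  ContDiffOn.rpow_const_of_ne hu (fun p hp => h p.1 hp.1 p.2 hp.2)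

theorem sm_of_x {f : ℝ → ℝ} (hf : ContDiff ℝ (⊤ : ℕ∞) f) : Sm I01 L (fun _ x => f x) :=
  (hf.comp contDiff_snd).contDiffOn

/-! ### Compact support in `τ` -/

/-- vanishing for `τ` outside a compact subinterval of `(0,1)`. -/
def TSupp (F : ℝ → ℝ → ℝ) : Prop :=
  ∃ a b : ℝ, 0 < a ∧ a < b ∧ b < 1 ∧ ∀ τ x, τ ∉ Icc a b → F τ x = 0

theorem TSupp.mul_left (hF : TSupp F) (v : ℝ → ℝ → ℝ) : TSupp (fun t x => v t x * F t x) := by
  obtain ⟨a, b, h0, h1, h2, h3⟩ := hF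
  exact ⟨a, b, h0, h1, h2, fun τ x h => by simp [h3 τ x h]⟩

theorem TSupp.mul_right (hF : TSupp F) (v : ℝ → ℝ → ℝ) : TSupp (fun t x => F t x * v t x) := by
  obtain ⟨a, b, h0, h1, h2, h3⟩ := hF
  exact ⟨a, b, h0, h1, h2, fun τ x h => by simp [h3 τ x h]⟩

theorem TSupp.add (hF : TSupp u) (hG : TSupp v) : TSupp (fun t x => u t x + v t x) := by
  obtain ⟨a, b, h0, h1, h2, h3⟩ := hF
  obtain ⟨a', b', h0', h1', h2', h3'⟩ := hG
  refine ⟨min a a', max b b', lt_min h0 h0', lt_of_le_of_lt (min_le_left _ _)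
    (lt_of_lt_of_le h1 (le_max_left _ _)), max_lt h2 h2', fun τ x h => ?_⟩
  rw [mem_Icc, not_and_or, not_le, not_le] at h
  have e1 : τ ∉ Icc a b := by
    rw [mem_Icc, not_and_or, not_le, not_le]
    rcases h with h | h
    · left; exact lt_of_lt_of_le h (min_le_left _ _)
    · right; exact lt_of_le_of_lt (le_max_left _ _) h
  have e2 : τ ∉ Icc a' b' := by
    rw [mem_Icc, not_and_or, not_le, not_le]
    rcases h with h | h
    · left; exact lt_of_lt_of_le h (min_le_right _ _)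
    · right; exact lt_of_le_of_lt (le_max_right _ _) h
  simp [h3 τ x e1, h3' τ x e2]

theorem TSupp.neg (hF : TSupp F) : TSupp (fun t x => - F t x) := by
  obtain ⟨a, b, h0, h1, h2, h3⟩ := hF
  exact ⟨a, b, h0, h1, h2, fun τ x h => by simp [h3 τ x h]⟩

theorem TSupp.sub (hF : TSupp u) (hG : TSupp v) : TSupp (fun t x => u t x - v t x) := by
  simpa [sub_eq_add_neg] using hF.add hG.neg

theorem TSupp.pow (hF : TSupp F) {n : ℕ} (hn : n ≠ 0) : TSupp (fun t x => F t x ^ n) := by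
  obtain ⟨a, b, h0, h1, h2, h3⟩ := hF
  exact ⟨a, b, h0, h1, h2, fun τ x h => by simp [h3 τ x h, hn]⟩

theorem TSupp.dx (hF : TSupp F) (L : ℝ) : TSupp (dx L F) := by
  obtain ⟨a, b, h0, h1, h2, h3⟩ := hF
  refine ⟨a, b, h0, h1, h2, fun τ x h => ?_⟩
  have : (fun y => F τ y) = fun _ => (0 : ℝ) := funext fun y => h3 τ y h
  simp [R213.dx, this]

theorem TSupp.dt (hF : TSupp F) : TSupp (dt F) := by
  obtain ⟨a, b, h0, h1, h2, h3⟩ := hF
  refine ⟨a, b, h0, h1, h2, fun τ x h => ?_⟩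
  have hev : (fun r => F r x) =ᶠ[𝓝 τ] fun _ => (0 : ℝ) := by
    filter_upwards [isClosed_Icc.isOpen_compl.mem_nhds h] with r hr
    exact h3 r x hr
  simp only [R213.dt]
  rw [hev.deriv_eq]
  simp



/-! ### Integrability -/

theorem integrable_of_cont (hF : ContinuousOn (fun p : ℝ × ℝ => F p.1 p.2) (I01 ×ˢ Icc 0 L))
    (hS : TSupp F) : IntegrableOn (fun p : ℝ × ℝ => F p.1 p.2) (I01 ×ˢ Ioo (0 : ℝ) L) := by
  obtain ⟨a, b, h0, h1, h2, h3⟩ := hS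
  have hK : IntegrableOn (fun p : ℝ × ℝ => F p.1 p.2) (Icc a b ×ˢ Icc (0 : ℝ) L) := by
    apply ContinuousOn.integrableOn_compact (isCompact_Icc.prod isCompact_Icc)
    exact hF.mono (Set.prod_mono (fun y hy => ⟨lt_of_lt_of_le h0 hy.1, lt_of_le_of_lt hy.2 h2⟩)
      subset_rfl)
  have h4 : IntegrableOn (fun p : ℝ × ℝ => F p.1 p.2)
      ((Icc a b ×ˢ Icc (0 : ℝ) L) ∪ ((Icc a b)ᶜ ×ˢ Icc (0 : ℝ) L)) := by
    refine hK.union ?_
    have hz : IntegrableOn (fun _ : ℝ × ℝ => (0 : ℝ)) ((Icc a b)ᶜ ×ˢ Icc (0 : ℝ) L) :=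
      integrableOn_zero
    exact hz.congr_fun (fun p hp => (h3 p.1 p.2 hp.1).symm)
      (measurableSet_Icc.compl.prod measurableSet_Icc)
  refine h4.mono_set ?_
  rintro ⟨τ, x⟩ ⟨hτ, hx⟩
  by_cases h : τ ∈ Icc a b
  · left; exact ⟨h, Ioo_subset_Icc_self hx⟩
  · right; exact ⟨h, Ioo_subset_Icc_self hx⟩

theorem integrable_of_sm (hF : Sm I01 L F) (hS : TSupp F) :
    IntegrableOn (fun p : ℝ × ℝ => F p.1 p.2) (I01 ×ˢ Ioo (0 : ℝ) L) :=
  integrable_of_cont (sm_contOn hF) hS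

/-! ### Null Lagrangians -/

theorem II_dx_zero (hL : 0 < L) (hF : Sm I01 L F) (hS : TSupp F)
    (h0 : ∀ τ ∈ I01, F τ 0 = 0) (h1 : ∀ τ ∈ I01, F τ L = 0) : II L (dx L F) = 0 := by
  have hi : IntegrableOn (fun p : ℝ × ℝ => dx L F p.1 p.2) (I01 ×ˢ Ioo (0 : ℝ) L) :=
    integrable_of_sm (sm_dx hL hF) (hS.dx L)
  unfold II
  rw [Measure.volume_eq_prod] at hi ⊢
  rw [setIntegral_prod _ hi]
  have : ∀ τ ∈ I01, ∫ y in Ioo (0 : ℝ) L, dx L F τ y = 0 := by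
    intro τ hτ
    rw [← integral_Ioc_eq_integral_Ioo, ← intervalIntegral.integral_of_le hL.le]
    have hc : ContinuousOn (fun y => F τ y) (Icc 0 L) :=
      (sm_contOn hF).comp (f := fun y : ℝ => (τ, y))
        (Continuous.continuousOn (by fun_prop)) (fun y hy => Set.mk_mem_prod hτ hy)
    have hc' : ContinuousOn (fun y => dx L F τ y) (Icc 0 L) :=
      (sm_contOn (sm_dx hL hF)).comp (f := fun y : ℝ => (τ, y))
        (Continuous.continuousOn (by fun_prop)) (fun y hy => Set.mk_mem_prod hτ hy)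
    rw [intervalIntegral.integral_eq_sub_of_hasDerivAt_of_le hL.le hc
      (fun y hy => sm_hasDx' hL hF hτ hy)
      (by
        apply ContinuousOn.intervalIntegrable
        rw [uIcc_of_le hL.le]; exact hc')]
    rw [h0 τ hτ, h1 τ hτ, sub_zero]
  rw [setIntegral_congr_fun measurableSet_Ioo (g := fun _ => (0 : ℝ)) (fun τ hτ => this τ hτ)]
  simp

theorem II_dt_zero (hL : 0 < L) (hF : Sm I01 L F) (hS : TSupp F) : II L (dt F) = 0 := by
  have hi : IntegrableOn (fun p : ℝ × ℝ => dt F p.1 p.2) (I01 ×ˢ Ioo (0 : ℝ) L) :=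
    integrable_of_sm (sm_dt hL hF) hS.dt
  obtain ⟨a, b, h0, h1, h2, h3⟩ := hS
  obtain ⟨a', ha', ha''⟩ := exists_between h0
  obtain ⟨b', hb', hb''⟩ := exists_between h2
  have hab : a' ≤ b' := by linarith
  unfold II
  rw [Measure.volume_eq_prod] at hi ⊢
  rw [← setIntegral_prod_swap, setIntegral_prod]
  · have : ∀ x ∈ Ioo (0 : ℝ) L, ∫ τ in I01, dt F τ x = 0 := by
      intro x hx
      have hx' : x ∈ Icc 0 L := Ioo_subset_Icc_self hx
      have hsub : Ioc a' b' ⊆ I01 := fun y hy => ⟨ha'.trans hy.1, lt_of_le_of_lt hy.2 hb''⟩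
      have h5 : ∫ τ in I01, dt F τ x = ∫ τ in Ioc a' b', dt F τ x := by
        apply setIntegral_eq_of_subset_of_forall_sdiff_eq_zero measurableSet_Ioo hsub
        rintro y ⟨hy, hy'⟩
        have hyy : y ∉ Icc a b := by
          intro h
          exact hy' ⟨lt_of_lt_of_le ha'' h.1, h.2.trans hb'.le⟩
        have hev : (fun r => F r x) =ᶠ[𝓝 y] fun _ => (0 : ℝ) := by
          filter_upwards [isClosed_Icc.isOpen_compl.mem_nhds hyy] with r hr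
          exact h3 r x hr
        simp only [R213.dt]
        rw [hev.deriv_eq]; simp
      rw [h5, ← intervalIntegral.integral_of_le hab]
      have hsub' : Icc a' b' ⊆ I01 := fun y hy => ⟨lt_of_lt_of_le ha' hy.1, lt_of_le_of_lt hy.2 hb''⟩
      have hc' : ContinuousOn (fun y => dt F y x) (Icc a' b') :=
        (sm_contOn (sm_dt hL hF)).comp (f := fun y : ℝ => (y, x))
          (Continuous.continuousOn (by fun_prop)) (fun y hy => Set.mk_mem_prod (hsub' hy) hx')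
      rw [intervalIntegral.integral_eq_sub_of_hasDerivAt (f := fun r => F r x)]
      · rw [h3 b' x (fun h => absurd h.2 (not_le.2 hb')), h3 a' x (fun h => absurd h.1 (not_le.2 ha'')),
          sub_zero]
      · intro y hy
        rw [uIcc_of_le hab] at hy
        exact sm_hasDt hF (hsub' hy) hx'
      · apply ContinuousOn.intervalIntegrable
        rw [uIcc_of_le hab]; exact hc'
    simp only [Prod.fst_swap, Prod.snd_swap]
    rw [setIntegral_congr_fun measurableSet_Ioo (g := fun _ => (0 : ℝ)) (fun x hx => this x hx)]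
    simp
  · exact hi.swap

end Crest.Agent.R213.A
end
end

-- ▼ part R213/A/Interp
section

/-!
# Row 213, part A: weighted interpolation (A1)

`∫ x⁹ ω (φ v')²/(x²+τ) ≤ η ∫ x⁹ ω (φ v'')² + C ∫ x⁹ ω v²/(x²+τ)` for weights with
`|ω'| ≤ K x ω/(x²+τ)`.
-/

set_option autoImplicit false

open Set MeasureTheory Filter Topology

noncomputable section

namespace Crest.Agent.R213.A

/-- elementary `ab ≤ η a²/2 + b²/(2η)` -/
theorem young {η a b : ℝ} (hη : 0 < η) : a * b ≤ η / 2 * a ^ 2 + 1 / (2 * η) * b ^ 2 := by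
  have h : 0 ≤ (η * a - b) ^ 2 / (2 * η) := by positivity
  have e : (η * a - b) ^ 2 / (2 * η) = η / 2 * a ^ 2 + 1 / (2 * η) * b ^ 2 - a * b := by
    field_simp; ring
  linarith

/-- pointwise form of the interpolation inequality. `w` weight, `wx` its derivative,
`φ`, `f = φ'`, `v, p = v', q = v''`. -/
theorem interp_pt {x r w wx φ f v p q C0 K η : ℝ} (hx : 0 ≤ x) (hr : 0 < r) (hxr : x ^ 2 ≤ r)
    (hw : 0 ≤ w) (hC0 : 0 ≤ C0) (hK : 0 ≤ K) (hη : 0 < η) (hφ : |φ| ≤ C0 * x) (hf : |f| ≤ C0)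
    (hwx : |wx| ≤ K * (x * w / r)) :
    x ^ 9 * w * (φ * p) ^ 2 / r ≤
      4 / 3 * ((9 * x ^ 8 * (w * φ ^ 2 / r) + x ^ 9 * ((wx * φ ^ 2 + w * (2 * φ * f)) / r
        - w * φ ^ 2 * (2 * x) / r ^ 2)) * (v * p) + x ^ 9 * (w * φ ^ 2 / r) * (p * p + v * q))
      + 2 / 3 * η * (x ^ 9 * w * (φ * q) ^ 2)
      + 4 / 3 * (C0 ^ 2 * (13 + K) ^ 2 + C0 ^ 2 / (2 * η)) * (x ^ 9 * w * v ^ 2 / r) := by
  -- the three pieces
  set T : ℝ := x ^ 9 * w / r with hT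
  have hT0 : 0 ≤ T := by positivity
  have hφ0 : 0 ≤ |φ| := abs_nonneg _
  -- the first-order coefficient
  set P1 : ℝ := 9 * x ^ 8 * (w * φ ^ 2 / r) + x ^ 9 * ((wx * φ ^ 2 + w * (2 * φ * f)) / r
        - w * φ ^ 2 * (2 * x) / r ^ 2) with hP1
  have hφ2 : φ ^ 2 = |φ| * |φ| := by rw [← sq, sq_abs]
  have b1 : |9 * x ^ 8 * (w * φ ^ 2 / r)| ≤ T * |φ| * (9 * C0) := by
    rw [abs_of_nonneg (by positivity), hφ2]
    have : 9 * x ^ 8 * (w * (|φ| * |φ|) / r) = (9 * x ^ 8 * w / r * |φ|) * |φ| := by ring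
    rw [this]
    have h2 : (9 * x ^ 8 * w / r * |φ|) * |φ| ≤ (9 * x ^ 8 * w / r * |φ|) * (C0 * x) :=
      mul_le_mul_of_nonneg_left hφ (by positivity)
    refine h2.trans (le_of_eq ?_)
    rw [hT]; ring
  have hx2r : x * (C0 * x) / r ≤ C0 := by
    rw [div_le_iff₀ hr]; nlinarith
  have b2 : |x ^ 9 * (wx * φ ^ 2 / r)| ≤ T * |φ| * (K * C0) := by
    rw [abs_mul, abs_div, abs_mul, abs_of_nonneg (pow_nonneg hx 9), abs_of_pos hr,
      abs_of_nonneg (sq_nonneg φ), hφ2]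
    calc x ^ 9 * (|wx| * (|φ| * |φ|) / r) ≤ x ^ 9 * ((K * (x * w / r)) * (|φ| * (C0 * x)) / r) := by
          gcongr
      _ = T * |φ| * (K * (x * (C0 * x) / r)) := by rw [hT]; ring
      _ ≤ T * |φ| * (K * C0) := by gcongr
  have b3 : |x ^ 9 * (w * (2 * φ * f) / r)| ≤ T * |φ| * (2 * C0) := by
    rw [abs_mul, abs_div, abs_mul, abs_mul, abs_mul, abs_of_nonneg (pow_nonneg hx 9),
      abs_of_pos hr, abs_of_nonneg hw, abs_of_pos (by norm_num : (0:ℝ) < 2)]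
    calc x ^ 9 * (w * (2 * |φ| * |f|) / r) ≤ x ^ 9 * (w * (2 * |φ| * C0) / r) := by gcongr
      _ = T * |φ| * (2 * C0) := by rw [hT]; ring
  have b4 : |x ^ 9 * (w * φ ^ 2 * (2 * x) / r ^ 2)| ≤ T * |φ| * (2 * C0) := by
    rw [abs_of_nonneg (by positivity), hφ2]
    calc x ^ 9 * (w * (|φ| * |φ|) * (2 * x) / r ^ 2)
        ≤ x ^ 9 * (w * (|φ| * (C0 * x)) * (2 * x) / r ^ 2) := by gcongr
      _ = T * |φ| * (2 * (x * (C0 * x) / r)) := by rw [hT]; field_simp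
      _ ≤ T * |φ| * (2 * C0) := by gcongr
  have bP : |P1| ≤ T * |φ| * (C0 * (13 + K)) := by
    have e : P1 = 9 * x ^ 8 * (w * φ ^ 2 / r) + (x ^ 9 * (wx * φ ^ 2 / r)
        + x ^ 9 * (w * (2 * φ * f) / r) - x ^ 9 * (w * φ ^ 2 * (2 * x) / r ^ 2)) := by
      rw [hP1]; ring
    rw [e]
    calc _ ≤ |9 * x ^ 8 * (w * φ ^ 2 / r)| + (|x ^ 9 * (wx * φ ^ 2 / r)|
        + |x ^ 9 * (w * (2 * φ * f) / r)| + |x ^ 9 * (w * φ ^ 2 * (2 * x) / r ^ 2)|) := by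
          refine (abs_add_le _ _).trans ?_
          gcongr
          refine (abs_sub _ _).trans ?_
          gcongr
          exact abs_add_le _ _
      _ ≤ _ := by nlinarith [b1, b2, b3, b4]
  -- Young
  have y1 : |P1 * (v * p)| ≤ T * (1 / 4 * (φ * p) ^ 2 + (C0 * (13 + K)) ^ 2 * v ^ 2) := by
    rw [abs_mul]
    have h1 : |P1| * |v * p| ≤ T * |φ| * (C0 * (13 + K)) * |v * p| :=
      mul_le_mul_of_nonneg_right bP (abs_nonneg _)
    have h2 : T * |φ| * (C0 * (13 + K)) * |v * p| = T * (|φ * p| * (C0 * (13 + K) * |v|)) := by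
      rw [abs_mul, abs_mul]; ring
    have h3 : |φ * p| * (C0 * (13 + K) * |v|) ≤ 1 / 4 * (φ * p) ^ 2
        + (C0 * (13 + K)) ^ 2 * v ^ 2 := by
      have := young (a := |φ * p|) (b := C0 * (13 + K) * |v|) (by norm_num : (0:ℝ) < 1 / 2)
      rw [mul_pow, sq_abs, sq_abs] at this
      linarith
    calc |P1| * |v * p| ≤ T * (|φ * p| * (C0 * (13 + K) * |v|)) := by rw [← h2]; exact h1
      _ ≤ _ := mul_le_mul_of_nonneg_left h3 hT0
  have y2 : |x ^ 9 * (w * φ ^ 2 / r) * (v * q)| ≤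
      η / 2 * (x ^ 9 * w * (φ * q) ^ 2) + C0 ^ 2 / (2 * η) * (x ^ 9 * w * v ^ 2 / r) := by
    have e1 : |x ^ 9 * (w * φ ^ 2 / r) * (v * q)|
        = x ^ 9 * w * (|φ * q| * (|φ| * |v| / r)) := by
      rw [abs_mul, abs_of_nonneg (by positivity : 0 ≤ x ^ 9 * (w * φ ^ 2 / r)), hφ2, abs_mul,
        abs_mul]
      ring
    rw [e1]
    have h3 := young (a := |φ * q|) (b := |φ| * |v| / r) hη
    rw [sq_abs, div_pow, mul_pow |φ| |v|, sq_abs, sq_abs] at h3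
    have h4 : φ ^ 2 * v ^ 2 / r ^ 2 ≤ C0 ^ 2 * (v ^ 2 / r) := by
      have h5 : φ ^ 2 ≤ C0 ^ 2 * x ^ 2 := by
        rw [← mul_pow, ← sq_abs φ]
        exact pow_le_pow_left₀ (abs_nonneg _) hφ 2
      have h6 : φ ^ 2 ≤ C0 ^ 2 * r := h5.trans (by gcongr)
      calc φ ^ 2 * v ^ 2 / r ^ 2 ≤ (C0 ^ 2 * r) * v ^ 2 / r ^ 2 := by gcongr
        _ = C0 ^ 2 * (v ^ 2 / r) := by field_simp
    have h7 : |φ * q| * (|φ| * |v| / r) ≤ η / 2 * (φ * q) ^ 2
        + 1 / (2 * η) * (C0 ^ 2 * (v ^ 2 / r)) :=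
      h3.trans (by gcongr)
    calc x ^ 9 * w * (|φ * q| * (|φ| * |v| / r))
        ≤ x ^ 9 * w * (η / 2 * (φ * q) ^ 2 + 1 / (2 * η) * (C0 ^ 2 * (v ^ 2 / r))) :=
          mul_le_mul_of_nonneg_left h7 (by positivity)
      _ = _ := by ring
  have hA : x ^ 9 * w * (φ * p) ^ 2 / r = T * (φ * p) ^ 2 := by rw [hT]; ring
  have hB : x ^ 9 * w * v ^ 2 / r = T * v ^ 2 := by rw [hT]; ring
  have hC : x ^ 9 * (w * φ ^ 2 / r) * (p * p + v * q)
      = T * (φ * p) ^ 2 + x ^ 9 * (w * φ ^ 2 / r) * (v * q) := by rw [hT]; ring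
  rw [hC, hA, hB]
  rw [hB] at y2
  have z1 := neg_abs_le (P1 * (v * p))
  have z2 := neg_abs_le (x ^ 9 * (w * φ ^ 2 / r) * (v * q))
  have e2 : T * (1 / 4 * (φ * p) ^ 2 + (C0 * (13 + K)) ^ 2 * v ^ 2)
     = 1 / 4 * (T * (φ * p) ^ 2) + C0 ^ 2 * (13 + K) ^ 2 * (T * v ^ 2) := by ring
  rw [e2] at y1
  have e3 : 4 / 3 * (C0 ^ 2 * (13 + K) ^ 2 + C0 ^ 2 / (2 * η)) * (T * v ^ 2)
    = 4 / 3 * (C0 ^ 2 * (13 + K) ^ 2 * (T * v ^ 2)) + 4 / 3 * (C0 ^ 2 / (2 * η) * (T * v ^ 2)) := by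
    ring
  rw [e3]
  linarith

/-! ### `II` on test integrands -/

variable {L : ℝ} {u v F : ℝ → ℝ → ℝ}

theorem tst_integrable (h : Tst L F) :
    IntegrableOn (fun p : ℝ × ℝ => F p.1 p.2) (I01 ×ˢ Ioo (0 : ℝ) L) :=
  integrable_of_sm h.1 h.2

theorem tst_mul_left (hu : Sm I01 L u) (hv : Tst L v) : Tst L (fun t x => u t x * v t x) :=
  ⟨sm_mul hu hv.1, TSupp.mul_left hv.2 u⟩

theorem tst_mul_right (hu : Tst L u) (hv : Sm I01 L v) : Tst L (fun t x => u t x * v t x) :=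
  ⟨sm_mul hu.1 hv, TSupp.mul_right hu.2 v⟩

theorem tst_add (hu : Tst L u) (hv : Tst L v) : Tst L (fun t x => u t x + v t x) :=
  ⟨sm_add hu.1 hv.1, TSupp.add hu.2 hv.2⟩

theorem tst_sub (hu : Tst L u) (hv : Tst L v) : Tst L (fun t x => u t x - v t x) :=
  ⟨sm_sub hu.1 hv.1, TSupp.sub hu.2 hv.2⟩

theorem tst_pow (hu : Tst L u) {n : ℕ} (hn : n ≠ 0) : Tst L (fun t x => u t x ^ n) :=
  ⟨sm_pow hu.1 n, TSupp.pow hu.2 hn⟩

theorem tst_const_mul (c : ℝ) (hu : Tst L u) : Tst L (fun t x => c * u t x) :=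
  tst_mul_left (sm_const c) hu

theorem tst_dx (hL : 0 < L) (hu : Tst L u) : Tst L (dx L u) := ⟨sm_dx hL hu.1, TSupp.dx hu.2 L⟩

theorem tst_dt (hL : 0 < L) (hu : Tst L u) : Tst L (dt u) := ⟨sm_dt hL hu.1, TSupp.dt hu.2⟩

theorem tst_congr (hu : Tst L u) (h : ∀ t x, v t x = u t x) : Tst L v := by
  have : v = u := funext fun t => funext fun x => h t x
  rw [this]; exact hu

theorem II_add (hu : Tst L u) (hv : Tst L v) :
    II L (fun t x => u t x + v t x) = II L u + II L v :=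
  integral_add (tst_integrable hu) (tst_integrable hv)

theorem II_sub (hu : Tst L u) (hv : Tst L v) :
    II L (fun t x => u t x - v t x) = II L u - II L v :=
  integral_sub (tst_integrable hu) (tst_integrable hv)

theorem II_const_mul (c : ℝ) : II L (fun t x => c * u t x) = c * II L u :=
  integral_const_mul c _

theorem meas_dom : MeasurableSet (I01 ×ˢ Ioo (0 : ℝ) L) := measurableSet_Ioo.prod measurableSet_Ioo

theorem II_congr (h : ∀ t ∈ I01, ∀ x ∈ Ioo 0 L, u t x = v t x) : II L u = II L v :=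
  setIntegral_congr_fun meas_dom (fun p hp => h p.1 hp.1 p.2 hp.2)

theorem II_mono (hu : Tst L u) (hv : Tst L v)
    (h : ∀ t ∈ I01, ∀ x ∈ Ioo 0 L, u t x ≤ v t x) : II L u ≤ II L v :=
  setIntegral_mono_on (tst_integrable hu) (tst_integrable hv) meas_dom
    (fun p hp => h p.1 hp.1 p.2 hp.2)

theorem II_nonneg (h : ∀ t ∈ I01, ∀ x ∈ Ioo 0 L, 0 ≤ u t x) : 0 ≤ II L u :=
  setIntegral_nonneg meas_dom (fun p hp => h p.1 hp.1 p.2 hp.2)


/-- bounds on the background used by part A -/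
structure PhiB (C0 L : ℝ) (φ : ℝ → ℝ → ℝ) : Prop where
  C0_nonneg : 0 ≤ C0
  L_pos : 0 < L
  sm : Sm I01 L φ
  bd : ∀ τ ∈ I01, ∀ x ∈ Icc 0 L, |φ τ x| ≤ C0 * x
  atL : ∀ τ ∈ I01, φ τ L = 0
  dbd : ∀ τ ∈ I01, ∀ x ∈ Icc 0 L, |dx L φ τ x| ≤ C0

theorem PhiB.of_Bg {c0 C0 : ℝ} {g : ℝ → ℝ} {φ m : ℝ → ℝ → ℝ} (h : Bg c0 C0 g L φ m)
    (hc0 : 0 ≤ c0) : PhiB C0 L φ := by
  have hL : 0 < L := by linarith [h.L_ge]
  have hhalf : (1 / 2 : ℝ) ∈ Ioo (0 : ℝ) 1 := by constructor <;> norm_num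
  have h0 : (0 : ℝ) ∈ Icc 0 L := ⟨le_rfl, hL.le⟩
  have hC0 : 0 ≤ C0 := (abs_nonneg _).trans (h.dphi _ hhalf 0 h0)
  refine ⟨hC0, hL, ?_, ?_, ?_, h.dphi⟩
  · have : Sm I01 L (fun τ x => x * (1 - x / L) * m τ x) :=
      sm_mul (sm_of_x (f := fun x => x * (1 - x / L)) (by fun_prop)) h.sm
    exact sm_congr this (fun t ht x hx => h.phi_eq t ht x hx)
  · intro τ hτ x hx
    rw [h.phi_eq τ hτ x hx]
    have h1 : 0 ≤ 1 - x / L := by
      rw [sub_nonneg, div_le_one hL]; exact hx.2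
    have h2 : 1 - x / L ≤ 1 := by
      have := div_nonneg hx.1 hL.le; linarith
    have h3 : 0 ≤ m τ x := hc0.trans (h.lower τ hτ x hx)
    have h4 := h.upper τ hτ x hx
    rw [abs_of_nonneg (mul_nonneg (mul_nonneg hx.1 h1) h3)]
    calc x * (1 - x / L) * m τ x ≤ x * 1 * C0 := by
          gcongr
          exact mul_nonneg hx.1 (by norm_num)
          exact hx.1
      _ = C0 * x := by ring
  · intro τ hτ
    rw [h.phi_eq τ hτ L ⟨hL.le, le_rfl⟩, div_self hL.ne']; ring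

theorem r_pos {t x : ℝ} (ht : t ∈ I01) : 0 < x ^ 2 + t := by
  have := ht.1; positivity

theorem sm_r : Sm I01 L (fun t x => x ^ 2 + t) := sm_add (sm_pow sm_snd 2) sm_fst

/-- the derivative of the null Lagrangian -/
theorem dN_eq {C0 : ℝ} {φ ω v : ℝ → ℝ → ℝ} (hφ : PhiB C0 L φ) (hω : Sm I01 L ω) (hv : Sm I01 L v)
    {t x : ℝ} (ht : t ∈ I01) (hx : x ∈ Icc 0 L) :
    dx L (fun t x => x ^ 9 * (ω t x * φ t x ^ 2 / (x ^ 2 + t)) * (v t x * dx L v t x)) t x =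
    (9 * x ^ 8 * (ω t x * φ t x ^ 2 / (x ^ 2 + t)) + x ^ 9 * ((dx L ω t x * φ t x ^ 2
      + ω t x * (2 * φ t x * dx L φ t x)) / (x ^ 2 + t)
        - ω t x * φ t x ^ 2 * (2 * x) / (x ^ 2 + t) ^ 2)) * (v t x * dx L v t x)
      + x ^ 9 * (ω t x * φ t x ^ 2 / (x ^ 2 + t)) *
        (dx L v t x * dx L v t x + v t x * dx L (dx L v) t x) := by
  have hL := hφ.L_pos
  have hr : x ^ 2 + t ≠ 0 := (r_pos ht).ne'
  apply dx_val hL hx
  have e1 := sm_hasDx hL hω ht hx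
  have e2 := sm_hasDx hL hφ.sm ht hx
  have e3 := sm_hasDx hL hv ht hx
  have e4 := sm_hasDx hL (sm_dx hL hv) ht hx
  have e5 : HasDerivWithinAt (fun y : ℝ => y ^ 2 + t) (2 * x) (Icc 0 L) x := by
    simpa using ((hasDerivAt_pow 2 x).add_const t).hasDerivWithinAt
  have e6 : HasDerivWithinAt (fun y : ℝ => y ^ 9) (9 * x ^ 8) (Icc 0 L) x := by
    simpa using (hasDerivAt_pow 9 x).hasDerivWithinAt
  have := (e6.mul ((e1.mul (e2.pow 2)).div e5 hr)).mul (e3.mul e4)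
  refine this.congr_deriv ?_
  simp only [Pi.mul_apply, Pi.pow_apply, Pi.div_apply]
  field_simp
  ring

/-- **weighted interpolation (A1)** -/
theorem interp_w {C0 K η : ℝ} {φ ω v : ℝ → ℝ → ℝ} (hφ : PhiB C0 L φ) (hK : 0 ≤ K) (hη : 0 < η)
    (hω : Sm I01 L ω) (hω0 : ∀ t ∈ I01, ∀ x ∈ Icc 0 L, 0 ≤ ω t x)
    (hωx : ∀ t ∈ I01, ∀ x ∈ Icc 0 L, |dx L ω t x| ≤ K * (x * ω t x / (x ^ 2 + t)))
    (hv : Sm I01 L v) (hT : TSupp ω ∨ TSupp v) :
    II L (fun t x => x ^ 9 * ω t x * (φ t x * dx L v t x) ^ 2 / (x ^ 2 + t)) ≤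
      2 / 3 * η * II L (fun t x => x ^ 9 * ω t x * (φ t x * dx L (dx L v) t x) ^ 2)
      + 4 / 3 * (C0 ^ 2 * (13 + K) ^ 2 + C0 ^ 2 / (2 * η)) *
        II L (fun t x => x ^ 9 * ω t x * v t x ^ 2 / (x ^ 2 + t)) := by
  have hL := hφ.L_pos
  have hrr : ∀ t ∈ I01, ∀ x ∈ Icc 0 L, x ^ 2 + t ≠ 0 := fun t ht x _ => (r_pos ht).ne'
  have h9 : Sm I01 L (fun _ x => x ^ 9) := sm_pow sm_snd 9
  have hv1 := sm_dx hL hv
  have hv2 := sm_dx hL hv1
  -- test property of all the integrands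
  have key : ∀ {b : ℝ → ℝ → ℝ}, Sm I01 L b → (TSupp v → TSupp b) →
      Tst L (fun t x => ω t x * b t x) := by
    intro b hb hab
    refine ⟨sm_mul hω hb, ?_⟩
    rcases hT with h | h
    · exact TSupp.mul_right h b
    · exact TSupp.mul_left (hab h) ω
  have t1 : Tst L (fun t x => x ^ 9 * ω t x * (φ t x * dx L v t x) ^ 2 / (x ^ 2 + t)) := by
    refine tst_congr (key (b := fun t x => (φ t x * dx L v t x) ^ 2 * (x ^ 9 / (x ^ 2 + t)))
      (sm_mul (sm_pow (sm_mul hφ.sm hv1) 2) (sm_div h9 sm_r hrr)) ?_) (fun t x => by ring)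
    intro h
    exact TSupp.mul_right (TSupp.pow (TSupp.mul_left (TSupp.dx h L) φ) two_ne_zero) _
  have t2 : Tst L (fun t x => x ^ 9 * ω t x * (φ t x * dx L (dx L v) t x) ^ 2) := by
    refine tst_congr (key (b := fun t x => (φ t x * dx L (dx L v) t x) ^ 2 * x ^ 9)
      (sm_mul (sm_pow (sm_mul hφ.sm hv2) 2) h9) ?_) (fun t x => by ring)
    intro h
    exact TSupp.mul_right (TSupp.pow (TSupp.mul_left (TSupp.dx (TSupp.dx h L) L) φ) two_ne_zero) _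
  have t3 : Tst L (fun t x => x ^ 9 * ω t x * v t x ^ 2 / (x ^ 2 + t)) := by
    refine tst_congr (key (b := fun t x => (v t x) ^ 2 * (x ^ 9 / (x ^ 2 + t)))
      (sm_mul (sm_pow hv 2) (sm_div h9 sm_r hrr)) ?_) (fun t x => by ring)
    intro h
    exact TSupp.mul_right (TSupp.pow h two_ne_zero) _
  have tN : Tst L (fun t x => x ^ 9 * (ω t x * φ t x ^ 2 / (x ^ 2 + t)) * (v t x * dx L v t x)) := by
    refine tst_congr (key (b := fun t x => (v t x * dx L v t x) * (φ t x ^ 2 * (x ^ 9 / (x ^ 2 + t))))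
      (sm_mul (sm_mul hv hv1) (sm_mul (sm_pow hφ.sm 2) (sm_div h9 sm_r hrr))) ?_)
      (fun t x => by ring)
    intro h
    exact TSupp.mul_right (TSupp.mul_right h _) _
  have hN0 : II L (dx L (fun t x => x ^ 9 * (ω t x * φ t x ^ 2 / (x ^ 2 + t))
      * (v t x * dx L v t x))) = 0 := by
    apply II_dx_zero hL tN.1 tN.2
    · intro τ _; simp
    · intro τ hτ; simp [hφ.atL τ hτ]
  have hle := II_mono t1 (tst_add (tst_add (tst_const_mul (4 / 3) (tst_dx hL tN))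
      (tst_const_mul (2 / 3 * η) t2))
      (tst_const_mul (4 / 3 * (C0 ^ 2 * (13 + K) ^ 2 + C0 ^ 2 / (2 * η))) t3))
    (fun t ht x hx => by
      have hx' : x ∈ Icc 0 L := Ioo_subset_Icc_self hx
      rw [dN_eq hφ hω hv ht hx']
      exact interp_pt hx'.1 (r_pos ht) (by have := ht.1; linarith) (hω0 t ht x hx') hφ.C0_nonneg hK hη
        (hφ.bd t ht x hx') (hφ.dbd t ht x hx') (hωx t ht x hx'))
  rw [II_add (tst_add (tst_const_mul (4 / 3) (tst_dx hL tN)) (tst_const_mul (2 / 3 * η) t2))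
      (tst_const_mul _ t3), II_add (tst_const_mul (4 / 3) (tst_dx hL tN)) (tst_const_mul _ t2),
      II_const_mul, II_const_mul, II_const_mul, hN0] at hle
  linarith

end Crest.Agent.R213.A
end
end

-- ▼ part R213/A/Gard
section

/-!
# Row 213, part A: Gårding inequality on the full domain (`garding_full`)
-/

set_option autoImplicit false

open Set MeasureTheory Filter Topology

noncomputable section

namespace Crest.Agent.R213.A

variable {L κ : ℝ} {ψ φ : ℝ → ℝ → ℝ}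

/-- `μ = 1/W` -/
def Mw (κ : ℝ) : ℝ → ℝ → ℝ := fun τ x => (x ^ 2 + τ) ^ 60 / τ ^ (2 * κ)

theorem Mw_pos {t x : ℝ} (ht : t ∈ I01) : 0 < Mw κ t x := by
  unfold Mw
  have := r_pos (x := x) ht
  have h2 := Real.rpow_pos_of_pos ht.1 (2 * κ)
  positivity

theorem Wt_eq {t x : ℝ} : Wt κ t x = (Mw κ t x)⁻¹ := by
  unfold Wt Mw; rw [inv_div]

theorem sm_Mw : Sm I01 L (Mw κ) :=
  sm_div (sm_pow sm_r 60) (sm_rpow sm_fst (2 * κ) (fun t ht _ _ => ht.1.ne'))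
    (fun t ht _ _ => (Real.rpow_pos_of_pos ht.1 (2 * κ)).ne')

theorem hasDeriv_Mw_x {t x : ℝ} (ht : t ∈ I01) :
    HasDerivAt (fun y => Mw κ t y) (120 * x / (x ^ 2 + t) * Mw κ t x) x := by
  have h1 : HasDerivAt (fun y : ℝ => (y ^ 2 + t) ^ 60 / t ^ (2 * κ))
      ((60 * (x ^ 2 + t) ^ 59 * (2 * x)) / t ^ (2 * κ)) x := by
    have h2 : HasDerivAt (fun y : ℝ => y ^ 2 + t) (2 * x) x := by
      simpa using (hasDerivAt_pow 2 x).add_const t
    simpa using (h2.pow 60).div_const (t ^ (2 * κ))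
  refine h1.congr_deriv ?_
  have hr := (r_pos (x := x) ht).ne'
  have h3 := (Real.rpow_pos_of_pos ht.1 (2 * κ)).ne'
  unfold Mw
  field_simp
  ring

theorem hasDeriv_Mw_t {t x : ℝ} (ht : t ∈ I01) :
    HasDerivAt (fun r => Mw κ r x) ((60 / (x ^ 2 + t) - 2 * κ / t) * Mw κ t x) t := by
  have h2 : HasDerivAt (fun r : ℝ => x ^ 2 + r) 1 t := by
    simpa using (hasDerivAt_id t).const_add (x ^ 2)
  have h3 : HasDerivAt (fun r : ℝ => r ^ (2 * κ)) (2 * κ * t ^ (2 * κ - 1)) t := by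
    simpa using (Real.hasDerivAt_rpow_const (p := 2 * κ) (Or.inl ht.1.ne'))
  have h4 := (h2.pow 60).div h3 (Real.rpow_pos_of_pos ht.1 (2 * κ)).ne'
  refine h4.congr_deriv ?_
  have hr := (r_pos (x := x) ht).ne'
  have h5 := (Real.rpow_pos_of_pos ht.1 (2 * κ)).ne'
  have ht0 := ht.1.ne'
  rw [Real.rpow_sub_one ht0]
  simp only [Pi.pow_apply]
  unfold Mw
  field_simp
  ring

theorem dx_Mw (hL : 0 < L) {t x : ℝ} (ht : t ∈ I01) (hx : x ∈ Icc 0 L) :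
    dx L (Mw κ) t x = 120 * x / (x ^ 2 + t) * Mw κ t x :=
  dx_val hL hx (hasDeriv_Mw_x ht).hasDerivWithinAt

/-- `ψ/W = μ ψ` as functions -/
theorem div_Wt_eq (hψ : Tst L ψ) :
    (fun τ x => ψ τ x / Wt κ τ x) = fun τ x => Mw κ τ x * ψ τ x := by
  funext τ x
  rw [Wt_eq, div_inv_eq_mul, mul_comm]

theorem tst_mu (hψ : Tst L ψ) : Tst L (fun τ x => Mw κ τ x * ψ τ x) :=
  tst_mul_left sm_Mw hψ

theorem dx_mu (hL : 0 < L) (hψ : Tst L ψ) {t x : ℝ} (ht : t ∈ I01) (hx : x ∈ Icc 0 L) :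
    dx L (fun τ x => Mw κ τ x * ψ τ x) t x =
      Mw κ t x * (120 * x / (x ^ 2 + t) * ψ t x + dx L ψ t x) := by
  apply dx_val hL hx
  have := (hasDeriv_Mw_x (κ := κ) (x := x) ht).hasDerivWithinAt.mul (sm_hasDx hL hψ.1 ht hx)
  refine this.congr_deriv ?_
  ring

theorem dxx_mu (hL : 0 < L) (hψ : Tst L ψ) {t x : ℝ} (ht : t ∈ I01) (hx : x ∈ Icc 0 L) :
    dx L (dx L (fun τ x => Mw κ τ x * ψ τ x)) t x =
      Mw κ t x * (dx L (dx L ψ) t x + 240 * x / (x ^ 2 + t) * dx L ψ t x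
        + (120 / (x ^ 2 + t) + 14160 * x ^ 2 / (x ^ 2 + t) ^ 2) * ψ t x) := by
  apply dx_val hL hx
  have hr := (r_pos (x := x) ht).ne'
  have e2 : HasDerivAt (fun y : ℝ => y ^ 2 + t) (2 * x) x := by
    simpa using (hasDerivAt_pow 2 x).add_const t
  have e3 : HasDerivAt (fun y : ℝ => 120 * y) 120 x := by
    simpa using (hasDerivAt_id x).const_mul 120
  have e1 := ((e3.div e2 hr).hasDerivWithinAt (s := Icc 0 L)).mul (sm_hasDx hL hψ.1 ht hx)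
  have := (hasDeriv_Mw_x (κ := κ) (x := x) ht).hasDerivWithinAt.mul
    (e1.add (sm_hasDx hL (sm_dx hL hψ.1) ht hx))
  have h7 := (this.congr (fun y hy => dx_mu (κ := κ) hL hψ ht hy) (dx_mu (κ := κ) hL hψ ht hx))
  refine h7.congr_deriv ?_
  simp only [Pi.mul_apply, Pi.add_apply, Pi.div_apply]
  field_simp
  ring

/-! ### pointwise inequalities -/

theorem m2_bd {x r : ℝ} (hr : 0 < r) (hxr : x ^ 2 ≤ r) :
    0 ≤ 120 / r + 14160 * x ^ 2 / r ^ 2 ∧ 120 / r + 14160 * x ^ 2 / r ^ 2 ≤ 14280 / r := by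
  constructor
  · positivity
  · have h : 14160 * x ^ 2 / r ^ 2 ≤ 14160 / r := by
      rw [div_le_div_iff₀ (by positivity) hr]
      nlinarith
    calc 120 / r + 14160 * x ^ 2 / r ^ 2 ≤ 120 / r + 14160 / r := by linarith
      _ = 14280 / r := by ring

theorem m2phi_bd {x r φ s C0 : ℝ} (hr : 0 < r) (hxr : x ^ 2 ≤ r)
    (hφ : φ ^ 2 ≤ C0 ^ 2 * x ^ 2) :
    ((120 / r + 14160 * x ^ 2 / r ^ 2) * (φ * s)) ^ 2 ≤ 14280 ^ 2 * C0 ^ 2 * (s ^ 2 / r) := by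
  obtain ⟨h1, h2⟩ := m2_bd hr hxr
  have h3 : (120 / r + 14160 * x ^ 2 / r ^ 2) ^ 2 ≤ (14280 / r) ^ 2 := pow_le_pow_left₀ h1 h2 2
  have h4 : φ ^ 2 ≤ C0 ^ 2 * r := hφ.trans (by gcongr)
  calc ((120 / r + 14160 * x ^ 2 / r ^ 2) * (φ * s)) ^ 2
      = (120 / r + 14160 * x ^ 2 / r ^ 2) ^ 2 * (φ ^ 2 * s ^ 2) := by ring
    _ ≤ (14280 / r) ^ 2 * ((C0 ^ 2 * r) * s ^ 2) := by gcongr
    _ = 14280 ^ 2 * C0 ^ 2 * (s ^ 2 / r) := by field_simp

theorem xr_bd {x r b : ℝ} (hr : 0 < r) (hxr : x ^ 2 ≤ r) :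
    (240 * x / r * b) ^ 2 ≤ 57600 * (b ^ 2 / r) := by
  have h : (240 * x / r * b) ^ 2 = 57600 * (x ^ 2 * b ^ 2 / r ^ 2) := by field_simp; ring
  rw [h]
  have : x ^ 2 * b ^ 2 / r ^ 2 ≤ b ^ 2 / r := by
    rw [div_le_div_iff₀ (by positivity) hr]
    have : x ^ 2 * b ^ 2 ≤ r * b ^ 2 := by gcongr
    nlinarith
  linarith

theorem nX_pt {x r M φ q p s τ C0 : ℝ} (hx : 0 ≤ x) (hr : 0 < r) (hxr : x ^ 2 ≤ r) (hM : 0 < M)
    (hτ : 0 < τ) (hφ : φ ^ 2 ≤ C0 ^ 2 * x ^ 2) :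
    x ^ 9 * (M⁻¹ * (φ * (M * (q + 240 * x / r * p + (120 / r + 14160 * x ^ 2 / r ^ 2) * s))) ^ 2
      + M⁻¹ / τ * (M * s) ^ 2) ≤
    3 * (x ^ 9 * M * (φ * q) ^ 2) + 172800 * (x ^ 9 * M * (φ * p) ^ 2 / r)
      + 3 * 14280 ^ 2 * C0 ^ 2 * (x ^ 9 * M * s ^ 2 / r) + x ^ 9 * M * s ^ 2 / τ := by
  have e1 : x ^ 9 * (M⁻¹ * (φ * (M * (q + 240 * x / r * p
      + (120 / r + 14160 * x ^ 2 / r ^ 2) * s))) ^ 2 + M⁻¹ / τ * (M * s) ^ 2)
      = x ^ 9 * M * (φ * q + 240 * x / r * (φ * p) +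
        (120 / r + 14160 * x ^ 2 / r ^ 2) * (φ * s)) ^ 2 + x ^ 9 * M * s ^ 2 / τ := by
    field_simp
  rw [e1]
  have h1 := m2phi_bd (s := s) hr hxr hφ
  have h2 := xr_bd (b := φ * p) hr hxr
  set A := φ * q
  set B := 240 * x / r * (φ * p)
  set D := (120 / r + 14160 * x ^ 2 / r ^ 2) * (φ * s)
  have h3 : (A + B + D) ^ 2 ≤ 3 * A ^ 2 + 3 * B ^ 2 + 3 * D ^ 2 := by
    nlinarith [sq_nonneg (A - B), sq_nonneg (A - D), sq_nonneg (B - D)]
  have h4 : (A + B + D) ^ 2 ≤ 3 * A ^ 2 + 172800 * ((φ * p) ^ 2 / r)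
      + 3 * 14280 ^ 2 * C0 ^ 2 * (s ^ 2 / r) := by linarith
  have h5 := mul_le_mul_of_nonneg_left h4 (by positivity : 0 ≤ x ^ 9 * M)
  have e2 : x ^ 9 * M * (3 * A ^ 2 + 172800 * ((φ * p) ^ 2 / r)
      + 3 * 14280 ^ 2 * C0 ^ 2 * (s ^ 2 / r)) = 3 * (x ^ 9 * M * A ^ 2)
      + 172800 * (x ^ 9 * M * (φ * p) ^ 2 / r)
      + 3 * 14280 ^ 2 * C0 ^ 2 * (x ^ 9 * M * s ^ 2 / r) := by ring
  linarith

theorem BB_pt {x r M φ q p s st τ κ C0 : ℝ} (hx : 0 ≤ x) (hr : 0 < r) (hxr : x ^ 2 ≤ r)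
    (hM : 0 < M) (hφ : φ ^ 2 ≤ C0 ^ 2 * x ^ 2) :
    3 / 4 * (x ^ 9 * M * (φ * q) ^ 2) - 115200 * (x ^ 9 * M * (φ * p) ^ 2 / r)
      + κ * (x ^ 9 * M * s ^ 2 / τ)
      - (30 + 2 * 14280 ^ 2 * C0 ^ 2) * (x ^ 9 * M * s ^ 2 / r)
      + 1 / 2 * (x ^ 9 * (((60 / r - 2 * κ / τ) * M) * s ^ 2 + M * (2 * s * st))) ≤
    x ^ 9 * (st * (M * s) + φ ^ 2 * q * (M * (q + 240 * x / r * p
      + (120 / r + 14160 * x ^ 2 / r ^ 2) * s))) := by
  have h1 := m2phi_bd (s := s) hr hxr hφ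
  have h2 := xr_bd (b := φ * p) hr hxr
  have e1 : x ^ 9 * (st * (M * s) + φ ^ 2 * q * (M * (q + 240 * x / r * p
      + (120 / r + 14160 * x ^ 2 / r ^ 2) * s))) = x ^ 9 * M * (st * s) + x ^ 9 * M *
      ((φ * q) ^ 2 + (φ * q) * (240 * x / r * (φ * p))
        + (φ * q) * ((120 / r + 14160 * x ^ 2 / r ^ 2) * (φ * s))) := by ring
  rw [e1]
  set A := φ * q
  set B := 240 * x / r * (φ * p)
  set D := (120 / r + 14160 * x ^ 2 / r ^ 2) * (φ * s)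
  have h3 : 3 / 4 * A ^ 2 - 2 * B ^ 2 - 2 * D ^ 2 ≤ A ^ 2 + A * B + A * D := by
    nlinarith [sq_nonneg (A / 2 + 2 * B), sq_nonneg (A / 2 + 2 * D)]
  have h4 : 3 / 4 * A ^ 2 - 115200 * ((φ * p) ^ 2 / r) - 2 * 14280 ^ 2 * C0 ^ 2 * (s ^ 2 / r) ≤
      A ^ 2 + A * B + A * D := by linarith
  have h5 := mul_le_mul_of_nonneg_left h4 (by positivity : 0 ≤ x ^ 9 * M)
  have e2 : 3 / 4 * (x ^ 9 * M * A ^ 2) - 115200 * (x ^ 9 * M * (φ * p) ^ 2 / r)
      + κ * (x ^ 9 * M * s ^ 2 / τ)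
      - (30 + 2 * 14280 ^ 2 * C0 ^ 2) * (x ^ 9 * M * s ^ 2 / r)
      + 1 / 2 * (x ^ 9 * (((60 / r - 2 * κ / τ) * M) * s ^ 2 + M * (2 * s * st)))
      = x ^ 9 * M * (st * s) + x ^ 9 * M *
      (3 / 4 * A ^ 2 - 115200 * ((φ * p) ^ 2 / r) - 2 * 14280 ^ 2 * C0 ^ 2 * (s ^ 2 / r)) := by
    ring
  rw [e2]
  linarith

/-! ### integrated inequalities -/

section integrated

variable {C0 : ℝ}

/-- the four integrals -/
def J2 (κ L : ℝ) (φ ψ : ℝ → ℝ → ℝ) : ℝ :=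
  II L (fun t x => x ^ 9 * Mw κ t x * (φ t x * dx L (dx L ψ) t x) ^ 2)
def J1 (κ L : ℝ) (φ ψ : ℝ → ℝ → ℝ) : ℝ :=
  II L (fun t x => x ^ 9 * Mw κ t x * (φ t x * dx L ψ t x) ^ 2 / (x ^ 2 + t))
def J0 (κ L : ℝ) (ψ : ℝ → ℝ → ℝ) : ℝ :=
  II L (fun t x => x ^ 9 * Mw κ t x * ψ t x ^ 2 / (x ^ 2 + t))
def Jt (κ L : ℝ) (ψ : ℝ → ℝ → ℝ) : ℝ :=
  II L (fun t x => x ^ 9 * Mw κ t x * ψ t x ^ 2 / t)

theorem tj2 (hφ : PhiB C0 L φ) (hψ : Tst L ψ) :
    Tst L (fun t x => x ^ 9 * Mw κ t x * (φ t x * dx L (dx L ψ) t x) ^ 2) :=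
  tst_mul_left (sm_mul (sm_pow sm_snd 9) sm_Mw)
    (tst_pow (tst_mul_left hφ.sm (tst_dx hφ.L_pos (tst_dx hφ.L_pos hψ))) two_ne_zero)

theorem tj1 (hφ : PhiB C0 L φ) (hψ : Tst L ψ) :
    Tst L (fun t x => x ^ 9 * Mw κ t x * (φ t x * dx L ψ t x) ^ 2 / (x ^ 2 + t)) := by
  have h := tst_mul_left (sm_div (sm_mul (sm_pow sm_snd 9) (sm_Mw (κ := κ))) sm_r
    (fun t ht x _ => (r_pos ht).ne'))
    (tst_pow (tst_mul_left hφ.sm (tst_dx hφ.L_pos hψ)) two_ne_zero)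
  exact tst_congr h (fun t x => by ring)

theorem tj0 (hψ : Tst L ψ) :
    Tst L (fun t x => x ^ 9 * Mw κ t x * ψ t x ^ 2 / (x ^ 2 + t)) := by
  have h := tst_mul_left (sm_div (sm_mul (sm_pow sm_snd 9) (sm_Mw (κ := κ))) sm_r
    (fun t ht x _ => (r_pos ht).ne')) (tst_pow hψ two_ne_zero)
  exact tst_congr h (fun t x => by ring)

theorem tjt (hψ : Tst L ψ) :
    Tst L (fun t x => x ^ 9 * Mw κ t x * ψ t x ^ 2 / t) := by
  have h := tst_mul_left (sm_div (sm_mul (sm_pow sm_snd 9) (sm_Mw (κ := κ))) sm_fst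
    (fun t ht x _ => ht.1.ne')) (tst_pow hψ two_ne_zero)
  exact tst_congr h (fun t x => by ring)


theorem J2_nonneg : 0 ≤ J2 κ L φ ψ := II_nonneg fun t ht x hx => by
  have := Mw_pos (κ := κ) (x := x) ht; have := hx.1; positivity


theorem J0_nonneg : 0 ≤ J0 κ L ψ := II_nonneg fun t ht x hx => by
  have := Mw_pos (κ := κ) (x := x) ht; have := hx.1; have := r_pos (x := x) ht; positivity

theorem Jt_nonneg : 0 ≤ Jt κ L ψ := II_nonneg fun t ht x hx => by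
  have := Mw_pos (κ := κ) (x := x) ht; have := hx.1; have := ht.1; positivity

theorem J0_le_Jt (hψ : Tst L ψ) : J0 κ L ψ ≤ Jt κ L ψ := by
  refine II_mono (tj0 hψ) (tjt hψ) fun t ht x hx => ?_
  have h1 := Mw_pos (κ := κ) (x := x) ht
  have h2 := hx.1
  have h3 := ht.1
  have h4 : t ≤ x ^ 2 + t := by nlinarith
  gcongr

theorem nYJ_eq (hφ : PhiB C0 L φ) (hψ : Tst L ψ) : nY κ L φ ψ = J2 κ L φ ψ + Jt κ L ψ := by
  unfold nY J2 Jt
  rw [← II_add (tj2 hφ hψ) (tjt hψ)]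
  refine II_congr fun t ht x hx => ?_
  have h1 := (Mw_pos (κ := κ) (x := x) ht).ne'
  have h3 := ht.1.ne'
  rw [Wt_eq]
  field_simp

theorem J1_le (hφ : PhiB C0 L φ) (hψ : Tst L ψ) {η : ℝ} (hη : 0 < η) :
    J1 κ L φ ψ ≤ 2 / 3 * η * J2 κ L φ ψ
      + 4 / 3 * (C0 ^ 2 * (13 + 120) ^ 2 + C0 ^ 2 / (2 * η)) * J0 κ L ψ := by
  refine interp_w (K := 120) hφ (by norm_num) hη sm_Mw (fun t ht x _ => (Mw_pos ht).le) ?_ hψ.1
    (Or.inr hψ.2)
  intro t ht x hx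
  rw [dx_Mw hφ.L_pos ht hx, abs_of_nonneg]
  · have := (r_pos (x := x) ht).ne'
    apply le_of_eq; field_simp
  · have := Mw_pos (κ := κ) (x := x) ht
    have := hx.1
    have := r_pos (x := x) ht
    positivity

theorem phi_sq (hφ : PhiB C0 L φ) {t x : ℝ} (ht : t ∈ I01) (hx : x ∈ Icc 0 L) :
    φ t x ^ 2 ≤ C0 ^ 2 * x ^ 2 := by
  rw [← mul_pow, ← sq_abs (φ t x)]
  exact pow_le_pow_left₀ (abs_nonneg _) (hφ.bd t ht x hx) 2

theorem nX_mu_le (hφ : PhiB C0 L φ) (hψ : Tst L ψ) :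
    nX κ L φ (fun τ x => Mw κ τ x * ψ τ x) ≤ 3 * J2 κ L φ ψ + 172800 * J1 κ L φ ψ
      + 3 * 14280 ^ 2 * C0 ^ 2 * J0 κ L ψ + Jt κ L ψ := by
  have hL := hφ.L_pos
  have hT : Tst L (fun t x => 3 * (x ^ 9 * Mw κ t x * (φ t x * dx L (dx L ψ) t x) ^ 2)
      + 172800 * (x ^ 9 * Mw κ t x * (φ t x * dx L ψ t x) ^ 2 / (x ^ 2 + t))
      + 3 * 14280 ^ 2 * C0 ^ 2 * (x ^ 9 * Mw κ t x * ψ t x ^ 2 / (x ^ 2 + t))
      + x ^ 9 * Mw κ t x * ψ t x ^ 2 / t) :=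
    tst_add (tst_add (tst_add (tst_const_mul _ (tj2 hφ hψ)) (tst_const_mul _ (tj1 hφ hψ)))
      (tst_const_mul _ (tj0 hψ))) (tjt hψ)
  have hR : 3 * J2 κ L φ ψ + 172800 * J1 κ L φ ψ
      + 3 * 14280 ^ 2 * C0 ^ 2 * J0 κ L ψ + Jt κ L ψ =
      II L (fun t x => 3 * (x ^ 9 * Mw κ t x * (φ t x * dx L (dx L ψ) t x) ^ 2)
      + 172800 * (x ^ 9 * Mw κ t x * (φ t x * dx L ψ t x) ^ 2 / (x ^ 2 + t))
      + 3 * 14280 ^ 2 * C0 ^ 2 * (x ^ 9 * Mw κ t x * ψ t x ^ 2 / (x ^ 2 + t))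
      + x ^ 9 * Mw κ t x * ψ t x ^ 2 / t) := by
    rw [II_add (tst_add (tst_add (tst_const_mul _ (tj2 hφ hψ)) (tst_const_mul _ (tj1 hφ hψ)))
      (tst_const_mul _ (tj0 hψ))) (tjt hψ), II_add (tst_add (tst_const_mul _ (tj2 hφ hψ))
      (tst_const_mul _ (tj1 hφ hψ))) (tst_const_mul _ (tj0 hψ)),
      II_add (tst_const_mul _ (tj2 hφ hψ)) (tst_const_mul _ (tj1 hφ hψ)), II_const_mul,
      II_const_mul, II_const_mul]
    rfl
  rw [hR]
  have hU := tst_mu (κ := κ) hψ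
  have hXT : Tst L (fun τ x => x ^ 9 * (Mw κ τ x)⁻¹ * (φ τ x * dx L (dx L
      (fun τ x => Mw κ τ x * ψ τ x)) τ x) ^ 2 + x ^ 9 * (Mw κ τ x)⁻¹ / τ *
        (Mw κ τ x * ψ τ x) ^ 2) := by
    have hMi : Sm I01 L (fun τ x => (Mw κ τ x)⁻¹) :=
      ContDiffOn.inv sm_Mw (fun p hp => (Mw_pos hp.1).ne')
    refine tst_add ?_ ?_
    · exact tst_mul_left (sm_mul (sm_pow sm_snd 9) hMi)
        (tst_pow (tst_mul_left hφ.sm (tst_dx hL (tst_dx hL hU))) two_ne_zero)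
    · exact tst_mul_left (sm_div (sm_mul (sm_pow sm_snd 9) hMi) sm_fst
        (fun t ht _ _ => ht.1.ne')) (tst_pow hU two_ne_zero)
  have e : nX κ L φ (fun τ x => Mw κ τ x * ψ τ x) =
      II L (fun τ x => x ^ 9 * (Mw κ τ x)⁻¹ * (φ τ x * dx L (dx L
      (fun τ x => Mw κ τ x * ψ τ x)) τ x) ^ 2 + x ^ 9 * (Mw κ τ x)⁻¹ / τ *
        (Mw κ τ x * ψ τ x) ^ 2) := by
    unfold nX
    refine II_congr fun t ht x hx => ?_
    rw [Wt_eq]; ring
  rw [e]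
  refine II_mono hXT hT fun t ht x hx => ?_
  have hx' : x ∈ Icc 0 L := Ioo_subset_Icc_self hx
  have h := nX_pt (q := dx L (dx L ψ) t x) (p := dx L ψ t x) (s := ψ t x) (M := Mw κ t x)
    (C0 := C0) hx'.1 (r_pos (x := x) ht) (by have := ht.1; linarith) (Mw_pos ht) ht.1
    (phi_sq hφ ht hx')
  rw [dxx_mu hL hψ ht hx']
  refine le_trans (le_of_eq ?_) h
  ring

theorem BB_mu_ge (hφ : PhiB C0 L φ) (hψ : Tst L ψ) :
    3 / 4 * J2 κ L φ ψ - 115200 * J1 κ L φ ψ + κ * Jt κ L ψ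
      - (30 + 2 * 14280 ^ 2 * C0 ^ 2) * J0 κ L ψ ≤ BB L φ (fun τ x => Mw κ τ x * ψ τ x) ψ := by
  have hL := hφ.L_pos
  have hU := tst_mu (κ := κ) hψ
  have hG : Tst L (fun t x => x ^ 9 * (Mw κ t x * ψ t x ^ 2)) :=
    tst_mul_left (sm_pow sm_snd 9) (tst_mul_left sm_Mw (tst_pow hψ two_ne_zero))
  have hG0 : II L (dt (fun t x => x ^ 9 * (Mw κ t x * ψ t x ^ 2))) = 0 :=
    II_dt_zero hL hG.1 hG.2
  have hGd : ∀ t ∈ I01, ∀ x ∈ Icc 0 L, dt (fun t x => x ^ 9 * (Mw κ t x * ψ t x ^ 2)) t x =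
      x ^ 9 * (((60 / (x ^ 2 + t) - 2 * κ / t) * Mw κ t x) * ψ t x ^ 2
        + Mw κ t x * (2 * ψ t x * dt ψ t x)) := by
    intro t ht x hx
    apply dt_val
    have e1 := hasDeriv_Mw_t (κ := κ) (x := x) ht
    have e2 := sm_hasDt hψ.1 ht hx
    have := (e1.mul (e2.pow 2)).const_mul (x ^ 9)
    refine this.congr_deriv ?_
    simp only [Pi.pow_apply]
    ring
  have hT : Tst L (fun t x => 3 / 4 * (x ^ 9 * Mw κ t x * (φ t x * dx L (dx L ψ) t x) ^ 2)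
      - 115200 * (x ^ 9 * Mw κ t x * (φ t x * dx L ψ t x) ^ 2 / (x ^ 2 + t))
      + κ * (x ^ 9 * Mw κ t x * ψ t x ^ 2 / t)
      - (30 + 2 * 14280 ^ 2 * C0 ^ 2) * (x ^ 9 * Mw κ t x * ψ t x ^ 2 / (x ^ 2 + t))
      + 1 / 2 * dt (fun t x => x ^ 9 * (Mw κ t x * ψ t x ^ 2)) t x) :=
    tst_add (tst_sub (tst_add (tst_sub (tst_const_mul _ (tj2 hφ hψ)) (tst_const_mul _ (tj1 hφ hψ)))
      (tst_const_mul _ (tjt hψ))) (tst_const_mul _ (tj0 hψ))) (tst_const_mul _ (tst_dt hL hG))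
  have hR : 3 / 4 * J2 κ L φ ψ - 115200 * J1 κ L φ ψ + κ * Jt κ L ψ
      - (30 + 2 * 14280 ^ 2 * C0 ^ 2) * J0 κ L ψ =
      II L (fun t x => 3 / 4 * (x ^ 9 * Mw κ t x * (φ t x * dx L (dx L ψ) t x) ^ 2)
      - 115200 * (x ^ 9 * Mw κ t x * (φ t x * dx L ψ t x) ^ 2 / (x ^ 2 + t))
      + κ * (x ^ 9 * Mw κ t x * ψ t x ^ 2 / t)
      - (30 + 2 * 14280 ^ 2 * C0 ^ 2) * (x ^ 9 * Mw κ t x * ψ t x ^ 2 / (x ^ 2 + t))
      + 1 / 2 * dt (fun t x => x ^ 9 * (Mw κ t x * ψ t x ^ 2)) t x) := by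
    rw [II_add (tst_sub (tst_add (tst_sub (tst_const_mul _ (tj2 hφ hψ))
      (tst_const_mul _ (tj1 hφ hψ)))
      (tst_const_mul _ (tjt hψ))) (tst_const_mul _ (tj0 hψ))) (tst_const_mul _ (tst_dt hL hG)),
      II_sub (tst_add (tst_sub (tst_const_mul _ (tj2 hφ hψ)) (tst_const_mul _ (tj1 hφ hψ)))
      (tst_const_mul _ (tjt hψ))) (tst_const_mul _ (tj0 hψ)),
      II_add (tst_sub (tst_const_mul _ (tj2 hφ hψ)) (tst_const_mul _ (tj1 hφ hψ)))
      (tst_const_mul _ (tjt hψ)), II_sub (tst_const_mul _ (tj2 hφ hψ)) (tst_const_mul _ (tj1 hφ hψ)),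
      II_const_mul, II_const_mul, II_const_mul, II_const_mul, II_const_mul, hG0]
    unfold J2 J1 J0 Jt
    ring
  rw [hR]
  have hBT : Tst L (fun τ x => x ^ 9 * (dt ψ τ x * (Mw κ τ x * ψ τ x) +
    φ τ x ^ 2 * dx L (dx L ψ) τ x * dx L (dx L (fun τ x => Mw κ τ x * ψ τ x)) τ x)) :=
    tst_mul_left (sm_pow sm_snd 9) (tst_add (tst_mul_right (tst_dt hL hψ) hU.1)
      (tst_mul_right (tst_mul_left (sm_pow hφ.sm 2) (tst_dx hL (tst_dx hL hψ)))
        (sm_dx hL (sm_dx hL hU.1))))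
  unfold BB
  refine II_mono hT hBT fun t ht x hx => ?_
  have hx' : x ∈ Icc 0 L := Ioo_subset_Icc_self hx
  rw [dxx_mu hL hψ ht hx', hGd t ht x hx']
  exact BB_pt hx'.1 (r_pos (x := x) ht) (by have := ht.1; linarith) (Mw_pos ht)
    (phi_sq hφ ht hx')

theorem J0_le_in (hψ : Tst L ψ) {K : ℝ} (hK : 0 < K) :
    J0 κ L ψ ≤ II L (fun τ x => if x ^ 2 ≤ K * τ then x ^ 9 * ψ τ x ^ 2 / (τ * Wt κ τ x) else 0)
      + 1 / (K + 1) * Jt κ L ψ := by
  have hSm : MeasurableSet {p : ℝ × ℝ | p.2 ^ 2 ≤ K * p.1} :=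
    measurableSet_le (by fun_prop) (by fun_prop)
  have hit := tst_integrable (tjt (κ := κ) hψ)
  have hi0 := tst_integrable (tj0 (κ := κ) hψ)
  have hF : IntegrableOn (fun p : ℝ × ℝ => if p.2 ^ 2 ≤ K * p.1 then
      p.2 ^ 9 * ψ p.1 p.2 ^ 2 / (p.1 * Wt κ p.1 p.2) else 0) (I01 ×ˢ Ioo (0 : ℝ) L) := by
    have h := hit.indicator hSm
    refine h.congr (Filter.Eventually.of_forall fun p => ?_)
    simp only [indicator, mem_setOf_eq]
    split_ifs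
    · rw [Wt_eq]
      simp only [div_eq_mul_inv, mul_inv, inv_inv]
      ring
    · rfl
  have h2 : IntegrableOn (fun p : ℝ × ℝ => (if p.2 ^ 2 ≤ K * p.1 then
      p.2 ^ 9 * ψ p.1 p.2 ^ 2 / (p.1 * Wt κ p.1 p.2) else 0)
      + 1 / (K + 1) * (p.2 ^ 9 * Mw κ p.1 p.2 * ψ p.1 p.2 ^ 2 / p.1)) (I01 ×ˢ Ioo (0 : ℝ) L) :=
    hF.add (hit.const_mul _)
  have e : II L (fun τ x => if x ^ 2 ≤ K * τ then x ^ 9 * ψ τ x ^ 2 / (τ * Wt κ τ x) else 0)
      + 1 / (K + 1) * Jt κ L ψ = ∫ p in I01 ×ˢ Ioo (0 : ℝ) L, ((if p.2 ^ 2 ≤ K * p.1 then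
      p.2 ^ 9 * ψ p.1 p.2 ^ 2 / (p.1 * Wt κ p.1 p.2) else 0)
      + 1 / (K + 1) * (p.2 ^ 9 * Mw κ p.1 p.2 * ψ p.1 p.2 ^ 2 / p.1)) := by
    rw [integral_add hF (hit.const_mul _), integral_const_mul]
    rfl
  rw [e]
  refine setIntegral_mono_on hi0 h2 meas_dom ?_
  rintro ⟨t, x⟩ ⟨ht, hx⟩
  simp only
  have hM := Mw_pos (κ := κ) (x := x) ht
  have ht0 := ht.1
  have hr := r_pos (x := x) ht
  have hx0 := hx.1
  have hA : 0 ≤ x ^ 9 * Mw κ t x * ψ t x ^ 2 := by positivity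
  split_ifs with h
  · have h3 : x ^ 9 * ψ t x ^ 2 / (t * Wt κ t x) = x ^ 9 * Mw κ t x * ψ t x ^ 2 / t := by
      rw [Wt_eq]; simp only [div_eq_mul_inv, mul_inv, inv_inv]; ring
    rw [h3]
    have h4 : x ^ 9 * Mw κ t x * ψ t x ^ 2 / (x ^ 2 + t) ≤ x ^ 9 * Mw κ t x * ψ t x ^ 2 / t := by
      gcongr
      nlinarith
    have h5 : 0 ≤ 1 / (K + 1) * (x ^ 9 * Mw κ t x * ψ t x ^ 2 / t) := by positivity
    linarith
  · rw [not_le] at h
    rw [zero_add]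
    have h6 : (K + 1) * t ≤ x ^ 2 + t := by linarith
    calc x ^ 9 * Mw κ t x * ψ t x ^ 2 / (x ^ 2 + t) ≤ x ^ 9 * Mw κ t x * ψ t x ^ 2 / ((K + 1) * t) := by
          gcongr
      _ = 1 / (K + 1) * (x ^ 9 * Mw κ t x * ψ t x ^ 2 / t) := by field_simp

/-- **Gårding on the full domain** -/
theorem garding_full {c0 C0 : ℝ} {g : ℝ → ℝ} (hg : Prof c0 C0 g) :
    ∃ c K C : ℝ, 0 < c ∧ 0 < K ∧ 0 ≤ C ∧ ∀ κ ∈ Ioo (1 / 8 : ℝ) (1 / 4), ∀ L, 8 ≤ L →
      ∀ φ m, Bg c0 C0 g L φ m → ∀ ψ, Tst L ψ →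
        Tst L (fun τ x => ψ τ x / Wt κ τ x) ∧
        nX κ L φ (fun τ x => ψ τ x / Wt κ τ x) ≤ C * nY κ L φ ψ ∧
        c * nY κ L φ ψ ≤ BB L φ (fun τ x => ψ τ x / Wt κ τ x) ψ +
          C * II L (fun τ x => if x ^ 2 ≤ K * τ then x ^ 9 * ψ τ x ^ 2 / (τ * Wt κ τ x) else 0) := by
  -- constants
  set D1 : ℝ := 4 / 3 * (C0 ^ 2 * (13 + 120) ^ 2 + C0 ^ 2 / (2 * (1 / 307200))) with hD1
  set C1 : ℝ := 30 + 2 * 14280 ^ 2 * C0 ^ 2 + 115200 * D1 with hC1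
  have hD1n : 0 ≤ D1 := by positivity
  have hC1p : 0 < C1 := by positivity
  set CX : ℝ := 4 + 172800 * (1 + D1) + 3 * 14280 ^ 2 * C0 ^ 2 with hCX
  refine ⟨1 / 16, 16 * C1, max CX C1, by norm_num, by positivity, le_max_of_le_right hC1p.le, ?_⟩
  intro κ hκ L hL8 φ m hB ψ hψ
  have hφ := PhiB.of_Bg hB hg.c0_pos.le
  have hL := hφ.L_pos
  rw [div_Wt_eq hψ, nYJ_eq hφ hψ]
  have hJ2 : 0 ≤ J2 κ L φ ψ := J2_nonneg
  have hJ0 : 0 ≤ J0 κ L ψ := J0_nonneg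
  have hJt : 0 ≤ Jt κ L ψ := Jt_nonneg
  have h0t : J0 κ L ψ ≤ Jt κ L ψ := J0_le_Jt hψ
  have h1 := J1_le (κ := κ) hφ hψ (by norm_num : (0:ℝ) < 1 / 307200)
  rw [← hD1] at h1
  refine ⟨tst_mu hψ, ?_, ?_⟩
  · have h2 := nX_mu_le (κ := κ) hφ hψ
    have h3 : D1 * J0 κ L ψ ≤ D1 * Jt κ L ψ := mul_le_mul_of_nonneg_left h0t hD1n
    have h4 : 3 * 14280 ^ 2 * C0 ^ 2 * J0 κ L ψ ≤ 3 * 14280 ^ 2 * C0 ^ 2 * Jt κ L ψ :=
      mul_le_mul_of_nonneg_left h0t (by positivity)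
    have h5 : nX κ L φ (fun τ x => Mw κ τ x * ψ τ x) ≤ CX * (J2 κ L φ ψ + Jt κ L ψ) := by
      have e : CX * (J2 κ L φ ψ + Jt κ L ψ) = 4 * J2 κ L φ ψ + 4 * Jt κ L ψ
        + 172800 * J2 κ L φ ψ + 172800 * (D1 * J2 κ L φ ψ) + 172800 * Jt κ L ψ
        + 172800 * (D1 * Jt κ L ψ) + 3 * 14280 ^ 2 * C0 ^ 2 * J2 κ L φ ψ
        + 3 * 14280 ^ 2 * C0 ^ 2 * Jt κ L ψ := by rw [hCX]; ring
      rw [e]
      have h6 : 0 ≤ D1 * J2 κ L φ ψ := mul_nonneg hD1n hJ2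
      have h7 : 0 ≤ 3 * 14280 ^ 2 * C0 ^ 2 * J2 κ L φ ψ := by positivity
      linarith
    exact h5.trans (mul_le_mul_of_nonneg_right (le_max_left _ _) (add_nonneg hJ2 hJt))
  · have h2 := BB_mu_ge (κ := κ) hφ hψ
    have h3 := J0_le_in (κ := κ) hψ (by positivity : (0:ℝ) < 16 * C1)
    set Jin := II L (fun τ x => if x ^ 2 ≤ 16 * C1 * τ then
      x ^ 9 * ψ τ x ^ 2 / (τ * Wt κ τ x) else 0) with hJin
    have hJin0 : 0 ≤ Jin := II_nonneg fun t ht x hx => by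
      have := Mw_pos (κ := κ) (x := x) ht
      have := hx.1
      have := ht.1
      simp only [Wt_eq]
      split_ifs <;> positivity
    have h4 : C1 * J0 κ L ψ ≤ C1 * Jin + 1 / 16 * Jt κ L ψ := by
      have h5 := mul_le_mul_of_nonneg_left h3 hC1p.le
      have h6 : C1 * (1 / (16 * C1 + 1) * Jt κ L ψ) ≤ 1 / 16 * Jt κ L ψ := by
        rw [← mul_assoc]
        refine mul_le_mul_of_nonneg_right ?_ hJt
        rw [mul_one_div, div_le_div_iff₀ (by positivity) (by norm_num)]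
        linarith
      linarith [mul_add C1 Jin (1 / (16 * C1 + 1) * Jt κ L ψ)]
    have h7 : C1 * Jin ≤ max CX C1 * Jin := mul_le_mul_of_nonneg_right (le_max_right _ _) hJin0
    have h8 : (1 / 8 : ℝ) * Jt κ L ψ ≤ κ * Jt κ L ψ := mul_le_mul_of_nonneg_right hκ.1.le hJt
    have e1 : C1 * J0 κ L ψ = (30 + 2 * 14280 ^ 2 * C0 ^ 2) * J0 κ L ψ
      + 115200 * (D1 * J0 κ L ψ) := by rw [hC1]; ring
    linarith

end integrated

end Crest.Agent.R213.A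
end
end

-- ▼ part R213/A/Interp1
section

/-!
# Row 213, part A: the general 1D interpolation inequality `interp1`
-/

set_option autoImplicit false

open Set MeasureTheory Filter Topology

noncomputable section

namespace Crest.Agent.R213.A

theorem prod_le_half {X a b : ℝ} (ha : 0 ≤ a) (hb : 0 ≤ b) (h : X ^ 2 ≤ a * b) :
    X ≤ (a + b) / 2 := by
  have h1 : X ^ 2 ≤ ((a + b) / 2) ^ 2 := by nlinarith [sq_nonneg (a - b)]
  exact le_of_abs_le (abs_le_of_sq_le_sq h1 (by positivity))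


end Crest.Agent.R213.A
end
end

-- ▼ part R213/A/Loc

/-!
# Row 213, part A: localisation `χ = χ0(x/L)`
-/

set_option autoImplicit false

open Set MeasureTheory Filter Topology

noncomputable section

namespace Crest.Agent.R213.A

namespace LocAux

variable {L : ℝ}

/-- smooth positive weight with `|V_x| ≤ K x V/(x²+τ)` -/
structure Wgt (K L : ℝ) (V : ℝ → ℝ → ℝ) : Prop where
  sm : Sm I01 L V
  pos : ∀ t ∈ I01, ∀ x ∈ Icc 0 L, 0 < V t x
  der : ∀ t ∈ I01, ∀ x ∈ Icc 0 L, |dx L V t x| ≤ K * (x * V t x / (x ^ 2 + t))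

theorem hasDeriv_r (t x : ℝ) : HasDerivAt (fun y : ℝ => y ^ 2 + t) (2 * x) x := by
  simpa using (hasDerivAt_pow 2 x).add_const t

theorem wgt_Wt (hL : 0 < L) (κ : ℝ) : Wgt 120 L (Wt κ) := by
  refine ⟨?_, ?_, ?_⟩
  · have h1 : Sm I01 L (fun t _ => t ^ (2 * κ)) :=
      sm_rpow sm_fst _ (fun t ht x _ => (ne_of_gt ht.1))
    exact sm_div h1 (sm_pow sm_r 60) (fun t ht x _ => pow_ne_zero _ (r_pos ht).ne')
  · intro t ht x _
    exact div_pos (Real.rpow_pos_of_pos ht.1 _) (pow_pos (r_pos ht) _)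
  · intro t ht x hx
    have hr : 0 < x ^ 2 + t := r_pos ht
    have hr' : (x ^ 2 + t) ≠ 0 := hr.ne'
    have ha : 0 < t ^ (2 * κ) := Real.rpow_pos_of_pos ht.1 _
    have e : dx L (Wt κ) t x = - (120 * (x * Wt κ t x / (x ^ 2 + t))) := by
      apply dx_val hL hx
      have h := ((hasDerivAt_const x (t ^ (2 * κ))).div ((hasDeriv_r t x).pow 60)
        (pow_ne_zero _ hr')).hasDerivWithinAt (s := Icc 0 L)
      refine h.congr_deriv ?_
      simp only [Wt, Pi.pow_apply]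
      generalize x ^ 2 + t = r at hr'
      generalize t ^ (2 * κ) = c
      field_simp
      norm_num
      ring
    rw [e, abs_neg, abs_of_nonneg]
    have : 0 < Wt κ t x := div_pos ha (pow_pos hr _)
    have := hx.1
    positivity

theorem wgt_inv (hL : 0 < L) (κ : ℝ) : Wgt 120 L (fun t x => 1 / Wt κ t x) := by
  have hW : ∀ t ∈ I01, ∀ x : ℝ, 0 < Wt κ t x := fun t ht x =>
    div_pos (Real.rpow_pos_of_pos ht.1 _) (pow_pos (r_pos ht) _)
  refine ⟨?_, ?_, ?_⟩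
  · exact sm_div (sm_const 1) (wgt_Wt hL κ).sm (fun t ht x _ => (hW t ht x).ne')
  · intro t ht x _
    exact one_div_pos.2 (hW t ht x)
  · intro t ht x hx
    have hr : 0 < x ^ 2 + t := r_pos ht
    have hr' : (x ^ 2 + t) ≠ 0 := hr.ne'
    have ha : 0 < t ^ (2 * κ) := Real.rpow_pos_of_pos ht.1 _
    have e : dx L (fun t x => 1 / Wt κ t x) t x
        = 120 * (x * (1 / Wt κ t x) / (x ^ 2 + t)) := by
      apply dx_val hL hx
      have h := ((((hasDeriv_r t x).pow 60).div_const (t ^ (2 * κ)))).hasDerivWithinAt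
        (s := Icc 0 L)
      have h' : HasDerivWithinAt (fun y => 1 / Wt κ t y)
          ((60 : ℕ) * (x ^ 2 + t) ^ (60 - 1) * (2 * x) / t ^ (2 * κ)) (Icc 0 L) x := by
        refine h.congr_of_eventuallyEq ?_ ?_
        · filter_upwards with y
          simp only [Wt, one_div_div, Pi.pow_apply]
        · simp only [Wt, one_div_div, Pi.pow_apply]
      refine h'.congr_deriv ?_
      simp only [Wt, one_div_div]
      have ha' : t ^ (2 * κ) ≠ 0 := ha.ne'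
      generalize x ^ 2 + t = r at hr'
      generalize t ^ (2 * κ) = c at ha'
      field_simp
      norm_num
      ring
    have := hW t ht x
    have := hx.1
    rw [e, abs_of_nonneg]
    positivity

theorem Wgt.om {K : ℝ} {V : ℝ → ℝ → ℝ} (hL : 0 < L) (hV : Wgt K L V) :
    Wgt (K + 2) L (fun t x => V t x * (x ^ 2 + t) / L ^ 2) := by
  have hL2 : 0 < L ^ 2 := by positivity
  refine ⟨?_, ?_, ?_⟩
  · exact sm_div (sm_mul hV.sm sm_r) (sm_const (L ^ 2)) (fun _ _ _ _ => hL2.ne')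
  · intro t ht x hx
    exact div_pos (mul_pos (hV.pos t ht x hx) (r_pos ht)) hL2
  · intro t ht x hx
    have hr : 0 < x ^ 2 + t := r_pos ht
    have hx0 := hx.1
    have hVp := hV.pos t ht x hx
    have e : dx L (fun t x => V t x * (x ^ 2 + t) / L ^ 2) t x
        = (dx L V t x * (x ^ 2 + t) + V t x * (2 * x)) / L ^ 2 := by
      apply dx_val hL hx
      exact ((sm_hasDx hL hV.sm ht hx).mul ((hasDeriv_r t x).hasDerivWithinAt)).div_const _
    rw [e, abs_div, abs_of_pos hL2]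
    have h1 : |dx L V t x * (x ^ 2 + t) + V t x * (2 * x)| ≤ (K + 2) * (x * V t x) := by
      have h2 := hV.der t ht x hx
      have h3 : |dx L V t x * (x ^ 2 + t)| ≤ K * (x * V t x) := by
        rw [abs_mul, abs_of_pos hr]
        calc |dx L V t x| * (x ^ 2 + t) ≤ K * (x * V t x / (x ^ 2 + t)) * (x ^ 2 + t) :=
              mul_le_mul_of_nonneg_right h2 hr.le
          _ = K * (x * V t x) := by field_simp
      have h4 : |V t x * (2 * x)| = 2 * (x * V t x) := by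
        rw [abs_of_nonneg (by positivity)]; ring
      calc |dx L V t x * (x ^ 2 + t) + V t x * (2 * x)|
          ≤ |dx L V t x * (x ^ 2 + t)| + |V t x * (2 * x)| := abs_add_le _ _
        _ ≤ K * (x * V t x) + 2 * (x * V t x) := by rw [h4]; linarith
        _ = _ := by ring
    calc |dx L V t x * (x ^ 2 + t) + V t x * (2 * x)| / L ^ 2
        ≤ (K + 2) * (x * V t x) / L ^ 2 := by gcongr
      _ = (K + 2) * (x * (V t x * (x ^ 2 + t) / L ^ 2) / (x ^ 2 + t)) := by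
        field_simp

/-! ### Test properties -/

theorem tst_div {u v : ℝ → ℝ → ℝ} (hu : Tst L u) (hv : Sm I01 L v)
    (h : ∀ t ∈ I01, ∀ x ∈ Icc 0 L, v t x ≠ 0) : Tst L (fun t x => u t x / v t x) := by
  refine ⟨sm_div hu.1 hv h, ?_⟩
  obtain ⟨a, b, h0, h1, h2, h3⟩ := hu.2
  exact ⟨a, b, h0, h1, h2, fun τ x h => by simp [h3 τ x h]⟩

theorem sm9 : Sm I01 L (fun _ x => x ^ 9) := sm_pow sm_snd 9

theorem tstA {V f : ℝ → ℝ → ℝ} (hV : Sm I01 L V) (hf : Tst L f) :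
    Tst L (fun t x => x ^ 9 * V t x * f t x ^ 2) :=
  tst_mul_left (sm_mul sm9 hV) (tst_pow hf two_ne_zero)

theorem tstB {V f : ℝ → ℝ → ℝ} (hV : Sm I01 L V) (hf : Tst L f) :
    Tst L (fun t x => x ^ 9 * V t x * f t x ^ 2 / t) :=
  tst_div (tstA hV hf) sm_fst (fun _ ht _ _ => ne_of_gt ht.1)

theorem tstC {V f : ℝ → ℝ → ℝ} (hV : Sm I01 L V) (hf : Tst L f) :
    Tst L (fun t x => x ^ 9 * V t x * f t x ^ 2 / (x ^ 2 + t)) :=
  tst_div (tstA hV hf) sm_r (fun _ ht _ _ => (r_pos ht).ne')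

/-- Cauchy–Schwarz for `II` -/
theorem II_cs {A B D : ℝ → ℝ → ℝ} (hA : Tst L A) (hB : Tst L B) (hD : Tst L D)
    (hA0 : ∀ t ∈ I01, ∀ x ∈ Ioo 0 L, 0 ≤ A t x) (hD0 : ∀ t ∈ I01, ∀ x ∈ Ioo 0 L, 0 ≤ D t x)
    (h : ∀ t ∈ I01, ∀ x ∈ Ioo 0 L, B t x ^ 2 ≤ A t x * D t x) :
    II L B ^ 2 ≤ II L A * II L D := by
  have key : ∀ s : ℝ, 0 ≤ II L D * (s * s) + (2 * II L B) * s + II L A := by
    intro s
    have e : II L (fun t x => A t x + ((2 * s) * B t x + s ^ 2 * D t x))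
        = II L D * (s * s) + (2 * II L B) * s + II L A := by
      rw [II_add hA (tst_add (tst_const_mul (2 * s) hB) (tst_const_mul (s ^ 2) hD)),
        II_add (tst_const_mul (2 * s) hB) (tst_const_mul (s ^ 2) hD), II_const_mul, II_const_mul]
      ring
    rw [← e]
    apply II_nonneg
    intro t ht x hx
    have hA' := hA0 t ht x hx
    have hD' := hD0 t ht x hx
    have hh := h t ht x hx
    show 0 ≤ A t x + (2 * s * B t x + s ^ 2 * D t x)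
    by_cases hz : D t x = 0
    · have hB0 : B t x = 0 := by
        rw [hz, mul_zero] at hh
        exact pow_eq_zero_iff two_ne_zero |>.1 (le_antisymm hh (sq_nonneg _))
      rw [hz, hB0]; simpa using hA'
    · have hDp : 0 < D t x := lt_of_le_of_ne hD' (Ne.symm hz)
      have h1 : 0 ≤ D t x * (A t x + (2 * s * B t x + s ^ 2 * D t x)) := by
        nlinarith [sq_nonneg (s * D t x + B t x)]
      exact nonneg_of_mul_nonneg_right h1 hDp
  have := discrim_le_zero key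
  unfold discrim at this
  nlinarith

/-! ### Cut-off estimate -/

theorem cut_bd {C0 K1 K2 : ℝ} {φ V v : ℝ → ℝ → ℝ} {a b : ℝ → ℝ} (hφ : PhiB C0 L φ) (hL8 : 8 ≤ L)
    (hV : Wgt 120 L V) (ha : ContDiff ℝ (⊤ : ℕ∞) a) (hb : ContDiff ℝ (⊤ : ℕ∞) b)
    (ha' : ∀ x ∈ Icc 0 L, |a x| ≤ K1 / L) (hb' : ∀ x ∈ Icc 0 L, |b x| ≤ K2 / L ^ 2)
    (hv : Tst L v) :
    II L (fun t x => x ^ 9 * V t x * (φ t x * (2 * a x * dx L v t x + b x * v t x)) ^ 2) ≤
      (8 * K1 ^ 2 * (4 / 3) * (1 + 18226 * C0 ^ 2) + 2 * C0 ^ 2 * K2 ^ 2) / L *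
        (II L (fun t x => x ^ 9 * V t x * (φ t x * dx L (dx L v) t x) ^ 2) +
          II L (fun t x => x ^ 9 * V t x * v t x ^ 2 / t)) := by
  have hL : 0 < L := hφ.L_pos
  have hL2 : 0 < L ^ 2 := by positivity
  have hvx : Tst L (dx L v) := tst_dx hL hv
  have hvxx : Tst L (dx L (dx L v)) := tst_dx hL hvx
  have hφvx : Tst L (fun t x => φ t x * dx L v t x) := tst_mul_left hφ.sm hvx
  have hφvxx : Tst L (fun t x => φ t x * dx L (dx L v) t x) := tst_mul_left hφ.sm hvxx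
  have hω := hV.om hL
  set ω : ℝ → ℝ → ℝ := fun t x => V t x * (x ^ 2 + t) / L ^ 2 with hωdef
  have hint := interp_w (K := 120 + 2) (η := 1 / L) (v := v) hφ (by norm_num) (by positivity) hω.sm
    (fun t ht x hx => (hω.pos t ht x hx).le) hω.der hv.1 (Or.inr hv.2)
  set N1 := II L (fun t x => x ^ 9 * V t x * (φ t x * dx L (dx L v) t x) ^ 2) with hN1
  set N0 := II L (fun t x => x ^ 9 * V t x * v t x ^ 2 / t) with hN0
  have hN1p : 0 ≤ N1 := II_nonneg (fun t ht x hx => by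
    have := hV.pos t ht x (Ioo_subset_Icc_self hx)
    have := hx.1
    positivity)
  have hN0p : 0 ≤ N0 := II_nonneg (fun t ht x hx => by
    have := hV.pos t ht x (Ioo_subset_Icc_self hx)
    have := hx.1
    have := ht.1
    positivity)
  -- first term of the interpolation
  have i1 : II L (fun t x => x ^ 9 * ω t x * (φ t x * dx L (dx L v) t x) ^ 2) ≤ 2 * N1 := by
    rw [hN1, ← II_const_mul]
    refine II_mono (tstA hω.sm hφvxx) (tst_const_mul 2 (tstA hV.sm hφvxx)) ?_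
    intro t ht x hx
    have hV0 := hV.pos t ht x (Ioo_subset_Icc_self hx)
    have hx0 := hx.1
    have hxL := hx.2
    have ht1 := ht.2
    have h1 : (x ^ 2 + t) / L ^ 2 ≤ 2 := by
      rw [div_le_iff₀ hL2]; nlinarith
    have e : x ^ 9 * ω t x * (φ t x * dx L (dx L v) t x) ^ 2
        = (x ^ 2 + t) / L ^ 2 * (x ^ 9 * V t x * (φ t x * dx L (dx L v) t x) ^ 2) := by
      rw [hωdef]; ring
    show x ^ 9 * ω t x * (φ t x * dx L (dx L v) t x) ^ 2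
      ≤ 2 * (x ^ 9 * V t x * (φ t x * dx L (dx L v) t x) ^ 2)
    rw [e]
    exact mul_le_mul_of_nonneg_right h1 (by positivity)
  have i2 : II L (fun t x => x ^ 9 * ω t x * v t x ^ 2 / (x ^ 2 + t)) ≤ 1 / L ^ 2 * N0 := by
    rw [hN0, ← II_const_mul]
    refine II_mono (tstC hω.sm hv) (tst_const_mul _ (tstB hV.sm hv)) ?_
    intro t ht x hx
    have hV0 := hV.pos t ht x (Ioo_subset_Icc_self hx)
    have hx0 := hx.1
    have ht0 := ht.1
    have ht1 := ht.2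
    have hr := r_pos (x := x) ht
    have e : x ^ 9 * ω t x * v t x ^ 2 / (x ^ 2 + t) = 1 / L ^ 2 * (x ^ 9 * V t x * v t x ^ 2) := by
      rw [hωdef]; field_simp
    show x ^ 9 * ω t x * v t x ^ 2 / (x ^ 2 + t) ≤ 1 / L ^ 2 * (x ^ 9 * V t x * v t x ^ 2 / t)
    rw [e]
    apply mul_le_mul_of_nonneg_left _ (by positivity)
    rw [le_div_iff₀ ht0]
    have : 0 ≤ x ^ 9 * V t x * v t x ^ 2 := by positivity
    nlinarith
  have hC0 := hφ.C0_nonneg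
  have i3 : II L (fun t x => x ^ 9 * ω t x * (φ t x * dx L v t x) ^ 2 / (x ^ 2 + t)) ≤
      4 / 3 * (1 + 18226 * C0 ^ 2) / L * (N1 + N0) := by
    refine hint.trans ?_
    have h1 : 2 / 3 * (1 / L) * II L (fun t x => x ^ 9 * ω t x * (φ t x * dx L (dx L v) t x) ^ 2)
        ≤ 2 / 3 * (1 / L) * (2 * N1) := mul_le_mul_of_nonneg_left i1 (by positivity)
    have h2 : 4 / 3 * (C0 ^ 2 * (13 + (120 + 2)) ^ 2 + C0 ^ 2 / (2 * (1 / L))) *
        II L (fun t x => x ^ 9 * ω t x * v t x ^ 2 / (x ^ 2 + t)) ≤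
        4 / 3 * (C0 ^ 2 * (13 + (120 + 2)) ^ 2 + C0 ^ 2 / (2 * (1 / L))) * (1 / L ^ 2 * N0) :=
      mul_le_mul_of_nonneg_left i2 (by positivity)
    have h3 : 4 / 3 * (C0 ^ 2 * (13 + (120 + 2)) ^ 2 + C0 ^ 2 / (2 * (1 / L))) * (1 / L ^ 2 * N0)
        ≤ 4 / 3 * (18226 * C0 ^ 2) / L * N0 := by
      have e : 4 / 3 * (C0 ^ 2 * (13 + (120 + 2)) ^ 2 + C0 ^ 2 / (2 * (1 / L))) * (1 / L ^ 2 * N0)
          = (4 / 3 * C0 ^ 2 * (18225 / L + 1 / 2)) / L * N0 := by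
        field_simp
        ring
      rw [e]
      have h4 : 18225 / L + 1 / 2 ≤ 18226 := by
        have : 18225 / L ≤ 18225 / 8 := by gcongr
        linarith [show (18225 : ℝ) / 8 ≤ 18225 by norm_num]
      have h5 : 4 / 3 * C0 ^ 2 * (18225 / L + 1 / 2) ≤ 4 / 3 * (18226 * C0 ^ 2) := by
        nlinarith [sq_nonneg C0]
      gcongr
    have e4 : 4 / 3 * (1 + 18226 * C0 ^ 2) / L * (N1 + N0)
        = (2 / 3 * (1 / L) * (2 * N1) + 4 / 3 * (18226 * C0 ^ 2) / L * N0)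
          + (4 / 3 * (18226 * C0 ^ 2) / L * N1 + 4 / 3 / L * N0) := by ring
    have h6 : 0 ≤ 4 / 3 * (18226 * C0 ^ 2) / L * N1 + 4 / 3 / L * N0 := by positivity
    linarith
  -- pointwise bound
  have hfin : II L (fun t x => x ^ 9 * V t x * (φ t x * (2 * a x * dx L v t x + b x * v t x)) ^ 2)
      ≤ 8 * K1 ^ 2 * II L (fun t x => x ^ 9 * ω t x * (φ t x * dx L v t x) ^ 2 / (x ^ 2 + t))
        + 2 * C0 ^ 2 * K2 ^ 2 / L ^ 2 * N0 := by
    rw [hN0, ← II_const_mul, ← II_const_mul,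
      ← II_add (tst_const_mul _ (tstC hω.sm hφvx)) (tst_const_mul _ (tstB hV.sm hv))]
    have hbr : Tst L (fun t x => φ t x * (2 * a x * dx L v t x + b x * v t x)) := by
      refine tst_mul_left hφ.sm (tst_add (tst_mul_left (u := fun _ x => 2 * a x) ?_ hvx)
        (tst_mul_left (u := fun _ x => b x) (sm_of_x hb) hv))
      exact sm_of_x (contDiff_const.mul ha)
    refine II_mono (tstA hV.sm hbr)
      (tst_add (tst_const_mul _ (tstC hω.sm hφvx)) (tst_const_mul _ (tstB hV.sm hv))) ?_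
    intro t ht x hx
    have hx' := Ioo_subset_Icc_self hx
    have hV0 := hV.pos t ht x hx'
    have hx0 := hx.1
    have hxL := hx.2
    have ht0 := ht.1
    have ht1 := ht.2
    have hr := r_pos (x := x) ht
    have h9 : 0 ≤ x ^ 9 * V t x := by positivity
    have e1 : x ^ 9 * ω t x * (φ t x * dx L v t x) ^ 2 / (x ^ 2 + t)
        = x ^ 9 * V t x * ((φ t x * dx L v t x) ^ 2 / L ^ 2) := by
      rw [hωdef]; field_simp
    show x ^ 9 * V t x * (φ t x * (2 * a x * dx L v t x + b x * v t x)) ^ 2 ≤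
      8 * K1 ^ 2 * (x ^ 9 * ω t x * (φ t x * dx L v t x) ^ 2 / (x ^ 2 + t)) +
        2 * C0 ^ 2 * K2 ^ 2 / L ^ 2 * (x ^ 9 * V t x * v t x ^ 2 / t)
    rw [e1]
    have ha2 : a x ^ 2 ≤ K1 ^ 2 / L ^ 2 := by
      rw [← div_pow, ← sq_abs (a x)]
      exact pow_le_pow_left₀ (abs_nonneg _) (ha' x hx') 2
    have hb2 : b x ^ 2 ≤ K2 ^ 2 / L ^ 4 := by
      have : K2 ^ 2 / L ^ 4 = (K2 / L ^ 2) ^ 2 := by field_simp
      rw [this, ← sq_abs (b x)]
      exact pow_le_pow_left₀ (abs_nonneg _) (hb' x hx') 2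
    have hφ2 : φ t x ^ 2 ≤ C0 ^ 2 * L ^ 2 := by
      rw [← sq_abs (φ t x), ← mul_pow]
      apply pow_le_pow_left₀ (abs_nonneg _)
      exact (hφ.bd t ht x hx').trans (mul_le_mul_of_nonneg_left hx'.2 hC0)
    have p1 : (φ t x * (2 * a x * dx L v t x + b x * v t x)) ^ 2 ≤
        8 * a x ^ 2 * (φ t x * dx L v t x) ^ 2 + 2 * b x ^ 2 * φ t x ^ 2 * v t x ^ 2 := by
      have : 8 * a x ^ 2 * (φ t x * dx L v t x) ^ 2 + 2 * b x ^ 2 * φ t x ^ 2 * v t x ^ 2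
          - (φ t x * (2 * a x * dx L v t x + b x * v t x)) ^ 2
          = (φ t x * (2 * a x * dx L v t x - b x * v t x)) ^ 2 := by ring
      nlinarith [sq_nonneg (φ t x * (2 * a x * dx L v t x - b x * v t x))]
    have p2 : 8 * a x ^ 2 * (φ t x * dx L v t x) ^ 2 ≤
        8 * K1 ^ 2 * ((φ t x * dx L v t x) ^ 2 / L ^ 2) := by
      have : 8 * K1 ^ 2 * ((φ t x * dx L v t x) ^ 2 / L ^ 2)
          = 8 * (K1 ^ 2 / L ^ 2) * (φ t x * dx L v t x) ^ 2 := by ring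
      rw [this]
      gcongr
    have p3 : 2 * b x ^ 2 * φ t x ^ 2 * v t x ^ 2 ≤ 2 * C0 ^ 2 * K2 ^ 2 / L ^ 2 * (v t x ^ 2 / t) := by
      have h1 : v t x ^ 2 ≤ v t x ^ 2 / t := by
        rw [le_div_iff₀ ht0]
        nlinarith [sq_nonneg (v t x)]
      have h2 : 2 * b x ^ 2 * φ t x ^ 2 ≤ 2 * (K2 ^ 2 / L ^ 4) * (C0 ^ 2 * L ^ 2) := by
        gcongr
      have h3 : 2 * (K2 ^ 2 / L ^ 4) * (C0 ^ 2 * L ^ 2) = 2 * C0 ^ 2 * K2 ^ 2 / L ^ 2 := by
        field_simp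
      rw [h3] at h2
      calc 2 * b x ^ 2 * φ t x ^ 2 * v t x ^ 2 ≤ 2 * C0 ^ 2 * K2 ^ 2 / L ^ 2 * v t x ^ 2 := by
            gcongr
        _ ≤ _ := by gcongr
    calc x ^ 9 * V t x * (φ t x * (2 * a x * dx L v t x + b x * v t x)) ^ 2
        ≤ x ^ 9 * V t x * (8 * K1 ^ 2 * ((φ t x * dx L v t x) ^ 2 / L ^ 2)
            + 2 * C0 ^ 2 * K2 ^ 2 / L ^ 2 * (v t x ^ 2 / t)) :=
          mul_le_mul_of_nonneg_left (p1.trans (add_le_add p2 p3)) h9
      _ = _ := by ring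
  refine hfin.trans ?_
  have h1 : 8 * K1 ^ 2 * II L (fun t x => x ^ 9 * ω t x * (φ t x * dx L v t x) ^ 2 / (x ^ 2 + t))
      ≤ 8 * K1 ^ 2 * (4 / 3 * (1 + 18226 * C0 ^ 2) / L * (N1 + N0)) :=
    mul_le_mul_of_nonneg_left i3 (by positivity)
  have h2 : 2 * C0 ^ 2 * K2 ^ 2 / L ^ 2 * N0 ≤ 2 * C0 ^ 2 * K2 ^ 2 / L * (N1 + N0) := by
    have h3 : 2 * C0 ^ 2 * K2 ^ 2 / L ^ 2 ≤ 2 * C0 ^ 2 * K2 ^ 2 / L := by
      apply div_le_div_of_nonneg_left (by positivity) hL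
      nlinarith
    calc 2 * C0 ^ 2 * K2 ^ 2 / L ^ 2 * N0 ≤ 2 * C0 ^ 2 * K2 ^ 2 / L * N0 := by gcongr
      _ ≤ 2 * C0 ^ 2 * K2 ^ 2 / L * (N1 + N0) := by gcongr; linarith
  have e : (8 * K1 ^ 2 * (4 / 3) * (1 + 18226 * C0 ^ 2) + 2 * C0 ^ 2 * K2 ^ 2) / L * (N1 + N0)
      = 8 * K1 ^ 2 * (4 / 3 * (1 + 18226 * C0 ^ 2) / L * (N1 + N0))
        + 2 * C0 ^ 2 * K2 ^ 2 / L * (N1 + N0) := by ring
  rw [e]
  linarith

end LocAux

open LocAux

/-- localisation with `χ = χ0(x/L)`, `χ0 = 1` on `(-∞,1/32]`, `0` on `[1/16,∞)` -/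
theorem loc {c0 C0 : ℝ} {g : ℝ → ℝ} (hg : Prof c0 C0 g) {χ0 : ℝ → ℝ}
    (hχ : ContDiff ℝ (⊤ : ℕ∞) χ0) (_h1 : ∀ r, r ≤ 1 / 32 → χ0 r = 1)
    (_h2 : ∀ r, 1 / 16 ≤ r → χ0 r = 0) :
    ∃ C : ℝ, 0 ≤ C ∧ ∀ κ ∈ Ioo (1 / 8 : ℝ) (1 / 4), ∀ L, 8 ≤ L →
      ∀ φ m, Bg c0 C0 g L φ m → ∀ u ψ, Tst L u → Tst L ψ →
        Tst L (fun τ x => χ0 (x / L) * u τ x) ∧
        nX κ L φ (fun τ x => χ0 (x / L) * u τ x) ≤ C * nX κ L φ u ∧
        (BB L φ u (fun τ x => χ0 (x / L) * ψ τ x) - BB L φ (fun τ x => χ0 (x / L) * u τ x) ψ) ^ 2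
          ≤ C / L * nX κ L φ u * nY κ L φ ψ := by
  -- derivatives of χ0
  have hχ1 : ContDiff ℝ (⊤ : ℕ∞) (deriv χ0) := (contDiff_infty_iff_deriv.1 hχ).2
  have hχ2 : ContDiff ℝ (⊤ : ℕ∞) (deriv (deriv χ0)) := (contDiff_infty_iff_deriv.1 hχ1).2
  obtain ⟨K0, hK0⟩ := isCompact_Icc.exists_bound_of_continuousOn (s := Icc (0 : ℝ) 1)
    hχ.continuous.continuousOn
  obtain ⟨K1, hK1⟩ := isCompact_Icc.exists_bound_of_continuousOn (s := Icc (0 : ℝ) 1)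
    hχ1.continuous.continuousOn
  obtain ⟨K2, hK2⟩ := isCompact_Icc.exists_bound_of_continuousOn (s := Icc (0 : ℝ) 1)
    hχ2.continuous.continuousOn
  have h01 : (0 : ℝ) ∈ Icc (0 : ℝ) 1 := ⟨le_rfl, zero_le_one⟩
  have hK0p : 0 ≤ K0 := (norm_nonneg _).trans (hK0 0 h01)
  have hK1p : 0 ≤ K1 := (norm_nonneg _).trans (hK1 0 h01)
  have hK2p : 0 ≤ K2 := (norm_nonneg _).trans (hK2 0 h01)
  set C : ℝ := 8 * K1 ^ 2 * (4 / 3) * (1 + 18226 * C0 ^ 2) + 2 * C0 ^ 2 * K2 ^ 2 with hC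
  have hCp : 0 ≤ C := by positivity
  refine ⟨2 * K0 ^ 2 + 4 * C, by positivity, ?_⟩
  intro κ _hκ L hL8 φ m hB u ψ hu hψ
  have hφ : PhiB C0 L φ := PhiB.of_Bg hB hg.c0_pos.le
  have hL : 0 < L := hφ.L_pos
  have hmem : ∀ x ∈ Icc 0 L, x / L ∈ Icc (0 : ℝ) 1 := fun x hx =>
    ⟨div_nonneg hx.1 hL.le, by rw [div_le_one hL]; exact hx.2⟩
  have hdiv : ContDiff ℝ (⊤ : ℕ∞) (fun x : ℝ => x / L) := contDiff_id.div_const L
  set χ : ℝ → ℝ := fun x => χ0 (x / L) with hχdef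
  set a : ℝ → ℝ := fun x => deriv χ0 (x / L) / L with ha
  set b : ℝ → ℝ := fun x => deriv (deriv χ0) (x / L) / L ^ 2 with hb
  have hχs : ContDiff ℝ (⊤ : ℕ∞) χ := hχ.comp hdiv
  have has : ContDiff ℝ (⊤ : ℕ∞) a := (hχ1.comp hdiv).div_const L
  have hbs : ContDiff ℝ (⊤ : ℕ∞) b := (hχ2.comp hdiv).div_const (L ^ 2)
  have hd : ∀ x : ℝ, HasDerivAt (fun y : ℝ => y / L) (1 / L) x := fun x =>
    (hasDerivAt_id x).div_const L
  have hχd : ∀ x, HasDerivAt χ (a x) x := by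
    intro x
    have h := ((hχ.differentiable (by simp)) (x / L)).hasDerivAt.comp x (hd x)
    exact h.congr_deriv (by rw [ha]; ring)
  have had : ∀ x, HasDerivAt a (b x) x := by
    intro x
    have h := (((hχ1.differentiable (by simp)) (x / L)).hasDerivAt.comp x (hd x)).div_const L
    exact h.congr_deriv (by rw [hb]; ring)
  have hχb : ∀ x ∈ Icc 0 L, |χ x| ≤ K0 := fun x hx => hK0 _ (hmem x hx)
  have hab : ∀ x ∈ Icc 0 L, |a x| ≤ K1 / L := by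
    intro x hx
    rw [ha]
    simp only
    rw [abs_div, abs_of_pos hL]
    exact div_le_div_of_nonneg_right (hK1 _ (hmem x hx)) hL.le
  have hbb : ∀ x ∈ Icc 0 L, |b x| ≤ K2 / L ^ 2 := by
    intro x hx
    rw [hb]
    simp only
    rw [abs_div, abs_of_pos (by positivity : 0 < L ^ 2)]
    exact div_le_div_of_nonneg_right (hK2 _ (hmem x hx)) (by positivity)
  -- second derivative of a product with χ
  have hprod : ∀ v : ℝ → ℝ → ℝ, Sm I01 L v → ∀ t ∈ I01, ∀ x ∈ Icc 0 L,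
      dx L (dx L (fun τ x => χ x * v τ x)) t x
        = χ x * dx L (dx L v) t x + (2 * a x * dx L v t x + b x * v t x) := by
    intro v hv t ht x hx
    have hv1 := sm_dx hL hv
    have e1 : ∀ y ∈ Icc 0 L, dx L (fun τ x => χ x * v τ x) t y = a y * v t y + χ y * dx L v t y := by
      intro y hy
      exact dx_val hL hy (((hχd y).hasDerivWithinAt).mul (sm_hasDx hL hv ht hy))
    apply dx_val hL hx
    have h := (((had x).hasDerivWithinAt (s := Icc 0 L)).mul (sm_hasDx hL hv ht hx)).add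
      (((hχd x).hasDerivWithinAt (s := Icc 0 L)).mul (sm_hasDx hL hv1 ht hx))
    refine (h.congr (fun y hy => ?_) ?_).congr_deriv ?_
    · rw [e1 y hy]; simp [Pi.mul_apply]
    · rw [e1 x hx]; simp [Pi.mul_apply]
    · ring
  have hTχ : ∀ v : ℝ → ℝ → ℝ, Tst L v → Tst L (fun τ x => χ x * v τ x) := fun v hv =>
    tst_mul_left (u := fun _ x => χ x) (sm_of_x hχs) hv
  have hux := tst_dx hL hu
  have huxx := tst_dx hL hux
  have hψx := tst_dx hL hψ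
  have hψxx := tst_dx hL hψx
  have hWu := wgt_Wt hL κ
  have hWi := wgt_inv hL κ
  have hWp : ∀ t ∈ I01, ∀ x : ℝ, 0 < Wt κ t x := fun t ht x =>
    div_pos (Real.rpow_pos_of_pos ht.1 _) (pow_pos (r_pos ht) _)
  have hbrT : ∀ v : ℝ → ℝ → ℝ, Tst L v →
      Tst L (fun t x => φ t x * (2 * a x * dx L v t x + b x * v t x)) := by
    intro v hv
    refine tst_mul_left hφ.sm (tst_add (tst_mul_left (u := fun _ x => 2 * a x) ?_ (tst_dx hL hv))
      (tst_mul_left (u := fun _ x => b x) (sm_of_x hbs) hv))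
    exact sm_of_x (contDiff_const.mul has)
  have cu := cut_bd hφ hL8 hWu has hbs hab hbb hu
  have cψ := cut_bd hφ hL8 hWi has hbs hab hbb hψ
  rw [← hC] at cu cψ
  -- nX and nY as sums
  have hnX : nX κ L φ u = II L (fun t x => x ^ 9 * Wt κ t x * (φ t x * dx L (dx L u) t x) ^ 2) +
      II L (fun t x => x ^ 9 * Wt κ t x * u t x ^ 2 / t) := by
    rw [← II_add (tstA hWu.sm (tst_mul_left hφ.sm huxx)) (tstB hWu.sm hu)]
    unfold nX
    apply II_congr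
    intro t ht x hx
    ring
  have hnY : nY κ L φ ψ
      = II L (fun t x => x ^ 9 * (1 / Wt κ t x) * (φ t x * dx L (dx L ψ) t x) ^ 2) +
      II L (fun t x => x ^ 9 * (1 / Wt κ t x) * ψ t x ^ 2 / t) := by
    rw [← II_add (tstA hWi.sm (tst_mul_left hφ.sm hψxx)) (tstB hWi.sm hψ)]
    unfold nY
    apply II_congr
    intro t ht x hx
    have := (hWp t ht x).ne'
    have := (ne_of_gt ht.1 : t ≠ 0)
    field_simp
  rw [← hnX] at cu
  rw [← hnY] at cψ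
  have hN1u : 0 ≤ II L (fun t x => x ^ 9 * Wt κ t x * (φ t x * dx L (dx L u) t x) ^ 2) :=
    II_nonneg (fun t ht x hx => by
      have := hWp t ht x
      have := hx.1
      positivity)
  have hN0u : 0 ≤ II L (fun t x => x ^ 9 * Wt κ t x * u t x ^ 2 / t) :=
    II_nonneg (fun t ht x hx => by
      have := hWp t ht x
      have := hx.1
      have := ht.1
      positivity)
  have hN1ψ : 0 ≤ II L (fun t x => x ^ 9 * (1 / Wt κ t x) * (φ t x * dx L (dx L ψ) t x) ^ 2) :=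
    II_nonneg (fun t ht x hx => by
      have := hWp t ht x
      have := hx.1
      positivity)
  have hN0ψ : 0 ≤ II L (fun t x => x ^ 9 * (1 / Wt κ t x) * ψ t x ^ 2 / t) :=
    II_nonneg (fun t ht x hx => by
      have := hWp t ht x
      have := hx.1
      have := ht.1
      positivity)
  have hnXp : 0 ≤ nX κ L φ u := by rw [hnX]; linarith
  have hnYp : 0 ≤ nY κ L φ ψ := by rw [hnY]; linarith
  have hL1 : C / L ≤ C := by
    apply div_le_self hCp; linarith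
  refine ⟨hTχ u hu, ?_, ?_⟩
  · -- the X-norm
    have hle : nX κ L φ (fun τ x => χ x * u τ x) ≤
        2 * K0 ^ 2 * nX κ L φ u + 2 * II L (fun t x => x ^ 9 * Wt κ t x *
          (φ t x * (2 * a x * dx L u t x + b x * u t x)) ^ 2) := by
      have e1 : nX κ L φ (fun τ x => χ x * u τ x) =
          II L (fun t x => x ^ 9 * Wt κ t x * (φ t x * dx L (dx L (fun τ x => χ x * u τ x)) t x) ^ 2) +
          II L (fun t x => x ^ 9 * Wt κ t x * (χ x * u t x) ^ 2 / t) := by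
        have hT := hTχ u hu
        rw [← II_add (tstA hWu.sm (tst_mul_left hφ.sm (tst_dx hL (tst_dx hL hT))))
          (tstB hWu.sm hT)]
        unfold nX
        apply II_congr
        intro t ht x hx
        ring
      rw [e1]
      have hT := hTχ u hu
      have s1 : II L (fun t x => x ^ 9 * Wt κ t x *
          (φ t x * dx L (dx L (fun τ x => χ x * u τ x)) t x) ^ 2) ≤
          2 * K0 ^ 2 * II L (fun t x => x ^ 9 * Wt κ t x * (φ t x * dx L (dx L u) t x) ^ 2) +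
          2 * II L (fun t x => x ^ 9 * Wt κ t x *
          (φ t x * (2 * a x * dx L u t x + b x * u t x)) ^ 2) := by
        rw [← II_const_mul, ← II_const_mul, ← II_add
          (tst_const_mul _ (tstA hWu.sm (tst_mul_left hφ.sm huxx)))
          (tst_const_mul _ (tstA hWu.sm (hbrT u hu)))]
        refine II_mono (tstA hWu.sm (tst_mul_left hφ.sm (tst_dx hL (tst_dx hL hT))))
          (tst_add (tst_const_mul _ (tstA hWu.sm (tst_mul_left hφ.sm huxx)))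
          (tst_const_mul _ (tstA hWu.sm (hbrT u hu)))) ?_
        intro t ht x hx
        have hx' := Ioo_subset_Icc_self hx
        have hW0 := hWp t ht x
        have hx0 := hx.1
        have h9 : 0 ≤ x ^ 9 * Wt κ t x := by positivity
        have hχ2' : χ x ^ 2 ≤ K0 ^ 2 := by
          rw [← sq_abs (χ x)]
          exact pow_le_pow_left₀ (abs_nonneg _) (hχb x hx') 2
        show x ^ 9 * Wt κ t x * (φ t x * dx L (dx L (fun τ x => χ x * u τ x)) t x) ^ 2 ≤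
          2 * K0 ^ 2 * (x ^ 9 * Wt κ t x * (φ t x * dx L (dx L u) t x) ^ 2) +
          2 * (x ^ 9 * Wt κ t x * (φ t x * (2 * a x * dx L u t x + b x * u t x)) ^ 2)
        rw [hprod u hu.1 t ht x hx']
        set P := φ t x * dx L (dx L u) t x with hP
        set Q := φ t x * (2 * a x * dx L u t x + b x * u t x) with hQ
        have e2 : φ t x * (χ x * dx L (dx L u) t x + (2 * a x * dx L u t x + b x * u t x))
            = χ x * P + Q := by rw [hP, hQ]; ring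
        rw [e2]
        have h3 : (χ x * P + Q) ^ 2 ≤ 2 * K0 ^ 2 * P ^ 2 + 2 * Q ^ 2 := by
          have h4 : (χ x * P + Q) ^ 2 ≤ 2 * (χ x ^ 2 * P ^ 2) + 2 * Q ^ 2 := by
            nlinarith [sq_nonneg (χ x * P - Q)]
          have h5 : χ x ^ 2 * P ^ 2 ≤ K0 ^ 2 * P ^ 2 := by gcongr
          linarith
        calc x ^ 9 * Wt κ t x * (χ x * P + Q) ^ 2
            ≤ x ^ 9 * Wt κ t x * (2 * K0 ^ 2 * P ^ 2 + 2 * Q ^ 2) :=
              mul_le_mul_of_nonneg_left h3 h9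
          _ = _ := by ring
      have s2 : II L (fun t x => x ^ 9 * Wt κ t x * (χ x * u t x) ^ 2 / t) ≤
          2 * K0 ^ 2 * II L (fun t x => x ^ 9 * Wt κ t x * u t x ^ 2 / t) := by
        rw [← II_const_mul]
        refine II_mono (tstB hWu.sm hT) (tst_const_mul _ (tstB hWu.sm hu)) ?_
        intro t ht x hx
        have hx' := Ioo_subset_Icc_self hx
        have hW0 := hWp t ht x
        have hx0 := hx.1
        have ht0 := ht.1
        have hχ2' : χ x ^ 2 ≤ K0 ^ 2 := by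
          rw [← sq_abs (χ x)]
          exact pow_le_pow_left₀ (abs_nonneg _) (hχb x hx') 2
        show x ^ 9 * Wt κ t x * (χ x * u t x) ^ 2 / t ≤
          2 * K0 ^ 2 * (x ^ 9 * Wt κ t x * u t x ^ 2 / t)
        have e3 : x ^ 9 * Wt κ t x * (χ x * u t x) ^ 2 / t
            = χ x ^ 2 * (x ^ 9 * Wt κ t x * u t x ^ 2 / t) := by ring
        rw [e3]
        have h4 : 0 ≤ x ^ 9 * Wt κ t x * u t x ^ 2 / t := by positivity
        nlinarith [sq_nonneg K0]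
      rw [hnX, mul_add]
      linarith
    refine hle.trans ?_
    have h1 : C / L * nX κ L φ u ≤ C * nX κ L φ u := mul_le_mul_of_nonneg_right hL1 hnXp
    have h2 : (2 * K0 ^ 2 + 4 * C) * nX κ L φ u
        = 2 * K0 ^ 2 * nX κ L φ u + 2 * (C * nX κ L φ u) + 2 * (C * nX κ L φ u) := by ring
    have h3 : 0 ≤ C * nX κ L φ u := mul_nonneg hCp hnXp
    rw [h2]
    linarith
  · -- the commutator
    set B1 : ℝ → ℝ → ℝ := fun t x => x ^ 9 * (φ t x * dx L (dx L u) t x) *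
      (φ t x * (2 * a x * dx L ψ t x + b x * ψ t x)) with hB1
    set B2 : ℝ → ℝ → ℝ := fun t x => x ^ 9 * (φ t x * dx L (dx L ψ) t x) *
      (φ t x * (2 * a x * dx L u t x + b x * u t x)) with hB2
    have hφuxx : Tst L (fun t x => φ t x * dx L (dx L u) t x) := tst_mul_left hφ.sm huxx
    have hφψxx : Tst L (fun t x => φ t x * dx L (dx L ψ) t x) := tst_mul_left hφ.sm hψxx
    have tB1 : Tst L B1 := tst_mul_right (tst_mul_left sm9 hφuxx) (hbrT ψ hψ).1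
    have tB2 : Tst L B2 := tst_mul_right (tst_mul_left sm9 hφψxx) (hbrT u hu).1
    have hdiff : BB L φ u (fun τ x => χ x * ψ τ x) - BB L φ (fun τ x => χ x * u τ x) ψ
        = II L B1 - II L B2 := by
      have hTψ := hTχ ψ hψ
      have hTu := hTχ u hu
      have t1 : Tst L (fun τ x => x ^ 9 * (dt (fun τ x => χ x * ψ τ x) τ x * u τ x +
          φ τ x ^ 2 * dx L (dx L (fun τ x => χ x * ψ τ x)) τ x * dx L (dx L u) τ x)) := by
        refine tst_mul_left sm9 (tst_add (tst_mul_left (sm_dt hL hTψ.1) hu) ?_)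
        exact tst_mul_left (sm_mul (sm_pow hφ.sm 2) (sm_dx hL (sm_dx hL hTψ.1))) huxx
      have t2 : Tst L (fun τ x => x ^ 9 * (dt ψ τ x * (χ x * u τ x) +
          φ τ x ^ 2 * dx L (dx L ψ) τ x * dx L (dx L (fun τ x => χ x * u τ x)) τ x)) := by
        refine tst_mul_left sm9 (tst_add (tst_mul_left (sm_dt hL hψ.1) hTu) ?_)
        exact tst_mul_left (sm_mul (sm_pow hφ.sm 2) (sm_dx hL (sm_dx hL hψ.1)))
          (tst_dx hL (tst_dx hL hTu))
      unfold BB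
      rw [← II_sub t1 t2, ← II_sub tB1 tB2]
      apply II_congr
      intro t ht x hx
      have hx' := Ioo_subset_Icc_self hx
      have e1 : dt (fun τ x => χ x * ψ τ x) t x = χ x * dt ψ t x :=
        dt_val ((sm_hasDt hψ.1 ht hx').const_mul (χ x))
      show x ^ 9 * (dt (fun τ x => χ x * ψ τ x) t x * u t x +
          φ t x ^ 2 * dx L (dx L (fun τ x => χ x * ψ τ x)) t x * dx L (dx L u) t x) -
          x ^ 9 * (dt ψ t x * (χ x * u t x) +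
          φ t x ^ 2 * dx L (dx L ψ) t x * dx L (dx L (fun τ x => χ x * u τ x)) t x)
          = B1 t x - B2 t x
      rw [e1, hprod ψ hψ.1 t ht x hx', hprod u hu.1 t ht x hx', hB1, hB2]
      ring
    have c1 : II L B1 ^ 2 ≤ nX κ L φ u * (C / L * nY κ L φ ψ) := by
      have h := II_cs (tstA hWu.sm hφuxx) tB1 (tstA hWi.sm (hbrT ψ hψ))
        (fun t ht x hx => by
          have := hWp t ht x
          have := hx.1
          positivity)
        (fun t ht x hx => by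
          have := hWp t ht x
          have := hx.1
          positivity)
        (fun t ht x hx => by
          have := (hWp t ht x).ne'
          rw [hB1]
          apply le_of_eq
          field_simp)
      refine h.trans ?_
      have hX : II L (fun t x => x ^ 9 * Wt κ t x * (φ t x * dx L (dx L u) t x) ^ 2)
          ≤ nX κ L φ u := by rw [hnX]; linarith
      have hp : 0 ≤ II L (fun t x => x ^ 9 * (1 / Wt κ t x) *
          (φ t x * (2 * a x * dx L ψ t x + b x * ψ t x)) ^ 2) :=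
        II_nonneg (fun t ht x hx => by
          have := hWp t ht x
          have := hx.1
          positivity)
      exact mul_le_mul hX cψ hp hnXp
    have c2 : II L B2 ^ 2 ≤ nY κ L φ ψ * (C / L * nX κ L φ u) := by
      have h := II_cs (tstA hWi.sm hφψxx) tB2 (tstA hWu.sm (hbrT u hu))
        (fun t ht x hx => by
          have := hWp t ht x
          have := hx.1
          positivity)
        (fun t ht x hx => by
          have := hWp t ht x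
          have := hx.1
          positivity)
        (fun t ht x hx => by
          have := (hWp t ht x).ne'
          rw [hB2]
          apply le_of_eq
          field_simp)
      refine h.trans ?_
      have hY : II L (fun t x => x ^ 9 * (1 / Wt κ t x) * (φ t x * dx L (dx L ψ) t x) ^ 2)
          ≤ nY κ L φ ψ := by rw [hnY]; linarith
      have hp : 0 ≤ II L (fun t x => x ^ 9 * Wt κ t x *
          (φ t x * (2 * a x * dx L u t x + b x * u t x)) ^ 2) :=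
        II_nonneg (fun t ht x hx => by
          have := hWp t ht x
          have := hx.1
          positivity)
      exact mul_le_mul hY cu hp hnYp
    rw [hdiff]
    have h3 : (II L B1 - II L B2) ^ 2 ≤ 2 * II L B1 ^ 2 + 2 * II L B2 ^ 2 := by
      nlinarith [sq_nonneg (II L B1 + II L B2)]
    have h4 : (2 * K0 ^ 2 + 4 * C) / L * nX κ L φ u * nY κ L φ ψ
        = 2 * (nX κ L φ u * (C / L * nY κ L φ ψ)) + 2 * (nY κ L φ ψ * (C / L * nX κ L φ u))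
          + 2 * K0 ^ 2 / L * nX κ L φ u * nY κ L φ ψ := by ring
    have h5 : 0 ≤ 2 * K0 ^ 2 / L * nX κ L φ u * nY κ L φ ψ := by positivity
    rw [h4]
    linarith

end Crest.Agent.R213.A
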