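import Crest.Agent.R213.A.StDefs

/-!
# Row 213, Part A, block A4: weighted inequalities on `[0,∞)` for the stationary problem
-/

set_option autoImplicit false

open Set MeasureTheory Filter Topology
open scoped InnerProductSpace

noncomputable section

namespace Crest.Agent.R213.A.St

/-- `P` with first and second derivatives, continuous up to `0`, bounded support. -/
structure TF (P P1 P2 : ℝ → ℂ) : Prop where
  c0 : ContinuousOn P (Ici 0)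
  c1 : ContinuousOn P1 (Ici 0)
  c2 : ContinuousOn P2 (Ici 0)
  d1 : ∀ y : ℝ, 0 < y → HasDerivAt P (P1 y) y
  d2 : ∀ y : ℝ, 0 < y → HasDerivAt P1 (P2 y) y
  supp : ∃ R : ℝ, ∀ y, R ≤ y → P y = 0 ∧ P1 y = 0 ∧ P2 y = 0

/-- continuous on `[0,∞)` with bounded support. -/
def CC {E : Type*} [Zero E] [TopologicalSpace E] (F : ℝ → E) : Prop :=
  ContinuousOn F (Ici 0) ∧ ∃ R : ℝ, ∀ y, R ≤ y → F y = 0

lemma CC.integrableOn {E : Type*} [NormedAddCommGroup E] {F : ℝ → E} (h : CC F) :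
    IntegrableOn F (Ioi (0 : ℝ)) := by
  obtain ⟨hc, R, hR⟩ := h
  have h1 : IntegrableOn F (Icc 0 (max R 1)) :=
    (hc.mono Icc_subset_Ici_self).integrableOn_Icc
  have h2 : IntegrableOn F (Ici (max R 1)) := by
    have hz : IntegrableOn (fun _ : ℝ => (0 : E)) (Ici (max R 1)) := integrableOn_zero
    exact hz.congr_fun (fun y hy => (hR y ((le_max_left _ _).trans hy)).symm) measurableSet_Ici
  refine (h1.union h2).mono_set fun y hy => ?_
  rcases le_total y (max R 1) with h | h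
  · exact Or.inl ⟨le_of_lt hy, h⟩
  · exact Or.inr h

lemma DD.tf {P : ℝ → ℂ} (h : DD P) : TF P (derivWithin P (Ici 0))
    (derivWithin (derivWithin P (Ici 0)) (Ici 0)) := by
  obtain ⟨hc, R, hR⟩ := h
  have hu : UniqueDiffOn ℝ (Ici (0 : ℝ)) := uniqueDiffOn_Ici 0
  have h1 : ContDiffOn ℝ (⊤ : ℕ∞) (derivWithin P (Ici 0)) (Ici 0) :=
    hc.derivWithin hu (by simp)
  have h2 : ContDiffOn ℝ (⊤ : ℕ∞) (derivWithin (derivWithin P (Ici 0)) (Ici 0)) (Ici 0) :=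
    h1.derivWithin hu (by simp)
  have hd : ∀ (F : ℝ → ℂ), ContDiffOn ℝ (⊤ : ℕ∞) F (Ici 0) → ∀ y : ℝ, 0 < y →
      HasDerivAt F (derivWithin F (Ici 0) y) y := by
    intro F hF y hy
    have hn : Ici (0 : ℝ) ∈ 𝓝 y := Ici_mem_nhds hy
    rw [derivWithin_of_mem_nhds hn]
    exact ((hF.contDiffAt hn).differentiableAt (by simp)).hasDerivAt
  have hz : ∀ F : ℝ → ℂ, ∀ R : ℝ, 0 ≤ R → (∀ y, R ≤ y → F y = 0) →
      ∀ y, R + 1 ≤ y → derivWithin F (Ici 0) y = 0 := by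
    intro F R hR0 hF y hy
    have hn : Ici (0 : ℝ) ∈ 𝓝 y := Ici_mem_nhds (by linarith)
    rw [derivWithin_of_mem_nhds hn]
    have : F =ᶠ[𝓝 y] fun _ => 0 := by
      filter_upwards [Ioi_mem_nhds (show R < y by linarith)] with z hz
      exact hF z (le_of_lt hz)
    rw [this.deriv_eq]; simp
  refine ⟨hc.continuousOn, h1.continuousOn, h2.continuousOn, hd P hc, hd _ h1,
    ⟨max R 0 + 2, fun y hy => ?_⟩⟩
  have hR' : ∀ y, max R 0 ≤ y → P y = 0 := fun y hy => hR y ((le_max_left _ _).trans hy)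
  have hP1 := hz P (max R 0) (le_max_right _ _) hR'
  have hP2 := hz _ (max R 0 + 1) (by positivity) hP1
  exact ⟨hR' y (by linarith), hP1 y (by linarith), hP2 y (by linarith)⟩

lemma DD.deriv_eq {P : ℝ → ℂ} {y : ℝ} (hy : 0 < y) :
    deriv P y = derivWithin P (Ici 0) y := (derivWithin_of_mem_nhds (Ici_mem_nhds hy)).symm

lemma DD.deriv2_eq {P : ℝ → ℂ} {y : ℝ} (hy : 0 < y) :
    deriv (deriv P) y = derivWithin (derivWithin P (Ici 0)) (Ici 0) y := by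
  rw [derivWithin_of_mem_nhds (Ici_mem_nhds hy)]
  apply Filter.EventuallyEq.deriv_eq
  filter_upwards [Ioi_mem_nhds hy] with z hz
  exact DD.deriv_eq hz

/-- (Z) a total derivative integrates to zero. -/
lemma integral_total {F F' : ℝ → ℝ} (hF : CC F) (hF' : CC F') (h0 : F 0 = 0)
    (hd : ∀ y : ℝ, 0 < y → HasDerivAt F (F' y) y) : ∫ y in Ioi (0 : ℝ), F' y = 0 := by
  have h1 : Tendsto F atTop (𝓝 0) := by
    obtain ⟨-, R, hR⟩ := hF
    refine tendsto_const_nhds.congr' ?_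
    filter_upwards [eventually_ge_atTop R] with y hy
    exact (hR y hy).symm
  have h2 := integral_Ioi_of_hasDerivAt_of_tendsto (a := (0 : ℝ))
    (hF.1 0 (mem_Ici.2 le_rfl)) (fun x hx => hd x hx) hF'.integrableOn h1
  rw [h2, h0, sub_zero]

/-- Integrating a pointwise inequality against a total derivative:
`a - b ≤ F'` pointwise gives `∫ a ≤ ∫ b`. -/
lemma integral_le_of_total {F F' a b : ℝ → ℝ} (hF : CC F) (hF' : CC F') (h0 : F 0 = 0)
    (hd : ∀ y : ℝ, 0 < y → HasDerivAt F (F' y) y) (ha : CC a) (hb : CC b)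
    (hpw : ∀ y : ℝ, 0 < y → a y - b y ≤ F' y) :
    ∫ y in Ioi (0 : ℝ), a y ≤ ∫ y in Ioi (0 : ℝ), b y := by
  have h1 := integral_total hF hF' h0 hd
  have h2 : ∫ y in Ioi (0 : ℝ), (a y - b y) ≤ ∫ y in Ioi (0 : ℝ), F' y :=
    setIntegral_mono_on (ha.integrableOn.sub hb.integrableOn) hF'.integrableOn
      measurableSet_Ioi (fun y hy => hpw y hy)
  rw [integral_sub ha.integrableOn hb.integrableOn, h1] at h2
  linarith

section Hardy

/-- one-derivative version of `TF`. -/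
structure TF1 (u u1 : ℝ → ℂ) : Prop where
  c0 : ContinuousOn u (Ici 0)
  c1 : ContinuousOn u1 (Ici 0)
  d1 : ∀ y : ℝ, 0 < y → HasDerivAt u (u1 y) y
  supp : ∃ R : ℝ, ∀ y, R ≤ y → u y = 0 ∧ u1 y = 0


lemma TF.tf1' {P P1 P2 : ℝ → ℂ} (h : TF P P1 P2) : TF1 P1 P2 :=
  ⟨h.c1, h.c2, h.d2, by obtain ⟨R, hR⟩ := h.supp; exact ⟨R, fun y hy => ⟨(hR y hy).2.1, (hR y hy).2.2⟩⟩⟩

/-- weighted Hardy inequality -/
lemma hardy {u u1 : ℝ → ℂ} (h : TF1 u u1) (n : ℕ) :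
    ∫ y in Ioi (0 : ℝ), y ^ n * ‖u y‖ ^ 2 ≤
      4 / (n + 1 : ℝ) ^ 2 * ∫ y in Ioi (0 : ℝ), y ^ (n + 2) * ‖u1 y‖ ^ 2 := by
  obtain ⟨R, hR⟩ := h.supp
  have hn : (0 : ℝ) < n + 1 := by positivity
  set F : ℝ → ℝ := fun y => y ^ (n + 1) * ⟪u y, u y⟫_ℝ with hF
  set F' : ℝ → ℝ := fun y => ((n + 1 : ℕ) : ℝ) * y ^ n * ⟪u y, u y⟫_ℝ +
    y ^ (n + 1) * (⟪u y, u1 y⟫_ℝ + ⟪u1 y, u y⟫_ℝ) with hF'
  have cu := h.c0
  have cu1 := h.c1
  have hcF : CC F := by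
    refine ⟨?_, R, fun y hy => ?_⟩
    · exact ((continuousOn_id.pow _)).mul (cu.inner cu)
    · simp [hF, (hR y hy).1]
  have hcF' : CC F' := by
    refine ⟨?_, R, fun y hy => ?_⟩
    · exact ((continuousOn_const.mul (continuousOn_id.pow _)).mul (cu.inner cu)).add
        ((continuousOn_id.pow _).mul ((cu.inner cu1).add (cu1.inner cu)))
    · simp [hF', (hR y hy).1]
  have key := integral_le_of_total (F := F) (F' := F')
    (a := fun y => ((n + 1 : ℝ) / 2) * (y ^ n * ‖u y‖ ^ 2))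
    (b := fun y => (2 / (n + 1 : ℝ)) * (y ^ (n + 2) * ‖u1 y‖ ^ 2)) hcF hcF'
    (by simp [hF]) ?_ ?_ ?_ ?_
  · rw [integral_const_mul, integral_const_mul] at key
    have e1 : (4 : ℝ) / (n + 1) ^ 2 = (2 / (n + 1)) * (2 / (n + 1)) := by field_simp; ring
    rw [e1, mul_assoc]
    have := mul_le_mul_of_nonneg_left key (show (0 : ℝ) ≤ 2 / (n + 1) by positivity)
    have e2 : 2 / (n + 1 : ℝ) * ((n + 1) / 2 * ∫ y in Ioi (0 : ℝ), y ^ n * ‖u y‖ ^ 2) =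
        ∫ y in Ioi (0 : ℝ), y ^ n * ‖u y‖ ^ 2 := by field_simp
    rw [e2] at this
    exact this
  · intro y hy
    have h1 : HasDerivAt F _ y :=
      (hasDerivAt_pow (n + 1) y).mul ((h.d1 y hy).inner ℝ (h.d1 y hy))
    refine h1.congr_deriv ?_
    simp only [hF', Nat.add_sub_cancel]
  · exact ⟨continuousOn_const.mul ((continuousOn_id.pow _).mul (cu.norm.pow 2)), R,
      fun y hy => by simp [(hR y hy).1]⟩
  · exact ⟨continuousOn_const.mul ((continuousOn_id.pow _).mul (cu1.norm.pow 2)), R,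
      fun y hy => by simp [(hR y hy).2]⟩
  · intro y hy
    simp only [hF']
    rw [real_inner_self_eq_norm_sq, real_inner_comm (u y) (u1 y)]
    have h1 := abs_real_inner_le_norm (u y) (u1 y)
    have h2 := (abs_le.1 h1).1
    set a := ‖u y‖
    set b := ‖u1 y‖
    set i := ⟪u y, u1 y⟫_ℝ
    have hy' : 0 < y ^ n := by positivity
    have h3 : 0 ≤ y ^ n * ((n + 1 : ℝ) / 2) * (a - 2 / (n + 1) * y * b) ^ 2 := by positivity
    have h4 : y ^ n * ((n + 1 : ℝ) / 2) * (a - 2 / (n + 1) * y * b) ^ 2 =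
        (n + 1 : ℝ) / 2 * (y ^ n * a ^ 2) - 2 * (y ^ (n + 1) * (a * b)) +
          2 / (n + 1) * (y ^ (n + 2) * b ^ 2) := by
      field_simp; ring
    have h5 : -(y ^ (n + 1) * (a * b)) ≤ y ^ (n + 1) * i := by
      have : 0 < y ^ (n + 1) := by positivity
      nlinarith
    push_cast
    nlinarith

end Hardy

section Interp

variable {c0 C0 : ℝ} {g : ℝ → ℝ}

lemma Prof.dG' (hg : Prof c0 C0 g) {y : ℝ} (hy : 0 ≤ y) : |y * deriv g y| ≤ 2 * C0 := by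
  have hd : DifferentiableAt ℝ g y := hg.smooth.differentiable (by simp) y
  have h1 : deriv (fun z => z * g z) y = g y + y * deriv g y := by
    have := ((hasDerivAt_id y).mul hd.hasDerivAt).deriv
    simp only [id] at this
    rw [← one_mul (g y)]
    exact this
  have h2 := hg.dG y hy
  rw [h1] at h2
  have h3 := hg.upper y hy
  have h4 := hg.lower y hy
  have h5 := hg.c0_pos
  rw [abs_le] at h2 ⊢
  constructor <;> linarith [h2.1, h2.2]


lemma Prof.g_pos (hg : Prof c0 C0 g) {y : ℝ} (hy : 0 ≤ y) : 0 < g y :=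
  lt_of_lt_of_le hg.c0_pos (hg.lower y hy)

lemma Prof.cont (hg : Prof c0 C0 g) : Continuous g := hg.smooth.continuous

/-- closure tactic helper: a continuous factor times a CC function -/
lemma CC.mul_left {a : ℝ → ℝ} (ha : Continuous a) {F : ℝ → ℝ} (hF : CC F) :
    CC (fun y => a y * F y) := by
  obtain ⟨hc, R, hR⟩ := hF
  exact ⟨ha.continuousOn.mul hc, R, fun y hy => by simp [hR y hy]⟩

lemma CC.add' {F F' : ℝ → ℝ} (hF : CC F) (hF' : CC F') : CC (fun y => F y + F' y) := by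
  obtain ⟨hc, R, hR⟩ := hF
  obtain ⟨hc', R', hR'⟩ := hF'
  exact ⟨hc.add hc', max R R', fun y hy => by
    simp [hR y ((le_max_left _ _).trans hy), hR' y ((le_max_right _ _).trans hy)]⟩

lemma cc_norm_sq {u : ℝ → ℂ} (hu : ContinuousOn u (Ici 0)) (hs : ∃ R : ℝ, ∀ y, R ≤ y → u y = 0) :
    CC (fun y => ‖u y‖ ^ 2) := by
  obtain ⟨R, hR⟩ := hs
  exact ⟨hu.norm.pow 2, R, fun y hy => by simp [hR y hy]⟩

lemma cc_inner {u v : ℝ → ℂ} (hu : ContinuousOn u (Ici 0)) (hv : ContinuousOn v (Ici 0))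
    (hs : ∃ R : ℝ, ∀ y, R ≤ y → u y = 0) : CC (fun y => ⟪u y, v y⟫_ℝ) := by
  obtain ⟨R, hR⟩ := hs
  exact ⟨hu.inner hv, R, fun y hy => by simp [hR y hy]⟩

lemma TF.s0 {P P1 P2 : ℝ → ℂ} (h : TF P P1 P2) : ∃ R : ℝ, ∀ y, R ≤ y → P y = 0 := by
  obtain ⟨R, hR⟩ := h.supp; exact ⟨R, fun y hy => (hR y hy).1⟩
lemma TF.s1 {P P1 P2 : ℝ → ℂ} (h : TF P P1 P2) : ∃ R : ℝ, ∀ y, R ≤ y → P1 y = 0 := by
  obtain ⟨R, hR⟩ := h.supp; exact ⟨R, fun y hy => (hR y hy).2.1⟩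
lemma TF.s2 {P P1 P2 : ℝ → ℂ} (h : TF P P1 P2) : ∃ R : ℝ, ∀ y, R ≤ y → P2 y = 0 := by
  obtain ⟨R, hR⟩ := h.supp; exact ⟨R, fun y hy => (hR y hy).2.2⟩

/-- pointwise algebra for the interpolation inequality -/
lemma pw_interp {y T s g g' C0 ε a b c i j : ℝ} (hy : 0 < y) (hT : T = 1 + y ^ 2) (hs : 0 < s)
    (hg : 0 < g) (hgC : g ≤ C0) (hg' : |y * g'| ≤ 2 * C0) (hε : 0 < ε)
    (hi : |i| ≤ b * a) (hj : |j| ≤ b * c) :
    1 / 2 * (y ^ 13 * g ^ 2 * (s * T) * a ^ 2) -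
        (ε / 2 * (y ^ 11 * g ^ 2 * (s * T ^ 3) * c ^ 2) +
          ((133 * C0) ^ 2 / 2 + C0 ^ 2 / (2 * ε)) * (y ^ 9 * (s * T ^ 2) * b ^ 2)) ≤
      (13 * y ^ 12 * g ^ 2 * (s * T) + y ^ 13 * (2 * g * g') * (s * T) +
          y ^ 13 * g ^ 2 * (58 * s * (2 * y))) * i +
        y ^ 13 * g ^ 2 * (s * T) * (j + a ^ 2) := by
  have hTpos : 0 < T := by rw [hT]; positivity
  have hyT : y ^ 2 ≤ T := by rw [hT]; linarith
  have hC0 : 0 < C0 := lt_of_lt_of_le hg hgC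
  -- first: bound of Φ'
  have h1 : |13 * y ^ 12 * g ^ 2 * (s * T) + y ^ 13 * (2 * g * g') * (s * T) +
          y ^ 13 * g ^ 2 * (58 * s * (2 * y))| ≤ (133 * C0) * (y ^ 12 * g * (s * T)) := by
    have e1 : 13 * y ^ 12 * g ^ 2 * (s * T) + y ^ 13 * (2 * g * g') * (s * T) +
          y ^ 13 * g ^ 2 * (58 * s * (2 * y)) =
        (y ^ 12 * g * s) * (13 * g * T + 2 * (y * g') * T + 116 * g * y ^ 2) := by ring
    rw [e1, abs_mul, abs_of_pos (by positivity : 0 < y ^ 12 * g * s)]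
    have h2 : |13 * g * T + 2 * (y * g') * T + 116 * g * y ^ 2| ≤ 133 * C0 * T := by
      rw [abs_le] at hg' ⊢
      have h3 : g * T ≤ C0 * T := mul_le_mul_of_nonneg_right hgC hTpos.le
      have h4 : (y * g') * T ≤ 2 * C0 * T := mul_le_mul_of_nonneg_right hg'.2 hTpos.le
      have h5 : -(2 * C0) * T ≤ (y * g') * T := mul_le_mul_of_nonneg_right (by linarith [hg'.1]) hTpos.le
      have h6 : g * y ^ 2 ≤ C0 * T := mul_le_mul hgC hyT (by positivity) hC0.le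
      have h7 : 0 ≤ g * y ^ 2 := by positivity
      have h8 : 0 ≤ g * T := by positivity
      have h9 : 0 < C0 * T := by positivity
      constructor <;> nlinarith
    calc y ^ 12 * g * s * |13 * g * T + 2 * (y * g') * T + 116 * g * y ^ 2|
        ≤ y ^ 12 * g * s * (133 * C0 * T) := mul_le_mul_of_nonneg_left h2 (by positivity)
      _ = _ := by ring
  set Φ' := 13 * y ^ 12 * g ^ 2 * (s * T) + y ^ 13 * (2 * g * g') * (s * T) +
          y ^ 13 * g ^ 2 * (58 * s * (2 * y)) with hΦ'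
  have h2 : -((133 * C0) * (y ^ 12 * g * (s * T)) * (b * a)) ≤ Φ' * i := by
    have : |Φ' * i| ≤ (133 * C0) * (y ^ 12 * g * (s * T)) * (b * a) := by
      rw [abs_mul]; exact mul_le_mul h1 hi (abs_nonneg _) (by positivity)
    exact (abs_le.1 this).1
  have h3 : -(y ^ 13 * g ^ 2 * (s * T) * (b * c)) ≤ y ^ 13 * g ^ 2 * (s * T) * j := by
    have h0 : 0 < y ^ 13 * g ^ 2 * (s * T) := by positivity
    have := (abs_le.1 hj).1
    nlinarith
  -- squares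
  have h4 : (133 * C0) * (y ^ 12 * g * (s * T)) * (b * a) ≤
      1 / 2 * (y ^ 13 * g ^ 2 * (s * T) * a ^ 2) + (133 * C0) ^ 2 / 2 * (y ^ 9 * (s * T ^ 2) * b ^ 2) := by
    have e1 : 0 ≤ 1 / 2 * (y ^ 11 * (s * T)) * (y * g * a - 133 * C0 * b) ^ 2 := by positivity
    have e2 : (133 * C0) ^ 2 / 2 * (y ^ 11 * (s * T) * b ^ 2) ≤
        (133 * C0) ^ 2 / 2 * (y ^ 9 * (s * T ^ 2) * b ^ 2) := by
      refine mul_le_mul_of_nonneg_left ?_ (by positivity)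
      have : y ^ 11 * (s * T) * b ^ 2 = (y ^ 9 * s * T * b ^ 2) * y ^ 2 := by ring
      rw [this]
      have e3 : y ^ 9 * (s * T ^ 2) * b ^ 2 = (y ^ 9 * s * T * b ^ 2) * T := by ring
      rw [e3]
      exact mul_le_mul_of_nonneg_left hyT (by positivity)
    nlinarith
  have h5 : y ^ 13 * g ^ 2 * (s * T) * (b * c) ≤
      ε / 2 * (y ^ 11 * g ^ 2 * (s * T ^ 3) * c ^ 2) + C0 ^ 2 / (2 * ε) * (y ^ 9 * (s * T ^ 2) * b ^ 2) := by
    have e1 : 0 ≤ y ^ 9 * s * T * (1 / (2 * ε)) * (ε * (y * g * T * c) - y ^ 3 * g / T * b) ^ 2 := by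
      positivity
    have e2 : y ^ 9 * s * T * (1 / (2 * ε)) * (ε * (y * g * T * c) - y ^ 3 * g / T * b) ^ 2 =
        ε / 2 * (y ^ 11 * g ^ 2 * (s * T ^ 3) * c ^ 2) - y ^ 13 * g ^ 2 * (s * T) * (b * c) +
        1 / (2 * ε) * (y ^ 15 * g ^ 2 * s / T * b ^ 2) := by
      field_simp; ring
    have e3 : y ^ 15 * g ^ 2 * s / T * b ^ 2 ≤ C0 ^ 2 * (y ^ 9 * (s * T ^ 2) * b ^ 2) := by
      have e4 : y ^ 6 ≤ T ^ 3 := by
        have : y ^ 6 = (y ^ 2) ^ 3 := by ring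
        rw [this]; exact pow_le_pow_left₀ (by positivity) hyT 3
      have e5 : g ^ 2 ≤ C0 ^ 2 := pow_le_pow_left₀ hg.le hgC 2
      have e6 : y ^ 6 / T ≤ T ^ 2 := by
        rw [div_le_iff₀ hTpos]; calc y ^ 6 ≤ T ^ 3 := e4
          _ = T ^ 2 * T := by ring
      calc y ^ 15 * g ^ 2 * s / T * b ^ 2 = (y ^ 9 * s * b ^ 2) * (g ^ 2 * (y ^ 6 / T)) := by
            field_simp
        _ ≤ (y ^ 9 * s * b ^ 2) * (C0 ^ 2 * T ^ 2) :=
            mul_le_mul_of_nonneg_left (mul_le_mul e5 e6 (by positivity) (by positivity)) (by positivity)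
        _ = _ := by ring
    have e4 : 1 / (2 * ε) * (y ^ 15 * g ^ 2 * s / T * b ^ 2) ≤
        C0 ^ 2 / (2 * ε) * (y ^ 9 * (s * T ^ 2) * b ^ 2) := by
      calc _ ≤ 1 / (2 * ε) * (C0 ^ 2 * (y ^ 9 * (s * T ^ 2) * b ^ 2)) :=
            mul_le_mul_of_nonneg_left e3 (by positivity)
        _ = _ := by ring
    linarith
  nlinarith

/-- (I1) interpolation inequality with weight `(1+y²)^60`. -/
lemma interp (hg : Prof c0 C0 g) {P P1 P2 : ℝ → ℂ} (h : TF P P1 P2) {ε : ℝ} (hε : 0 < ε) :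
    ∫ y in Ioi (0 : ℝ), y ^ 13 * (g y) ^ 2 * (1 + y ^ 2) ^ 58 * ‖P1 y‖ ^ 2 ≤
      ε * (∫ y in Ioi (0 : ℝ), y ^ 11 * (g y) ^ 2 * (1 + y ^ 2) ^ 60 * ‖P2 y‖ ^ 2) +
      ((133 * C0) ^ 2 + C0 ^ 2 / ε) *
        (∫ y in Ioi (0 : ℝ), y ^ 9 * (1 + y ^ 2) ^ 59 * ‖P y‖ ^ 2) := by
  have hgc := Prof.cont hg
  have hgd : Continuous (deriv g) := hg.smooth.continuous_deriv (by simp)
  have n0 := cc_norm_sq h.c0 h.s0
  have n1 := cc_norm_sq h.c1 h.s1
  have n2 := cc_norm_sq h.c2 h.s2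
  have i01 := cc_inner h.c0 h.c1 h.s0
  have i02 := cc_inner h.c0 h.c2 h.s0
  set F : ℝ → ℝ := fun y => (y ^ 13 * (g y) ^ 2 * (1 + y ^ 2) ^ 58) * ⟪P y, P1 y⟫_ℝ with hF
  set F' : ℝ → ℝ := fun y => (13 * y ^ 12 * (g y) ^ 2 * ((1 + y ^ 2) ^ 57 * (1 + y ^ 2)) +
      y ^ 13 * (2 * g y * deriv g y) * ((1 + y ^ 2) ^ 57 * (1 + y ^ 2)) +
      y ^ 13 * (g y) ^ 2 * (58 * (1 + y ^ 2) ^ 57 * (2 * y))) * ⟪P y, P1 y⟫_ℝ +
      y ^ 13 * (g y) ^ 2 * ((1 + y ^ 2) ^ 57 * (1 + y ^ 2)) * (⟪P y, P2 y⟫_ℝ + ‖P1 y‖ ^ 2) with hF'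
  have key := integral_le_of_total (F := F) (F' := F')
    (a := fun y => 1 / 2 * (y ^ 13 * (g y) ^ 2 * (1 + y ^ 2) ^ 58 * ‖P1 y‖ ^ 2))
    (b := fun y => ε / 2 * (y ^ 11 * (g y) ^ 2 * (1 + y ^ 2) ^ 60 * ‖P2 y‖ ^ 2) +
      ((133 * C0) ^ 2 / 2 + C0 ^ 2 / (2 * ε)) * (y ^ 9 * (1 + y ^ 2) ^ 59 * ‖P y‖ ^ 2))
    (i01.mul_left (by fun_prop)) ?_ (by simp [hF]) ?_ ?_ ?_ ?_
  · have hb1 : CC (fun y => ε / 2 * (y ^ 11 * (g y) ^ 2 * (1 + y ^ 2) ^ 60 * ‖P2 y‖ ^ 2)) := by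
      have := n2.mul_left (a := fun y => ε / 2 * (y ^ 11 * (g y) ^ 2 * (1 + y ^ 2) ^ 60))
        (by fun_prop)
      simpa only [mul_assoc] using this
    have hb2 : CC (fun y => ((133 * C0) ^ 2 / 2 + C0 ^ 2 / (2 * ε)) *
        (y ^ 9 * (1 + y ^ 2) ^ 59 * ‖P y‖ ^ 2)) := by
      have := n0.mul_left (a := fun y => ((133 * C0) ^ 2 / 2 + C0 ^ 2 / (2 * ε)) *
        (y ^ 9 * (1 + y ^ 2) ^ 59)) (by fun_prop)
      simpa only [mul_assoc] using this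
    rw [integral_const_mul, integral_add hb1.integrableOn hb2.integrableOn,
      integral_const_mul, integral_const_mul] at key
    have e1 : C0 ^ 2 / ε = 2 * (C0 ^ 2 / (2 * ε)) := by field_simp
    rw [e1]
    linarith
  · exact (i01.mul_left (by fun_prop)).add' ((i02.add' n1).mul_left (by fun_prop))
  · intro y hy
    have hT : HasDerivAt (fun y : ℝ => (1 + y ^ 2) ^ 58) (58 * (1 + y ^ 2) ^ 57 * (2 * y)) y := by
      have h1 : HasDerivAt (fun y : ℝ => 1 + y ^ 2) (2 * y) y := by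
        simpa using (hasDerivAt_pow 2 y).const_add 1
      have h2 : HasDerivAt (fun y : ℝ => (1 + y ^ 2) ^ 58) _ y := h1.pow 58
      refine h2.congr_deriv ?_
      norm_num
    have hgD : HasDerivAt g (deriv g y) y :=
      (hg.smooth.differentiable (by simp) y).hasDerivAt
    have h1 : HasDerivAt (fun y : ℝ => y ^ 13 * (g y) ^ 2 * (1 + y ^ 2) ^ 58) _ y :=
      (((hasDerivAt_pow 13 y).mul (hgD.pow 2)).mul hT)
    have h2 : HasDerivAt F _ y := h1.mul ((h.d1 y hy).inner ℝ (h.d2 y hy))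
    refine h2.congr_deriv ?_
    simp only [hF', real_inner_self_eq_norm_sq]
    push_cast
    simp only [Pi.mul_apply, Pi.pow_apply]
    ring
  · have := n1.mul_left (a := fun y => 1 / 2 * (y ^ 13 * (g y) ^ 2 * (1 + y ^ 2) ^ 58)) (by fun_prop)
    simpa only [mul_assoc] using this
  · have hb1 : CC (fun y => ε / 2 * (y ^ 11 * (g y) ^ 2 * (1 + y ^ 2) ^ 60 * ‖P2 y‖ ^ 2)) := by
      have := n2.mul_left (a := fun y => ε / 2 * (y ^ 11 * (g y) ^ 2 * (1 + y ^ 2) ^ 60))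
        (by fun_prop)
      simpa only [mul_assoc] using this
    have hb2 : CC (fun y => ((133 * C0) ^ 2 / 2 + C0 ^ 2 / (2 * ε)) *
        (y ^ 9 * (1 + y ^ 2) ^ 59 * ‖P y‖ ^ 2)) := by
      have := n0.mul_left (a := fun y => ((133 * C0) ^ 2 / 2 + C0 ^ 2 / (2 * ε)) *
        (y ^ 9 * (1 + y ^ 2) ^ 59)) (by fun_prop)
      simpa only [mul_assoc] using this
    exact hb1.add' hb2
  · intro y hy
    have hpw := pw_interp (y := y) (T := 1 + y ^ 2) (s := (1 + y ^ 2) ^ 57) (g := g y)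
      (g' := deriv g y) (C0 := C0) (ε := ε) (a := ‖P1 y‖) (b := ‖P y‖) (c := ‖P2 y‖)
      (i := ⟪P y, P1 y⟫_ℝ) (j := ⟪P y, P2 y⟫_ℝ) hy rfl (by positivity) (Prof.g_pos hg hy.le)
      (hg.upper y hy.le) (Prof.dG' hg hy.le) hε
      (abs_real_inner_le_norm _ _) (abs_real_inner_le_norm _ _)
    have e1 : (1 + y ^ 2) ^ 57 * (1 + y ^ 2) ^ 3 = (1 + y ^ 2) ^ 60 := by ring
    have e2 : (1 + y ^ 2) ^ 57 * (1 + y ^ 2) ^ 2 = (1 + y ^ 2) ^ 59 := by ring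
    have e3 : (1 + y ^ 2) ^ 57 * (1 + y ^ 2) = (1 + y ^ 2) ^ 58 := by ring
    rw [e1, e2] at hpw
    simp only [hF']
    rw [e3] at hpw ⊢
    exact hpw

end Interp

end Crest.Agent.R213.A.St
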