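import Crest.Agent.R213.A.ADefs
import Crest.Agent.R213.A.FourInt
import Crest.Agent.R213.J0

-- ▼ part R213/A/FourVec
section

/-!
# Row 213, part A, block A-FOUR (helper944): the static Hilbert space
-/

set_option autoImplicit false

open Set MeasureTheory Filter Topology
open scoped ContDiff FourierTransform InnerProductSpace

noncomputable section

namespace Crest.Agent.R213.A

lemma w60_pos944 (y : ℝ) : 0 < w60 y := by unfold w60; positivity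

lemma w60_cont944 : Continuous w60 := by unfold w60; fun_prop

lemma TD.toDD {V : ℝ → ℂ} (h : TD V) : DD V := by
  exact h

lemma DD.toTD {V : ℝ → ℂ} (h : DD V) : TD V := by
  exact h

lemma deriv2_eq {E : Type*} [NormedAddCommGroup E] [NormedSpace ℝ E] {P : ℝ → E} (h : TD P)
    {y : ℝ} (hy : 0 < y) : deriv (deriv P) y = dh (dh P) y := by
  have e : deriv P =ᶠ[𝓝 y] dh P := by
    filter_upwards [lt_mem_nhds hy] with z hz using deriv_eq_dh h hz
  rw [e.deriv_eq, deriv_eq_dh h.tdh hy]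

/-- `√(y⁹/ν)` -/
def rX (y : ℝ) : ℝ := √(y ^ 9 / w60 y)
/-- `√(y⁹ν)` -/
def rY (y : ℝ) : ℝ := √(y ^ 9 * w60 y)

lemma rX_cont : Continuous rX :=
  Real.continuous_sqrt.comp ((continuous_id.pow 9).div w60_cont944 fun y => (w60_pos944 y).ne')

lemma rY_cont : Continuous rY :=
  Real.continuous_sqrt.comp ((continuous_id.pow 9).mul w60_cont944)

lemma rX_sq {y : ℝ} (hy : 0 < y) : rX y ^ 2 = y ^ 9 / w60 y :=
  Real.sq_sqrt (by have := w60_pos944 y; positivity)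

lemma rXY {y : ℝ} (hy : 0 < y) : rX y * rY y = y ^ 9 := by
  have := w60_pos944 y
  unfold rX rY
  rw [← Real.sqrt_mul (by positivity)]
  have e : y ^ 9 / w60 y * (y ^ 9 * w60 y) = (y ^ 9) ^ 2 := by field_simp
  rw [e, Real.sqrt_sq (by positivity)]

/-- two component values -/
abbrev C2 : Type := EuclideanSpace ℂ (Fin 2)

/-- the measure on the half line -/
abbrev mu : Measure ℝ := (volume : Measure ℝ).restrict (Ioi 0)

/-- the static Hilbert space -/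
abbrev HH : Type := Lp C2 2 mu

variable {g : ℝ → ℝ}

def vecX (g : ℝ → ℝ) (V : ℝ → ℂ) (y : ℝ) : C2 :=
  !₂[((rX y * (y * g y) : ℝ) : ℂ) * dh (dh V) y, ((rX y : ℝ) : ℂ) * V y]

def vecY (g : ℝ → ℝ) (Z1 Z2 : ℝ → ℂ) (y : ℝ) : C2 :=
  !₂[((rY y * (y * g y) : ℝ) : ℂ) * Z1 y, ((rY y : ℝ) : ℂ) * Z2 y]

lemma inner_C2 (a b c d : ℂ) : (inner ℂ (!₂[a, b] : C2) (!₂[c, d] : C2) : ℂ) =
    starRingEnd ℂ a * c + starRingEnd ℂ b * d := by
  rw [PiLp.inner_apply, Fin.sum_univ_two]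
  simp [mul_comm]

lemma norm_C2 (a b : ℂ) : ‖(!₂[a, b] : C2)‖ ^ 2 = ‖a‖ ^ 2 + ‖b‖ ^ 2 := by
  rw [EuclideanSpace.norm_sq_eq, Fin.sum_univ_two]
  simp

lemma C2_cont {f h : ℝ → ℂ} {s : Set ℝ} (hf : ContinuousOn f s) (hh : ContinuousOn h s) :
    ContinuousOn (fun y => (!₂[f y, h y] : C2)) s := by
  refine (PiLp.continuous_toLp 2 _).comp_continuousOn ?_
  refine continuousOn_pi.2 fun i => ?_
  fin_cases i
  · exact hf
  · exact hh

lemma CD.memLp {E : Type*} [NormedAddCommGroup E] {F : ℝ → E} (h : CD F) : MemLp F 2 mu := by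
  have h1 : AEStronglyMeasurable F mu := h.integrableOn.1
  rw [memLp_two_iff_integrable_sq_norm h1]
  exact (h.map (a := fun _ z => ‖z‖ ^ 2) (by fun_prop) (by simp)).integrableOn

lemma vecX_CD (hg : Continuous g) {V : ℝ → ℂ} (h : TD V) : CD (vecX g V) := by
  obtain ⟨R, hR⟩ := h.2
  obtain ⟨R', hR'⟩ := h.tdh.tdh.2
  refine ⟨?_, max R R', fun y _ hy => ?_⟩
  · refine C2_cont ?_ ?_
    · refine ContinuousOn.mul (Continuous.continuousOn ?_) h.tdh.tdh.cont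
      exact Complex.continuous_ofReal.comp (rX_cont.mul (continuous_id.mul hg))
    · exact ContinuousOn.mul (Complex.continuous_ofReal.comp rX_cont).continuousOn h.cont
  · unfold vecX
    rw [hR y (le_trans (le_max_left _ _) hy), hR' y (le_trans (le_max_right _ _) hy)]
    ext i
    fin_cases i <;> simp

lemma vecY_CD (hg : Continuous g) {Z1 Z2 : ℝ → ℂ} (h1 : CD Z1) (h2 : CD Z2) :
    CD (vecY g Z1 Z2) := by
  obtain ⟨R, hR⟩ := h1.2
  obtain ⟨R', hR'⟩ := h2.2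
  refine ⟨?_, max R R', fun y h0 hy => ?_⟩
  · refine C2_cont ?_ ?_
    · refine ContinuousOn.mul (Continuous.continuousOn ?_) h1.1
      exact Complex.continuous_ofReal.comp (rY_cont.mul (continuous_id.mul hg))
    · exact ContinuousOn.mul (Complex.continuous_ofReal.comp rY_cont).continuousOn h2.1
  · unfold vecY
    rw [hR y h0 (le_trans (le_max_left _ _) hy), hR' y h0 (le_trans (le_max_right _ _) hy)]
    ext i
    fin_cases i <;> simp

/-- the integrand of the form -/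
def fX (g : ℝ → ℝ) (V Z1 Z2 : ℝ → ℂ) (y : ℝ) : ℂ :=
  (y : ℂ) ^ 9 * (starRingEnd ℂ (V y) * Z2 y +
    (((y * g y) ^ 2 : ℝ) : ℂ) * starRingEnd ℂ (dh (dh V) y) * Z1 y)

lemma inner_vec {V Z1 Z2 : ℝ → ℂ} {y : ℝ} (hy : 0 < y) :
    (inner ℂ (vecX g V y) (vecY g Z1 Z2 y) : ℂ) = fX g V Z1 Z2 y := by
  unfold vecX vecY fX
  rw [inner_C2]
  simp only [map_mul, Complex.conj_ofReal]
  have e : (y : ℂ) ^ 9 = ((rX y : ℝ) : ℂ) * ((rY y : ℝ) : ℂ) := by
    rw [← Complex.ofReal_mul, rXY hy]; push_cast; ring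
  rw [e]
  push_cast
  ring

lemma inner_HH {V Z1 Z2 : ℝ → ℂ} {x h : HH} (hx : (x : ℝ → C2) =ᵐ[mu] vecX g V)
    (hh : (h : ℝ → C2) =ᵐ[mu] vecY g Z1 Z2) :
    (inner ℂ x h : ℂ) = ∫ y in Ioi (0 : ℝ), fX g V Z1 Z2 y := by
  rw [L2.inner_def]
  refine integral_congr_ae ?_
  filter_upwards [hx, hh, ae_restrict_mem measurableSet_Ioi] with y h1 h2 h3
  rw [h1, h2, inner_vec h3]

lemma norm_vec {V : ℝ → ℂ} {y : ℝ} (hy : 0 < y) :
    ‖vecX g V y‖ ^ 2 = y ^ 9 / w60 y * ((y * g y) ^ 2 * ‖dh (dh V) y‖ ^ 2 + ‖V y‖ ^ 2) := by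
  unfold vecX
  rw [norm_C2, norm_mul, norm_mul, Complex.norm_real, Complex.norm_real, mul_pow, mul_pow,
    Real.norm_eq_abs, Real.norm_eq_abs, sq_abs, sq_abs, mul_pow, rX_sq hy]
  ring

lemma nXS_eq {V : ℝ → ℂ} (h : TD V) : stX g V = ∫ y in Ioi (0 : ℝ),
    y ^ 9 / w60 y * ((y * g y) ^ 2 * ‖dh (dh V) y‖ ^ 2 + ‖V y‖ ^ 2) := by
  unfold stX
  refine setIntegral_congr_fun measurableSet_Ioi fun y hy => ?_
  simp only [deriv2_eq h hy, div_eq_mul_inv]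

lemma nYS_eq {V : ℝ → ℂ} (h : TD V) : stY g V = ∫ y in Ioi (0 : ℝ),
    y ^ 9 * w60 y * ((y * g y) ^ 2 * ‖dh (dh V) y‖ ^ 2 + ‖V y‖ ^ 2) := by
  unfold stY
  refine setIntegral_congr_fun measurableSet_Ioi fun y hy => ?_
  simp only [deriv2_eq h hy]

lemma norm_HH {V : ℝ → ℂ} (h : TD V) {x : HH} (hx : (x : ℝ → C2) =ᵐ[mu] vecX g V) :
    ‖x‖ ^ 2 = stX g V := by
  have e : (‖x‖ ^ 2 : ℝ) = RCLike.re (inner ℂ x x : ℂ) := by
    rw [inner_self_eq_norm_sq (𝕜 := ℂ)]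
  rw [e, L2.inner_def, ← integral_re (L2.integrable_inner x x), nXS_eq h]
  refine integral_congr_ae ?_
  filter_upwards [hx, ae_restrict_mem measurableSet_Ioi] with y h1 h3
  rw [inner_self_eq_norm_sq (𝕜 := ℂ), h1, norm_vec h3]

lemma TD.cmul {V : ℝ → ℂ} (h : TD V) (c : ℂ) : TD (fun y => c * V y) := by
  have := h.clm (c • (ContinuousLinearMap.id ℝ ℂ) : ℂ →L[ℝ] ℂ)
  simpa using this

lemma dh_cmul {V : ℝ → ℂ} (h : TD V) (c : ℂ) {y : ℝ} (hy : 0 ≤ y) :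
    dh (fun y => c * V y) y = c * dh V y := by
  have := dh_clm h (c • (ContinuousLinearMap.id ℝ ℂ) : ℂ →L[ℝ] ℂ) hy
  simpa using this

lemma dh2_cmul {V : ℝ → ℂ} (h : TD V) (c : ℂ) {y : ℝ} (hy : 0 ≤ y) :
    dh (dh (fun y => c * V y)) y = c * dh (dh V) y := by
  rw [← dh_cmul h.tdh c hy]
  exact dh_congr (fun z hz => dh_cmul h c hz) hy

lemma dh2_add {V W : ℝ → ℂ} (h : TD V) (k : TD W) {y : ℝ} (hy : 0 ≤ y) :
    dh (dh (fun y => V y + W y)) y = dh (dh V) y + dh (dh W) y := by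
  rw [← dh_add h.tdh k.tdh hy]
  exact dh_congr (fun z hz => dh_add h k hz) hy

lemma dh2_sum {ι : Type*} (s : Finset ι) {P : ι → ℝ → ℂ} (h : ∀ i ∈ s, TD (P i)) {y : ℝ}
    (hy : 0 ≤ y) : dh (dh (fun y => ∑ i ∈ s, P i y)) y = ∑ i ∈ s, dh (dh (P i)) y := by
  rw [← dh_sum s (fun i hi => (h i hi).tdh) hy]
  exact dh_congr (fun z hz => dh_sum s h hz) hy

/-- the subspace of (classes of) `vecX V`, `V` a static test function -/
def subE (g : ℝ → ℝ) : Submodule ℂ HH where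
  carrier := {x | ∃ V : ℝ → ℂ, TD V ∧ (x : ℝ → C2) =ᵐ[mu] vecX g V}
  add_mem' := by
    rintro x x' ⟨V, hV, hx⟩ ⟨W, hW, hx'⟩
    refine ⟨fun y => V y + W y, hV.add hW, ?_⟩
    filter_upwards [Lp.coeFn_add x x', hx, hx', ae_restrict_mem measurableSet_Ioi] with y h1 h2 h3 h4
    rw [h1, Pi.add_apply, h2, h3]
    unfold vecX
    rw [dh2_add hV hW (le_of_lt h4)]
    ext i
    fin_cases i <;> simp [mul_add]
  zero_mem' := by
    refine ⟨fun _ => 0, TD.zero, ?_⟩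
    filter_upwards [Lp.coeFn_zero C2 2 mu, ae_restrict_mem measurableSet_Ioi] with y h1 h4
    rw [h1]
    have e : dh (dh (fun _ : ℝ => (0 : ℂ))) y = 0 := by
      have := dh2_cmul (V := fun _ => (0 : ℂ)) TD.zero 0 (le_of_lt h4)
      simpa using this
    unfold vecX
    rw [e]
    ext i
    fin_cases i <;> simp
  smul_mem' := by
    rintro c x ⟨V, hV, hx⟩
    refine ⟨fun y => c * V y, hV.cmul c, ?_⟩
    filter_upwards [Lp.coeFn_smul c x, hx, ae_restrict_mem measurableSet_Ioi] with y h1 h2 h4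
    rw [h1, Pi.smul_apply, h2]
    unfold vecX
    rw [dh2_cmul hV c (le_of_lt h4)]
    ext i
    fin_cases i
    · simp; ring
    · simp; ring

lemma exists_vec (hg : Continuous g) {V : ℝ → ℂ} (h : TD V) :
    ∃ x : HH, (x : ℝ → C2) =ᵐ[mu] vecX g V :=
  ⟨(vecX_CD hg h).memLp.toLp _, MemLp.coeFn_toLp _⟩

lemma exists_vecY (hg : Continuous g) {Z1 Z2 : ℝ → ℂ} (h1 : CD Z1) (h2 : CD Z2) :
    ∃ x : HH, (x : ℝ → C2) =ᵐ[mu] vecY g Z1 Z2 :=
  ⟨(vecY_CD hg h1 h2).memLp.toLp _, MemLp.coeFn_toLp _⟩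

end Crest.Agent.R213.A
end
end

-- ▼ part R213/A/FourQ
section

/-!
# Row 213, part A, block A-FOUR (helper944): the scalar functions `q_V(s)` and their Fourier transform
-/

set_option autoImplicit false

open Set MeasureTheory Filter Topology
open scoped ContDiff FourierTransform InnerProductSpace

noncomputable section

namespace Crest.Agent.R213.A

variable {g : ℝ → ℝ} {κ : ℝ}

lemma TS.mulY {P : ℝ → ℝ → ℂ} (h : TS P) {c : ℝ → ℂ} (hc : ContDiffOn ℝ ∞ c (Ici 0)) :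
    TS (fun s y => c y * P s y) := by
  obtain ⟨h1, R, hR⟩ := h
  refine ⟨?_, R, fun s y h0 hy => by simp only [hR s y h0 hy, mul_zero]⟩
  exact (hc.comp (f := fun p : ℝ × ℝ => p.2) contDiff_snd.contDiffOn (fun p hp => hp.2)).mul h1

/-- second `y` derivative -/
def zz1 (P : ℝ → ℝ → ℂ) : ℝ → ℝ → ℂ := dy (dy P)

/-- `-P_s - (65/2-κ) P - (y/2) P_y` -/
def zz2 (κ : ℝ) (P : ℝ → ℝ → ℂ) : ℝ → ℝ → ℂ := fun s y =>
  -(ds P s y) - ((65 / 2 - κ : ℝ) : ℂ) * P s y - ((y / 2 : ℝ) : ℂ) * dy P s y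

lemma smooth_ofReal {f : ℝ → ℝ} (hf : ContDiff ℝ ∞ f) : ContDiff ℝ ∞ (fun y => ((f y : ℝ) : ℂ)) :=
  Complex.ofRealCLM.contDiff.comp hf

lemma TS.zz1 {P : ℝ → ℝ → ℂ} (h : TS P) : TS (zz1 P) := h.tdy.tdy

lemma TS.zz2 {P : ℝ → ℝ → ℂ} (h : TS P) : TS (zz2 κ P) := by
  have h1 := h.tds.mulY (c := fun _ => (-1 : ℂ)) contDiffOn_const
  have h2 := h.mulY (c := fun _ => -((65 / 2 - κ : ℝ) : ℂ)) contDiffOn_const
  have h3 := h.tdy.mulY (c := fun y => -((y / 2 : ℝ) : ℂ))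
    (smooth_ofReal (by fun_prop)).neg.contDiffOn
  have h4 := (h1.add h2).add h3
  have e : A.zz2 κ P = fun s y => ((-1 : ℂ) * A.ds P s y + -((65 / 2 - κ : ℝ) : ℂ) * P s y) +
      -((y / 2 : ℝ) : ℂ) * A.dy P s y := by
    funext s y
    unfold A.zz2
    ring
  rw [e]
  exact h4

def cA (V : ℝ → ℂ) (y : ℝ) : ℂ := (y : ℂ) ^ 9 * starRingEnd ℂ (V y)

def cB (g : ℝ → ℝ) (V : ℝ → ℂ) (y : ℝ) : ℂ :=
  (y : ℂ) ^ 9 * ((((y * g y) ^ 2 : ℝ) : ℂ) * starRingEnd ℂ (dh (dh V) y))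

lemma fX_eq (V Z1 Z2 : ℝ → ℂ) (y : ℝ) : fX g V Z1 Z2 y = cA V y * Z2 y + cB g V y * Z1 y := by
  unfold fX cA cB; ring

lemma conj_smooth {V : ℝ → ℂ} {s : Set ℝ} (h : ContDiffOn ℝ ∞ V s) :
    ContDiffOn ℝ ∞ (fun y => starRingEnd ℂ (V y)) s :=
  Complex.conjCLE.contDiff.comp_contDiffOn h

lemma cA_smooth {V : ℝ → ℂ} (h : TD V) : ContDiffOn ℝ ∞ (cA V) (Ici 0) := by
  unfold cA
  exact ((smooth_ofReal contDiff_id).pow 9).contDiffOn.mul (conj_smooth h.1)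

lemma cB_smooth (hg : ContDiff ℝ ∞ g) {V : ℝ → ℂ} (h : TD V) :
    ContDiffOn ℝ ∞ (cB g V) (Ici 0) := by
  unfold cB
  exact ((smooth_ofReal contDiff_id).pow 9).contDiffOn.mul
    ((smooth_ofReal ((contDiff_id.mul hg).pow 2)).contDiffOn.mul (conj_smooth h.tdh.tdh.1))

lemma TS.fX (hg : ContDiff ℝ ∞ g) {V : ℝ → ℂ} (hV : TD V) {Z1 Z2 : ℝ → ℝ → ℂ}
    (h1 : TS Z1) (h2 : TS Z2) : TS (fun s y => fX g V (Z1 s) (Z2 s) y) := by
  have := (h2.mulY (cA_smooth hV)).add (h1.mulY (cB_smooth hg hV))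
  simpa only [fX_eq] using this

lemma hat_fX (hg : ContDiff ℝ ∞ g) {V : ℝ → ℂ} (hV : TD V) {Z1 Z2 : ℝ → ℝ → ℂ}
    (h1 : TS Z1) (h2 : TS Z2) (ξ : ℝ) {y : ℝ} (hy : 0 ≤ y) :
    hat (fun s y => A.fX g V (Z1 s) (Z2 s) y) ξ y = A.fX g V (hat Z1 ξ) (hat Z2 ξ) y := by
  simp only [fX_eq]
  rw [hat_add (h2.mulY (cA_smooth hV)).toCS (h1.mulY (cB_smooth hg hV)).toCS ξ hy,
    hat_smul, hat_smul]

lemma hat_zz1 {P : ℝ → ℝ → ℂ} (h : TS P) (ξ : ℝ) {y : ℝ} (hy : 0 ≤ y) :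
    hat (zz1 P) ξ y = dh (dh (hat P ξ)) y := by
  unfold zz1
  rw [← h.tdy.dh_hat ξ hy]
  exact dh_congr (fun z hz => (h.dh_hat ξ hz).symm) hy

lemma hat_zz2 {P : ℝ → ℝ → ℂ} (h : TS P) (ξ : ℝ) {y : ℝ} (hy : 0 ≤ y) :
    hat (zz2 κ P) ξ y = -(Complex.I * ((2 * Real.pi * ξ : ℝ) : ℂ)) * hat P ξ y -
      ((65 / 2 - κ : ℝ) : ℂ) * hat P ξ y - ((y / 2 : ℝ) : ℂ) * dh (hat P ξ) y := by
  have h1 := h.tds.mulY (c := fun _ => (-1 : ℂ)) contDiffOn_const
  have h2 := h.mulY (c := fun _ => -((65 / 2 - κ : ℝ) : ℂ)) contDiffOn_const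
  have h3 := h.tdy.mulY (c := fun y => -((y / 2 : ℝ) : ℂ))
    (smooth_ofReal (by fun_prop)).neg.contDiffOn
  have e : zz2 κ P = fun s y => ((-1 : ℂ) * ds P s y + -((65 / 2 - κ : ℝ) : ℂ) * P s y) +
      -((y / 2 : ℝ) : ℂ) * dy P s y := by
    funext s y
    unfold zz2
    ring
  rw [e, hat_add (h1.add h2).toCS h3.toCS ξ hy, hat_add h1.toCS h2.toCS ξ hy,
    hat_smul (fun _ => (-1 : ℂ)), hat_smul (fun _ => -((65 / 2 - κ : ℝ) : ℂ)),
    hat_smul (fun y => -((y / 2 : ℝ) : ℂ)), h.hat_ds ξ hy, h.dh_hat ξ hy]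
  push_cast
  ring

lemma aST_eq {V Q : ℝ → ℂ} (hV : TD V) (hQ : TD Q) (ξ : ℝ) :
    stForm g κ ξ V Q = ∫ y in Ioi (0 : ℝ), fX g V (dh (dh Q))
      (fun y => -(Complex.I * (ξ : ℂ)) * Q y - ((65 / 2 - κ : ℝ) : ℂ) * Q y -
        ((y / 2 : ℝ) : ℂ) * dh Q y) y := by
  unfold stForm fX
  refine setIntegral_congr_fun measurableSet_Ioi fun y hy => ?_
  simp only [deriv2_eq hV hy, deriv2_eq hQ hy, deriv_eq_dh hQ hy]
  push_cast
  ring

/-- the scalar function `q_V` -/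
def qV (g : ℝ → ℝ) (κ : ℝ) (P : ℝ → ℝ → ℂ) (V : ℝ → ℂ) (s : ℝ) : ℂ :=
  ∫ y in Ioi (0 : ℝ), fX g V (zz1 P s) (zz2 κ P s) y

lemma qV_smooth (hg : ContDiff ℝ ∞ g) {V : ℝ → ℂ} (hV : TD V) {P : ℝ → ℝ → ℂ} (h : TS P) :
    ContDiff ℝ ∞ (qV g κ P V) ∧ HasCompactSupport (qV g κ P V) :=
  (TS.fX hg hV h.zz1 h.zz2).q_smooth

lemma fourier_qV (hg : ContDiff ℝ ∞ g) {V : ℝ → ℂ} (hV : TD V) {P : ℝ → ℝ → ℂ} (h : TS P)
    (ξ : ℝ) : 𝓕 (qV g κ P V) ξ = stForm g κ (2 * Real.pi * ξ) V (hat P ξ) := by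
  have h1 := (TS.fX hg hV h.zz1 (h.zz2 (κ := κ))).toCS.fourier_q ξ
  have e : qV g κ P V = fun s => ∫ y in Ioi (0 : ℝ), fX g V (zz1 P s) (zz2 κ P s) y := rfl
  rw [e, h1, aST_eq hV (h.hat_TD ξ)]
  refine setIntegral_congr_fun measurableSet_Ioi fun y hy => ?_
  have hy' : (0 : ℝ) ≤ y := le_of_lt hy
  show hat (fun s y => fX g V (zz1 P s) (zz2 κ P s) y) ξ y = _
  rw [hat_fX hg hV h.zz1 h.zz2 ξ hy', fX_eq, fX_eq, hat_zz1 h ξ hy', hat_zz2 h ξ hy']

end Crest.Agent.R213.A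
end
end

-- ▼ part R213/A/FourMain
section

/-!
# Row 213, part A, block A-FOUR (helper944): the stationary estimate implies the inner estimate
-/

set_option autoImplicit false

open Set MeasureTheory Filter Topology
open scoped ContDiff FourierTransform InnerProductSpace

noncomputable section

namespace Crest.Agent.R213.A

variable {g : ℝ → ℝ} {κ : ℝ}

/-! ### Step 1: testing with `∑ q_k(s) V_k(y)` -/

section test

variable {P : ℝ → ℝ → ℝ}

/-- complexification -/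
def cx (P : ℝ → ℝ → ℝ) : ℝ → ℝ → ℂ := fun s y => ((P s y : ℝ) : ℂ)

lemma DR.toTS (h : DR P) : TS (cx P) := by
  obtain ⟨h1, R, hR⟩ := h
  refine ⟨Complex.ofRealCLM.contDiff.comp_contDiffOn h1, R + 1, fun s y _ hsy => ?_⟩
  unfold cx
  rw [hR s y (hsy.imp (fun h => by linarith) (fun h => by linarith))]
  simp

lemma DR.toTSR (h : DR P) : TS P := by
  obtain ⟨h1, R, hR⟩ := h
  exact ⟨h1, R + 1, fun s y _ hsy => hR s y (hsy.imp (fun h => by linarith) (fun h => by linarith))⟩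

lemma cx_ds (h : DR P) (s : ℝ) {y : ℝ} (hy : 0 ≤ y) : ds (cx P) s y = ((ds P s y : ℝ) : ℂ) :=
  ((h.toTSR.hasDerivS s hy).ofReal_comp).deriv

lemma cx_dy (h : DR P) (s : ℝ) {y : ℝ} (hy : 0 ≤ y) : dy (cx P) s y = ((dy P s y : ℝ) : ℂ) :=
  dh_eq hy ((h.toTSR.hasDerivY s hy).ofReal_comp)

lemma cx_dyy (h : DR P) (s : ℝ) {y : ℝ} (hy : 0 ≤ y) :
    dy (dy (cx P)) s y = ((dy (dy P) s y : ℝ) : ℂ) := by
  have h1 : HasDerivWithinAt (fun z => ((dy P s z : ℝ) : ℂ)) ((dy (dy P) s y : ℝ) : ℂ) (Ici 0) y :=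
    (h.toTSR.tdy.hasDerivY s hy).ofReal_comp
  exact dh_eq hy (h1.congr (fun z hz => cx_dy h s hz) (cx_dy h s hy))

/-- the combination `∑_{k<n} q_k(s) V_k(y)` -/
def WW (n : ℕ) (q : ℕ → ℝ → ℂ) (V : ℕ → ℝ → ℂ) : ℝ → ℝ → ℂ := fun s y =>
  ∑ k ∈ Finset.range n, q k s * V k y

lemma TS_prod {q V : ℝ → ℂ} (hq : ContDiff ℝ ∞ q) (hc : HasCompactSupport q) (hV : TD V) :
    TS (fun s y => q s * V y) := by
  obtain ⟨hV1, R, hR⟩ := hV
  obtain ⟨R', hR'⟩ := hc.isCompact.isBounded.subset_closedBall 0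
  refine ⟨?_, max R (R' + 1), fun s y _ hsy => ?_⟩
  · exact (hq.comp contDiff_fst).contDiffOn.mul
      (hV1.comp (f := fun p : ℝ × ℝ => p.2) contDiff_snd.contDiffOn (fun p hp => hp.2))
  · rcases hsy with h | h
    · have : q s = 0 := by
        by_contra hne
        have h1 : s ∈ Metric.closedBall (0 : ℝ) R' := hR' (subset_tsupport _ hne)
        rw [mem_closedBall_zero_iff, Real.norm_eq_abs] at h1
        linarith [le_trans (le_max_right R (R' + 1)) h]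
      simp only [this, zero_mul]
    · simp only [hR y (le_trans (le_max_left _ _) h), mul_zero]

lemma supp_prod {q V : ℝ → ℂ} (hc : HasCompactSupport q) (hV : TD V) :
    ∃ R : ℝ, ∀ s y, (R < |s| ∨ R < y) → q s * V y = 0 := by
  obtain ⟨hV1, R, hR⟩ := hV
  obtain ⟨R', hR'⟩ := hc.isCompact.isBounded.subset_closedBall 0
  refine ⟨max R (R' + 1), fun s y hsy => ?_⟩
  rcases hsy with h | h
  · have : q s = 0 := by
      by_contra hne
      have h1 : s ∈ Metric.closedBall (0 : ℝ) R' := hR' (subset_tsupport _ hne)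
      rw [mem_closedBall_zero_iff, Real.norm_eq_abs] at h1
      linarith [lt_of_le_of_lt (le_max_right R (R' + 1)) h]
    simp only [this, zero_mul]
  · simp only [hR y (le_of_lt (lt_of_le_of_lt (le_max_left _ _) h)), mul_zero]

lemma supp_WW {n : ℕ} {q : ℕ → ℝ → ℂ} {V : ℕ → ℝ → ℂ} (hc : ∀ k, HasCompactSupport (q k))
    (hV : ∀ k, TD (V k)) : ∃ R : ℝ, ∀ s y, (R < |s| ∨ R < y) → WW n q V s y = 0 := by
  choose R hR using fun k => supp_prod (hc k) (hV k)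
  obtain ⟨M, hM⟩ : ∃ M : ℝ, ∀ k ∈ Finset.range n, R k ≤ M :=
    ⟨∑ k ∈ Finset.range n, |R k|, fun k hk => (le_abs_self _).trans
      (Finset.single_le_sum (f := fun k => |R k|) (fun i _ => abs_nonneg _) hk)⟩
  refine ⟨M, fun s y hsy => Finset.sum_eq_zero fun k hk => hR k s y ?_⟩
  exact hsy.imp (lt_of_le_of_lt (hM k hk)) (lt_of_le_of_lt (hM k hk))

lemma TS_WW {n : ℕ} {q : ℕ → ℝ → ℂ} {V : ℕ → ℝ → ℂ} (hq : ∀ k, ContDiff ℝ ∞ (q k))
    (hc : ∀ k, HasCompactSupport (q k)) (hV : ∀ k, TD (V k)) : TS (WW n q V) :=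
  TS.sum _ fun k _ => TS_prod (hq k) (hc k) (hV k)

lemma dhh_WW {n : ℕ} {q : ℕ → ℝ → ℂ} {V : ℕ → ℝ → ℂ} (hV : ∀ k, TD (V k)) (s : ℝ) {y : ℝ}
    (hy : 0 ≤ y) : dh (dh (WW n q V s)) y = ∑ k ∈ Finset.range n, q k s * dh (dh (V k)) y := by
  have e : WW n q V s = fun y => ∑ k ∈ Finset.range n, (fun y => q k s * V k y) y := rfl
  rw [e, dh2_sum _ (fun k _ => (hV k).cmul (q k s)) hy]
  exact Finset.sum_congr rfl fun k _ => dh2_cmul (hV k) (q k s) hy

/-- real part of a complex test function -/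
lemma re_TD {V : ℝ → ℂ} (h : TD V) : TD (fun y => (V y).re) := h.clm Complex.reCLM

lemma dhh_re {V : ℝ → ℂ} (h : TD V) {y : ℝ} (hy : 0 ≤ y) :
    dh (dh (fun y => (V y).re)) y = (dh (dh V) y).re := by
  have h1 : ∀ z, 0 ≤ z → dh (fun y => (V y).re) z = (dh V z).re :=
    fun z hz => dh_clm h Complex.reCLM hz
  rw [dh_congr h1 hy]
  exact dh_clm h.tdh Complex.reCLM hy

lemma DR_re_WW {n : ℕ} {q : ℕ → ℝ → ℂ} {V : ℕ → ℝ → ℂ} (hq : ∀ k, ContDiff ℝ ∞ (q k))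
    (hc : ∀ k, HasCompactSupport (q k)) (hV : ∀ k, TD (V k)) :
    DR (fun s y => (WW n q V s y).re) := by
  obtain ⟨R, hR⟩ := supp_WW (n := n) hc hV
  refine ⟨(Complex.reCLM.contDiff).comp_contDiffOn (TS_WW hq hc hV).1, R, fun s y hsy => ?_⟩
  simp only [hR s y hsy, Complex.zero_re]

/-- the form evaluated on `Re W` -/
lemma BIn_re (hg : ContDiff ℝ ∞ g) (hP : DR P) {W : ℝ → ℝ → ℂ} (hW : TS W) :
    BIn g κ (fun s y => (W s y).re) P =
      (∫ s, ∫ y in Ioi (0 : ℝ), fX g (W s) (zz1 (cx P) s) (zz2 κ (cx P) s) y).re := by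
  have hcs : CS (fun s y => fX g (W s) (zz1 (cx P) s) (zz2 κ (cx P) s) y) := by
    obtain ⟨hW1, R1, hR1⟩ := hW.tdy.tdy
    obtain ⟨hW2, R2, hR2⟩ := hW
    obtain ⟨hz1, -⟩ := hP.toTS.zz1
    obtain ⟨hz2, -⟩ := hP.toTS.zz2 (κ := κ)
    have hcy : ContinuousOn (fun p : ℝ × ℝ => ((p.2 : ℝ) : ℂ) ^ 9) (univ ×ˢ Ici 0) := by fun_prop
    have hcg : ContinuousOn (fun p : ℝ × ℝ => (((p.2 * g p.2) ^ 2 : ℝ) : ℂ)) (univ ×ˢ Ici 0) := by
      have := hg.continuous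
      fun_prop
    refine ⟨?_, max R1 R2, fun s y hy hsy => ?_⟩
    · unfold fX
      exact hcy.mul (((Complex.continuous_conj.comp_continuousOn hW2.continuousOn).mul
        hz2.continuousOn).add ((hcg.mul (Complex.continuous_conj.comp_continuousOn
          hW1.continuousOn)).mul hz1.continuousOn))
    · have e1 : W s y = 0 := hR2 s y hy
        (hsy.imp (le_trans (le_max_right _ _)) (le_trans (le_max_right _ _)))
      have e2 : dh (dh (W s)) y = 0 := hR1 s y hy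
        (hsy.imp (le_trans (le_max_left _ _)) (le_trans (le_max_left _ _)))
      simp only [fX, e1, e2]
      simp
  rw [← hcs.integral_prod]
  have hre := integral_re (𝕜 := ℂ) hcs.integrableOn
  simp only [RCLike.re_to_complex] at hre
  rw [← hre]
  unfold BIn
  refine setIntegral_congr_fun (MeasurableSet.univ.prod measurableSet_Ioi) fun p hp => ?_
  have hy : (0 : ℝ) < p.2 := hp.2
  have hsl := hP.toTSR.slice p.1
  simp only []
  rw [deriv2_eq hsl hy, deriv_eq_dh hsl hy, deriv2_eq (re_TD (hW.slice p.1)) hy,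
    dhh_re (hW.slice p.1) hy.le]
  have z1 : zz1 (cx P) p.1 p.2 = ((dh (dh (P p.1)) p.2 : ℝ) : ℂ) := cx_dyy hP p.1 hy.le
  have z2 : zz2 κ (cx P) p.1 p.2 = ((-(deriv (fun s => P s p.2) p.1) - (65 / 2 - κ) * P p.1 p.2
        - p.2 / 2 * dh (P p.1) p.2 : ℝ) : ℂ) := by
    unfold zz2
    rw [cx_ds hP p.1 hy.le, cx_dy hP p.1 hy.le]
    unfold cx ds dy
    push_cast
    ring
  unfold fX
  rw [z1, z2]
  have e9 : ((p.2 : ℝ) : ℂ) ^ 9 = ((p.2 ^ 9 : ℝ) : ℂ) := by push_cast; ring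
  rw [e9, Complex.re_ofReal_mul, Complex.add_re, Complex.re_mul_ofReal, Complex.re_mul_ofReal,
    Complex.re_ofReal_mul, Complex.conj_re, Complex.conj_re]

/-- the `X` norm of `Re W` -/
lemma nXI_re (hg : ContDiff ℝ ∞ g) {W : ℝ → ℝ → ℂ} (hW : TS W) :
    nXI g (fun s y => (W s y).re) ≤ ∫ s, stX g (W s) := by
  have hcs : CS (fun s y => y ^ 9 / w60 y * ((y * g y) ^ 2 * ‖dh (dh (W s)) y‖ ^ 2 +
      ‖W s y‖ ^ 2)) := by
    obtain ⟨hW1, R1, hR1⟩ := hW.tdy.tdy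
    obtain ⟨hW2, R2, hR2⟩ := hW
    have hcy : Continuous (fun p : ℝ × ℝ => p.2 ^ 9 / w60 p.2) :=
      (continuous_snd.pow 9).div (w60_cont944.comp continuous_snd) fun p => (w60_pos944 p.2).ne'
    have hcg : Continuous (fun p : ℝ × ℝ => (p.2 * g p.2) ^ 2) := by
      have := hg.continuous
      fun_prop
    refine ⟨?_, max R1 R2, fun s y hy hsy => ?_⟩
    · exact hcy.continuousOn.mul ((hcg.continuousOn.mul (hW1.continuousOn.norm.pow 2)).add
        (hW2.continuousOn.norm.pow 2))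
    · have e1 : W s y = 0 := hR2 s y hy
        (hsy.imp (le_trans (le_max_right _ _)) (le_trans (le_max_right _ _)))
      have e2 : dh (dh (W s)) y = 0 := hR1 s y hy
        (hsy.imp (le_trans (le_max_left _ _)) (le_trans (le_max_left _ _)))
      simp only [e1, e2]
      simp
  have e : ∫ s, stX g (W s) = ∫ s, ∫ y in Ioi (0 : ℝ),
      y ^ 9 / w60 y * ((y * g y) ^ 2 * ‖dh (dh (W s)) y‖ ^ 2 + ‖W s y‖ ^ 2) := by
    congr 1
    ext s
    exact nXS_eq (hW.slice s)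
  rw [e, ← hcs.integral_prod]
  unfold nXI
  refine integral_mono_of_nonneg ?_ hcs.integrableOn ?_
  · filter_upwards [ae_restrict_mem (MeasurableSet.univ.prod measurableSet_Ioi)] with p hp
    have hy : (0 : ℝ) < p.2 := hp.2
    have := w60_pos944 p.2
    simp only [Pi.zero_apply]
    positivity
  · filter_upwards [ae_restrict_mem (MeasurableSet.univ.prod measurableSet_Ioi)] with p hp
    have hy : (0 : ℝ) < p.2 := hp.2
    have hn := w60_pos944 p.2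
    show p.2 ^ 9 / w60 p.2 * ((p.2 * g p.2) ^ 2 *
      deriv (deriv (fun y => (W p.1 y).re)) p.2 ^ 2 + (W p.1 p.2).re ^ 2) ≤ _
    rw [deriv2_eq (re_TD (hW.slice p.1)) hy, dhh_re (hW.slice p.1) hy.le]
    have h1 : (dh (dh (W p.1)) p.2).re ^ 2 ≤ ‖dh (dh (W p.1)) p.2‖ ^ 2 := by
      rw [← sq_abs]; exact pow_le_pow_left₀ (abs_nonneg _) (Complex.abs_re_le_norm _) 2
    have h2 : (W p.1 p.2).re ^ 2 ≤ ‖W p.1 p.2‖ ^ 2 := by
      rw [← sq_abs]; exact pow_le_pow_left₀ (abs_nonneg _) (Complex.abs_re_le_norm _) 2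
    refine mul_le_mul_of_nonneg_left (add_le_add (mul_le_mul_of_nonneg_left h1 (by positivity)) h2)
      (by positivity)

lemma int_sq {q : ℝ → ℂ} (hq : ContDiff ℝ ∞ q) (hc : HasCompactSupport q) :
    Integrable (fun s => ‖q s‖ ^ 2) := by
  have h1 : Continuous (fun s => ‖q s‖ ^ 2) := hq.continuous.norm.pow 2
  exact h1.integrable_of_hasCompactSupport (hc.comp_left (g := fun z : ℂ => ‖z‖ ^ 2) (by simp))

lemma vec_WW {n : ℕ} {q : ℕ → ℝ → ℂ} {e : ℕ → HH} {V : ℕ → ℝ → ℂ} (hV : ∀ k, TD (V k))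
    (heV : ∀ k, (e k : ℝ → C2) =ᵐ[mu] vecX g (V k)) (s : ℝ) :
    ((∑ k ∈ Finset.range n, q k s • e k : HH) : ℝ → C2) =ᵐ[mu] vecX g (WW n q V s) := by
  have h1 : ∀ᵐ y ∂mu, ∀ k, (e k : ℝ → C2) y = vecX g (V k) y := ae_all_iff.2 heV
  have h2 : ∀ᵐ y ∂mu, ∀ k, ((q k s • e k : HH) : ℝ → C2) y = q k s • (e k : ℝ → C2) y :=
    ae_all_iff.2 fun k => Lp.coeFn_smul (q k s) (e k)
  have h3 : ((∑ k ∈ Finset.range n, q k s • e k : HH) : ℝ → C2) =ᵐ[mu]
      ∑ k ∈ Finset.range n, ((q k s • e k : HH) : ℝ → C2) :=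
    Lp.coeFn_finsetSum _ _
  filter_upwards [h1, h2, h3, ae_restrict_mem measurableSet_Ioi] with y g1 g2 g3 g4
  rw [g3, Finset.sum_apply]
  have hy : (0 : ℝ) ≤ y := le_of_lt g4
  have e1 : ∀ k, ((q k s • e k : HH) : ℝ → C2) y = q k s • vecX g (V k) y :=
    fun k => by rw [g2 k, g1 k]
  simp only [e1]
  unfold vecX
  rw [dhh_WW hV s hy]
  ext i
  fin_cases i
  · simp only [WithLp.ofLp_sum, Finset.sum_apply, Finset.mul_sum]
    simp [Finset.mul_sum]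
    refine Finset.sum_congr rfl fun k _ => ?_
    ring
  · simp only [WithLp.ofLp_sum, Finset.sum_apply]
    unfold WW
    simp [Finset.mul_sum]
    refine Finset.sum_congr rfl fun k _ => ?_
    ring

lemma norm_sum_le_sq {n : ℕ} (c : ℕ → ℂ) (e : ℕ → HH)
    (horth : ∀ i j, i ≠ j → (inner ℂ (e i) (e j) : ℂ) = 0) (hn : ∀ i, e i = 0 ∨ ‖e i‖ = 1) :
    ‖(∑ k ∈ Finset.range n, c k • e k : HH)‖ ^ 2 ≤ ∑ k ∈ Finset.range n, ‖c k‖ ^ 2 := by
  classical
  have h2 : (‖(∑ k ∈ Finset.range n, c k • e k : HH)‖ ^ 2 : ℝ) =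
      ∑ k ∈ Finset.range n, ‖c k‖ ^ 2 * ‖e k‖ ^ 2 := by
    have e1 : (‖(∑ k ∈ Finset.range n, c k • e k : HH)‖ ^ 2 : ℝ) = RCLike.re (inner ℂ
        (∑ k ∈ Finset.range n, c k • e k : HH) (∑ k ∈ Finset.range n, c k • e k : HH) : ℂ) := by
      rw [inner_self_eq_norm_sq (𝕜 := ℂ)]
    rw [e1, sum_inner, map_sum]
    refine Finset.sum_congr rfl fun i hi => ?_
    rw [inner_sum, Finset.sum_eq_single i]
    · rw [inner_smul_left, inner_smul_right, ← mul_assoc, mul_comm (starRingEnd ℂ (c i)),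
        RCLike.mul_conj, ← inner_self_ofReal_re, inner_self_eq_norm_sq (𝕜 := ℂ)]
      norm_cast
    · intro j _ hj
      rw [inner_smul_left, inner_smul_right, horth i j (Ne.symm hj)]; simp
    · intro hi'; exact absurd hi hi'
  rw [h2]
  refine Finset.sum_le_sum fun k _ => ?_
  have h3 : ‖e k‖ ^ 2 ≤ 1 := by
    rcases hn k with h | h <;> simp [h]
  exact mul_le_of_le_one_right (by positivity) h3

lemma BIn_WW (hg : ContDiff ℝ ∞ g) (hP : DR P) {n : ℕ} {q : ℕ → ℝ → ℂ} {e : ℕ → HH}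
    {V : ℕ → ℝ → ℂ} (hq : ∀ k, ContDiff ℝ ∞ (q k)) (hc : ∀ k, HasCompactSupport (q k))
    (hqV : ∀ k s, qV g κ (cx P) (V k) s = q k s) (hV : ∀ k, TD (V k))
    (heV : ∀ k, (e k : ℝ → C2) =ᵐ[mu] vecX g (V k)) :
    BIn g κ (fun s y => (WW n q V s y).re) P = ∑ k ∈ Finset.range n, ∫ s, ‖q k s‖ ^ 2 := by
  rw [BIn_re hg hP (TS_WW hq hc hV), ← integral_finsetSum _ fun k _ => int_sq (hq k) (hc k)]
  have h1 : ∀ s, (∫ y in Ioi (0 : ℝ), fX g (WW n q V s) (zz1 (cx P) s) (zz2 κ (cx P) s) y) =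
      ((∑ k ∈ Finset.range n, ‖q k s‖ ^ 2 : ℝ) : ℂ) := by
    intro s
    obtain ⟨h, hh⟩ := exists_vecY hg.continuous (hP.toTS.zz1.slice s).toCD
      ((hP.toTS.zz2 (κ := κ)).slice s).toCD
    rw [← inner_HH (vec_WW hV heV s) hh, sum_inner]
    push_cast
    refine Finset.sum_congr rfl fun k _ => ?_
    rw [inner_smul_left, inner_HH (heV k) hh]
    have e1 : (∫ y in Ioi (0 : ℝ), fX g (V k) (zz1 (cx P) s) (zz2 κ (cx P) s) y) = q k s := hqV k s
    rw [e1, mul_comm, RCLike.mul_conj]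
    rfl
  simp only [h1]
  have h2 : (∫ s, ((∑ k ∈ Finset.range n, ‖q k s‖ ^ 2 : ℝ) : ℂ)) =
      ((∫ s, ∑ k ∈ Finset.range n, ‖q k s‖ ^ 2 : ℝ) : ℂ) := integral_ofReal
  rw [h2, Complex.ofReal_re]

lemma nXI_WW (hg : ContDiff ℝ ∞ g) {n : ℕ} {q : ℕ → ℝ → ℂ} {e : ℕ → HH}
    {V : ℕ → ℝ → ℂ} (hq : ∀ k, ContDiff ℝ ∞ (q k)) (hc : ∀ k, HasCompactSupport (q k))
    (hV : ∀ k, TD (V k)) (heV : ∀ k, (e k : ℝ → C2) =ᵐ[mu] vecX g (V k))
    (horth : ∀ i j, i ≠ j → (inner ℂ (e i) (e j) : ℂ) = 0) (hn : ∀ i, e i = 0 ∨ ‖e i‖ = 1) :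
    nXI g (fun s y => (WW n q V s y).re) ≤ ∑ k ∈ Finset.range n, ∫ s, ‖q k s‖ ^ 2 := by
  have hWT := TS_WW (n := n) hq hc hV
  refine (nXI_re hg hWT).trans ?_
  rw [← integral_finsetSum _ fun k _ => int_sq (hq k) (hc k)]
  refine integral_mono_of_nonneg (Filter.Eventually.of_forall fun s => ?_)
    (integrable_finsetSum _ fun k _ => int_sq (hq k) (hc k))
    (Filter.Eventually.of_forall fun s => ?_)
  · show 0 ≤ stX g (WW n q V s)
    rw [← norm_HH (hWT.slice s) (vec_WW hV heV s)]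
    positivity
  · show stX g (WW n q V s) ≤ ∑ k ∈ Finset.range n, ‖q k s‖ ^ 2
    rw [← norm_HH (hWT.slice s) (vec_WW hV heV s)]
    exact norm_sum_le_sq (fun k => q k s) e horth hn

/-- **Step 1**: the finite orthogonal sums are bounded by `S` -/
lemma sum_q_le (hg : ContDiff ℝ ∞ g) (hP : DR P) {S : ℝ} (hS0 : 0 ≤ S)
    (hS : ∀ V, DR V → BIn g κ V P ^ 2 ≤ S * nXI g V) (e : ℕ → HH) (V : ℕ → ℝ → ℂ)
    (hV : ∀ k, TD (V k)) (heV : ∀ k, (e k : ℝ → C2) =ᵐ[mu] vecX g (V k))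
    (horth : ∀ i j, i ≠ j → (inner ℂ (e i) (e j) : ℂ) = 0) (hn : ∀ i, e i = 0 ∨ ‖e i‖ = 1) (n : ℕ) :
    ∑ k ∈ Finset.range n, ∫ s, ‖qV g κ (cx P) (V k) s‖ ^ 2 ≤ S := by
  have hqs : ∀ k, ContDiff ℝ ∞ (qV g κ (cx P) (V k)) := fun k => (qV_smooth hg (hV k) hP.toTS).1
  have hqc : ∀ k, HasCompactSupport (qV g κ (cx P) (V k)) :=
    fun k => (qV_smooth hg (hV k) hP.toTS).2
  have hB := BIn_WW (κ := κ) (n := n) (q := fun k => qV g κ (cx P) (V k)) hg hP hqs hqc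
    (fun _ _ => rfl) hV heV
  have hX := nXI_WW (n := n) (q := fun k => qV g κ (cx P) (V k)) hg hqs hqc hV heV horth hn
  have key := hS _ (DR_re_WW (n := n) (q := fun k => qV g κ (cx P) (V k)) hqs hqc hV)
  rw [hB] at key
  have hT0 : 0 ≤ ∑ k ∈ Finset.range n, ∫ s, ‖qV g κ (cx P) (V k) s‖ ^ 2 :=
    Finset.sum_nonneg fun k _ => integral_nonneg fun s => by positivity
  have h2 := mul_le_mul_of_nonneg_left hX hS0
  by_contra hneg
  push Not at hneg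
  have h3 : 0 < ∑ k ∈ Finset.range n, ∫ s, ‖qV g κ (cx P) (V k) s‖ ^ 2 := lt_of_le_of_lt hS0 hneg
  have h4 := key.trans h2
  rw [sq] at h4
  exact absurd (le_of_mul_le_mul_right h4 h3) (not_le.2 hneg)

end test

end Crest.Agent.R213.A
end
end

-- ▼ part R213/A/Four
section

/-!
# Row 213, part A, block A-FOUR (helper944): `StEst g κ C → InEst g κ C`
-/

set_option autoImplicit false

open Set MeasureTheory Filter Topology
open scoped ContDiff FourierTransform InnerProductSpace ENNReal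

noncomputable section

namespace Crest.Agent.R213.A

variable {g : ℝ → ℝ} {κ : ℝ}

/-- density of the `Y` norm -/
def GY (g : ℝ → ℝ) (Z P : ℝ → ℝ → ℂ) (s y : ℝ) : ℝ :=
  y ^ 9 * w60 y * ((y * g y) ^ 2 * ‖Z s y‖ ^ 2 + ‖P s y‖ ^ 2)

lemma GY_nonneg {Z P : ℝ → ℝ → ℂ} {s y : ℝ} (hy : 0 < y) : 0 ≤ GY g Z P s y := by
  unfold GY
  have := w60_pos944 y
  positivity

lemma GY_contOn (hg : Continuous g) {Z P : ℝ → ℝ → ℂ}
    (hZ : ContinuousOn (fun p : ℝ × ℝ => Z p.1 p.2) (univ ×ˢ Ici 0))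
    (hP : ContinuousOn (fun p : ℝ × ℝ => P p.1 p.2) (univ ×ˢ Ici 0)) :
    ContinuousOn (fun p : ℝ × ℝ => GY g Z P p.1 p.2) (univ ×ˢ Ioi 0) := by
  have hcy : Continuous (fun p : ℝ × ℝ => p.2 ^ 9 * w60 p.2) :=
    (continuous_snd.pow 9).mul (w60_cont944.comp continuous_snd)
  have hcg : Continuous (fun p : ℝ × ℝ => (p.2 * g p.2) ^ 2) := by fun_prop
  unfold GY
  exact (hcy.continuousOn.mul ((hcg.continuousOn.mul (hZ.norm.pow 2)).add (hP.norm.pow 2))).mono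
    (fun p hp => ⟨hp.1, show (0 : ℝ) ≤ p.2 from le_of_lt hp.2⟩)

lemma prod_restrict' : (volume : Measure (ℝ × ℝ)).restrict (univ ×ˢ Ioi 0) =
    (volume : Measure ℝ).prod mu := by
  rw [Measure.volume_eq_prod, ← Measure.prod_restrict, Measure.restrict_univ]

lemma GY_aem (hg : Continuous g) {Z P : ℝ → ℝ → ℂ}
    (hZ : ContinuousOn (fun p : ℝ × ℝ => Z p.1 p.2) (univ ×ˢ Ici 0))
    (hP : ContinuousOn (fun p : ℝ × ℝ => P p.1 p.2) (univ ×ˢ Ici 0)) :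
    AEMeasurable (fun p : ℝ × ℝ => ENNReal.ofReal (GY g Z P p.1 p.2))
      ((volume : Measure ℝ).prod mu) := by
  rw [← prod_restrict']
  exact ((GY_contOn hg hZ hP).aemeasurable (MeasurableSet.univ.prod measurableSet_Ioi)).ennreal_ofReal

/-- for fixed `y`, Plancherel in `s` -/
lemma GY_planch {Z P : ℝ → ℝ → ℂ} (hZ : TS Z) (hP : TS P) {y : ℝ} (hy : 0 < y) :
    ∫⁻ s, ENNReal.ofReal (GY g Z P s y) = ∫⁻ ξ, ENNReal.ofReal (GY g (hat Z) (hat P) ξ y) := by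
  have hn := w60_pos944 y
  have h1 : ∀ (Z P : ℝ → ℝ → ℂ) (s : ℝ), ENNReal.ofReal (GY g Z P s y) =
      ENNReal.ofReal (y ^ 9 * w60 y * (y * g y) ^ 2) * ENNReal.ofReal (‖Z s y‖ ^ 2) +
        ENNReal.ofReal (y ^ 9 * w60 y) * ENNReal.ofReal (‖P s y‖ ^ 2) := by
    intro Z P s
    rw [← ENNReal.ofReal_mul (by positivity), ← ENNReal.ofReal_mul (by positivity),
      ← ENNReal.ofReal_add (by positivity) (by positivity)]
    unfold GY
    congr 1
    ring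
  have m1 : ∀ {Q : ℝ → ℝ → ℂ}, TS Q → Measurable (fun s => ENNReal.ofReal (‖Q s y‖ ^ 2)) :=
    fun hQ => ((hQ.sliceS hy.le).continuous.norm.pow 2).measurable.ennreal_ofReal
  have m2 : ∀ {Q : ℝ → ℝ → ℂ}, TS Q → Measurable (fun s => ENNReal.ofReal (‖hat Q s y‖ ^ 2)) := by
    intro Q hQ
    have hc : Continuous (fun s => hat Q s y) := by
      rw [← continuousOn_univ]
      exact hQ.hat_joint.continuousOn.comp (f := fun s : ℝ => (s, y)) (by fun_prop)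
        (fun s _ => ⟨trivial, hy.le⟩)
    exact (hc.norm.pow 2).measurable.ennreal_ofReal
  simp only [h1]
  rw [lintegral_add_left ((m1 hZ).const_mul _), lintegral_const_mul _ (m1 hZ),
    lintegral_const_mul _ (m1 hP), lintegral_add_left ((m2 hZ).const_mul _),
    lintegral_const_mul _ (m2 hZ), lintegral_const_mul _ (m2 hP)]
  have p1 := plancherel_lintegral (hZ.sliceS hy.le) (hZ.compS hy.le)
  have p2 := plancherel_lintegral (hP.sliceS hy.le) (hP.compS hy.le)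
  rw [← p1, ← p2]
  rfl

lemma nYS_hat (hg : Continuous g) {P : ℝ → ℝ → ℂ} (hP : TS P) (ξ : ℝ) :
    ENNReal.ofReal (stY g (hat P ξ)) =
      ∫⁻ y in Ioi (0 : ℝ), ENNReal.ofReal (GY g (hat (zz1 P)) (hat P) ξ y) := by
  have hT := hP.hat_TD ξ
  rw [nYS_eq hT]
  have e : (∫ y in Ioi (0 : ℝ), y ^ 9 * w60 y * ((y * g y) ^ 2 * ‖dh (dh (hat P ξ)) y‖ ^ 2 +
      ‖hat P ξ y‖ ^ 2)) = ∫ y in Ioi (0 : ℝ), GY g (hat (zz1 P)) (hat P) ξ y := by
    refine setIntegral_congr_fun measurableSet_Ioi fun y hy => ?_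
    unfold GY
    simp only [hat_zz1 hP ξ (le_of_lt hy)]
  rw [e]
  have hT1 := (hP.zz1.hat_TD ξ)
  have hcd : CD (fun y => GY g (hat (zz1 P)) (hat P) ξ y) := by
    obtain ⟨R, hR⟩ := hT.2
    obtain ⟨R', hR'⟩ := hT1.2
    refine ⟨?_, max R R', fun y h0 hy => ?_⟩
    · unfold GY
      have hcy : Continuous (fun y : ℝ => y ^ 9 * w60 y) := (continuous_id.pow 9).mul w60_cont944
      have hcg : Continuous (fun y : ℝ => (y * g y) ^ 2) := by fun_prop
      exact hcy.continuousOn.mul ((hcg.continuousOn.mul (hT1.cont.norm.pow 2)).add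
        (hT.cont.norm.pow 2))
    · unfold GY
      simp only [hR y (le_trans (le_max_left _ _) hy), hR' y (le_trans (le_max_right _ _) hy)]
      simp
  exact ofReal_integral_eq_lintegral_ofReal hcd.integrableOn
    ((ae_restrict_mem measurableSet_Ioi).mono fun y hy => GY_nonneg hy)

lemma aST_hat {V : ℝ → ℂ} (hV : TD V) {P : ℝ → ℝ → ℂ} (hP : TS P) (ξ : ℝ) :
    stForm g κ (2 * Real.pi * ξ) V (hat P ξ) =
      ∫ y in Ioi (0 : ℝ), fX g V (hat (zz1 P) ξ) (hat (zz2 κ P) ξ) y := by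
  rw [aST_eq hV (hP.hat_TD ξ)]
  refine setIntegral_congr_fun measurableSet_Ioi fun y hy => ?_
  rw [fX_eq, fX_eq, hat_zz1 hP ξ (le_of_lt hy), hat_zz2 hP ξ (le_of_lt hy)]

/-- the static estimate at one frequency -/
lemma at_freq (hg : ContDiff ℝ ∞ g) {C : ℝ} (h : StEst g κ C) {P : ℝ → ℝ → ℂ} (hP : TS P)
    {e : ℕ → HH} {V : ℕ → ℝ → ℂ} (hV : ∀ k, TD (V k))
    (heV : ∀ k, (e k : ℝ → C2) =ᵐ[mu] vecX g (V k))
    (hgs : ∀ (h : HH) (S : ℝ), (∀ n, ∑ k ∈ Finset.range n, ‖(inner ℂ (e k) h : ℂ)‖ ^ 2 ≤ S) →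
        ∀ v ∈ subE g, ‖(inner ℂ v h : ℂ)‖ ^ 2 ≤ S * ‖v‖ ^ 2)
    (ξ M : ℝ) (hM0 : 0 ≤ M)
    (hM : ∀ n, ∑ k ∈ Finset.range n, ‖𝓕 (qV g κ P (V k)) ξ‖ ^ 2 ≤ M) :
    stY g (hat P ξ) ≤ C * M := by
  obtain ⟨h0, hh⟩ := exists_vecY hg.continuous (hP.zz1.hat_TD ξ).toCD
    ((hP.zz2 (κ := κ)).hat_TD ξ).toCD
  refine h (2 * Real.pi * ξ) (hat P ξ) (hP.hat_TD ξ).toDD M hM0 fun W hW => ?_
  obtain ⟨x, hx⟩ := exists_vec hg.continuous hW.toTD
  have h1 := hgs h0 M (fun n => ?_) x ⟨W, hW.toTD, hx⟩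
  · rwa [inner_HH hx hh, ← aST_hat hW.toTD hP ξ, norm_HH hW.toTD hx] at h1
  · refine le_trans (le_of_eq (Finset.sum_congr rfl fun k _ => ?_)) (hM n)
    rw [inner_HH (heV k) hh, ← aST_hat (hV k) hP ξ, fourier_qV hg (hV k) hP ξ]

theorem four_core (hg : ContDiff ℝ ∞ g) {C : ℝ} (hC : 0 ≤ C) (h : StEst g κ C) : InEst g κ C := by
  intro P hP S hS0 hS
  have hPT := hP.toTS
  have : Fact ((2 : ENNReal) ≠ ⊤) := ⟨by simp⟩
  obtain ⟨e, heE, horth, hn, hgs⟩ := exists_gs (subE g)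
  choose V hV heV using heE
  have hsum := sum_q_le hg hP hS0 hS e V hV heV horth hn
  set q : ℕ → ℝ → ℂ := fun k => qV g κ (cx P) (V k) with hq
  have hqs : ∀ k, ContDiff ℝ ∞ (q k) := fun k => (qV_smooth hg (hV k) hPT).1
  have hqc : ∀ k, HasCompactSupport (q k) := fun k => (qV_smooth hg (hV k) hPT).2
  -- the frequency function
  set M : ℝ → ℝ≥0∞ := fun ξ => ∑' k, ENNReal.ofReal (‖𝓕 (q k) ξ‖ ^ 2) with hMdef
  have hcont : ∀ k, Continuous (𝓕 (q k)) := by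
    intro k
    have e2 : ((𝓕 ((hqc k).toSchwartzMap (hqs k)) : SchwartzMap ℝ ℂ) : ℝ → ℂ) = 𝓕 (q k) := by
      rw [SchwartzMap.fourier_coe]; rfl
    rw [← e2]
    exact SchwartzMap.continuous _
  have hmeas : ∀ k, Measurable (fun ξ => ENNReal.ofReal (‖𝓕 (q k) ξ‖ ^ 2)) :=
    fun k => ((hcont k).norm.pow 2).measurable.ennreal_ofReal
  have hMm : Measurable M := Measurable.tsum hmeas
  have hMint : ∫⁻ ξ, M ξ ≤ ENNReal.ofReal S := by
    rw [lintegral_tsum fun k => (hmeas k).aemeasurable]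
    have h1 : ∀ k, ∫⁻ ξ, ENNReal.ofReal (‖𝓕 (q k) ξ‖ ^ 2) =
        ENNReal.ofReal (∫ s, ‖q k s‖ ^ 2) := by
      intro k
      rw [plancherel_lintegral (hqs k) (hqc k),
        ofReal_integral_eq_lintegral_ofReal (int_sq (hqs k) (hqc k))
          (Filter.Eventually.of_forall fun _ => by positivity)]
    simp only [h1]
    refine ENNReal.tsum_le_of_sum_range_le fun n => ?_
    rw [← ENNReal.ofReal_sum_of_nonneg fun k _ => integral_nonneg fun s => by positivity]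
    exact ENNReal.ofReal_le_ofReal (hsum n)
  have hMfin : ∀ᵐ ξ, M ξ < ⊤ :=
    ae_lt_top hMm (ne_top_of_le_ne_top ENNReal.ofReal_ne_top hMint)
  have hpt : ∀ᵐ ξ, ENNReal.ofReal (stY g (hat (cx P) ξ)) ≤ ENNReal.ofReal C * M ξ := by
    filter_upwards [hMfin] with ξ hξ
    have hb : ∀ n, ∑ k ∈ Finset.range n, ‖𝓕 (q k) ξ‖ ^ 2 ≤ (M ξ).toReal := by
      intro n
      have h1 : ENNReal.ofReal (∑ k ∈ Finset.range n, ‖𝓕 (q k) ξ‖ ^ 2) ≤ M ξ := by
        rw [ENNReal.ofReal_sum_of_nonneg fun k _ => by positivity]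
        exact ENNReal.sum_le_tsum _
      exact (ENNReal.ofReal_le_iff_le_toReal hξ.ne).1 h1
    have h2 := at_freq hg h hPT hV heV hgs ξ (M ξ).toReal ENNReal.toReal_nonneg hb
    calc ENNReal.ofReal (stY g (hat (cx P) ξ)) ≤ ENNReal.ofReal (C * (M ξ).toReal) :=
          ENNReal.ofReal_le_ofReal h2
      _ = ENNReal.ofReal C * M ξ := by rw [ENNReal.ofReal_mul hC, ENNReal.ofReal_toReal hξ.ne]
  -- the `Y` norm
  have hchain : ∫⁻ p in (univ ×ˢ Ioi 0 : Set (ℝ × ℝ)),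
      ENNReal.ofReal (GY g (zz1 (cx P)) (cx P) p.1 p.2) =
        ∫⁻ ξ, ENNReal.ofReal (stY g (hat (cx P) ξ)) := by
    have hg' := hg.continuous
    rw [prod_restrict', lintegral_prod_symm _ (GY_aem hg' hPT.zz1.cont hPT.cont)]
    have h1 : ∀ᵐ y ∂mu, ∫⁻ s, ENNReal.ofReal (GY g (zz1 (cx P)) (cx P) s y) =
        ∫⁻ ξ, ENNReal.ofReal (GY g (hat (zz1 (cx P))) (hat (cx P)) ξ y) :=
      (ae_restrict_mem measurableSet_Ioi).mono fun y hy => GY_planch hPT.zz1 hPT hy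
    rw [lintegral_congr_ae h1]
    have h2 := GY_aem hg' (Z := hat (zz1 (cx P))) (P := hat (cx P))
      hPT.zz1.hat_joint.continuousOn hPT.hat_joint.continuousOn
    rw [← lintegral_prod_symm _ h2, lintegral_prod _ h2]
    refine lintegral_congr fun ξ => ?_
    exact (nYS_hat hg' hPT ξ).symm
  have hint : ∫⁻ p in (univ ×ˢ Ioi 0 : Set (ℝ × ℝ)),
      ENNReal.ofReal (GY g (zz1 (cx P)) (cx P) p.1 p.2) ≤ ENNReal.ofReal (C * S) := by
    rw [hchain]
    calc ∫⁻ ξ, ENNReal.ofReal (stY g (hat (cx P) ξ)) ≤ ∫⁻ ξ, ENNReal.ofReal C * M ξ :=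
          lintegral_mono_ae hpt
      _ = ENNReal.ofReal C * ∫⁻ ξ, M ξ := lintegral_const_mul _ hMm
      _ ≤ ENNReal.ofReal C * ENNReal.ofReal S := by gcongr
      _ = ENNReal.ofReal (C * S) := (ENNReal.ofReal_mul hC).symm
  have hY : nYI g P = ∫ p in (univ ×ˢ Ioi 0 : Set (ℝ × ℝ)), GY g (zz1 (cx P)) (cx P) p.1 p.2 := by
    unfold nYI
    refine setIntegral_congr_fun (MeasurableSet.univ.prod measurableSet_Ioi) fun p hp => ?_
    have hy : (0 : ℝ) < p.2 := hp.2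
    show p.2 ^ 9 * w60 p.2 * ((p.2 * g p.2) ^ 2 * deriv (deriv (P p.1)) p.2 ^ 2 + P p.1 p.2 ^ 2) = _
    rw [deriv2_eq (hP.toTSR.slice p.1) hy]
    unfold GY
    have z1 : zz1 (cx P) p.1 p.2 = ((dh (dh (P p.1)) p.2 : ℝ) : ℂ) := cx_dyy hP p.1 hy.le
    rw [z1]
    unfold cx
    rw [Complex.norm_real, Complex.norm_real, Real.norm_eq_abs, Real.norm_eq_abs, sq_abs, sq_abs]
  rw [hY, integral_eq_lintegral_of_nonneg_ae]
  · exact ENNReal.toReal_le_of_le_ofReal (by positivity) hint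
  · exact (ae_restrict_mem (MeasurableSet.univ.prod measurableSet_Ioi)).mono
      fun p hp => GY_nonneg hp.2
  · exact ((GY_contOn hg.continuous hPT.zz1.cont hPT.cont).aemeasurable
      (MeasurableSet.univ.prod measurableSet_Ioi)).aestronglyMeasurable

/-- **A-FOUR** -/
theorem four {c0 C0 : ℝ} {g : ℝ → ℝ} (hg : Prof c0 C0 g) {κ C : ℝ} (hC : 0 ≤ C)
    (h : StEst g κ C) : InEst g κ C := four_core hg.smooth hC h

end Crest.Agent.R213.A
end
end

-- ▼ part R213/A/Kit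
section

/-!
# Row 213, PART A: toolkit for `Tst`, `II`, `nX`, `nY` (helper795)
-/

set_option autoImplicit false

open Set MeasureTheory Filter Topology

noncomputable section

namespace Crest.Agent.R213.A.Kit

variable {L κ : ℝ} {u v φ ψ F F' : ℝ → ℝ → ℝ}

/-- admissible integrands: continuous on `(0,1)×[0,L]`, compact support in `τ` -/
def Cc (L : ℝ) (F : ℝ → ℝ → ℝ) : Prop :=
  ContinuousOn (fun p : ℝ × ℝ => F p.1 p.2) (Ioo 0 1 ×ˢ Icc 0 L) ∧
    ∃ a b : ℝ, 0 < a ∧ a < b ∧ b < 1 ∧ ∀ τ x, τ ∉ Icc a b → F τ x = 0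

/-! ### `Tst` -/











theorem dt_zero_of {a b τ : ℝ} (h : ∀ τ x, τ ∉ Icc a b → u τ x = 0) (hτ : τ ∉ Icc a b) (x : ℝ) :
    dt u τ x = 0 := by
  unfold dt
  have h1 : (fun r => u r x) =ᶠ[𝓝 τ] fun _ => 0 := by
    filter_upwards [isClosed_Icc.isOpen_compl.mem_nhds hτ] with r hr
    exact h r x hr
  rw [h1.deriv_eq]; simp



/-! ### `Cc` closure -/



theorem cc_add (hF : Cc L F) (hF' : Cc L F') : Cc L (fun τ x => F τ x + F' τ x) := by
  obtain ⟨h1, a, b, ha, hab, hb, h⟩ := hF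
  obtain ⟨h1', a', b', ha', hab', hb', h'⟩ := hF'
  refine ⟨h1.add h1', min a a', max b b', lt_min ha ha', lt_of_le_of_lt (min_le_left _ _)
    (lt_of_lt_of_le hab (le_max_left _ _)), max_lt hb hb', fun τ x hτ => ?_⟩
  show F τ x + F' τ x = 0
  rw [h τ x (fun h1 => hτ ⟨(min_le_left _ _).trans h1.1, h1.2.trans (le_max_left _ _)⟩),
    h' τ x (fun h1 => hτ ⟨(min_le_right _ _).trans h1.1, h1.2.trans (le_max_right _ _)⟩), add_zero]










/-! ### Integrability and Fubini -/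















/-! ### the weight and the background -/






section bg

variable {c0 C0 : ℝ} {g : ℝ → ℝ} {m : ℝ → ℝ → ℝ}








end bg

/-! ### the integrands of `BB`, `nX`, `nY` -/














end Crest.Agent.R213.A.Kit
end
end

-- ▼ part R213/A/CoV
section

/-!
# Row 213, PART A: change of variables `τ = e^{-s}`, `x = y e^{-s/2}` (helper795)
-/

set_option autoImplicit false

open Set MeasureTheory Filter Topology

noncomputable section

namespace Crest.Agent.R213.A.CoV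

/-- inner variables → original variables -/
def TT (p : ℝ × ℝ) : ℝ × ℝ := (Real.exp (-p.1), p.2 * Real.exp (-p.1 / 2))

/-- the domain in inner variables -/
def Om (L : ℝ) : Set (ℝ × ℝ) := {p | 0 < p.1 ∧ 0 < p.2 ∧ p.2 * Real.exp (-p.1 / 2) < L}

def TT' (p : ℝ × ℝ) : ℝ × ℝ →L[ℝ] ℝ × ℝ :=
  (Matrix.toLin (.finTwoProd ℝ) (.finTwoProd ℝ)
    !![-Real.exp (-p.1), 0; -(p.2 * Real.exp (-p.1 / 2)) / 2, Real.exp (-p.1 / 2)]).toContinuousLinearMap

theorem hasFDerivAt_TT (p : ℝ × ℝ) : HasFDerivAt TT (TT' p) p := by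
  unfold TT'
  rw [Matrix.toLin_finTwoProd_toContinuousLinearMap]
  have h1 : HasFDerivAt (fun q : ℝ × ℝ => Real.exp (-q.1))
      ((-Real.exp (-p.1)) • ContinuousLinearMap.fst ℝ ℝ ℝ + (0 : ℝ) • ContinuousLinearMap.snd ℝ ℝ ℝ) p := by
    have e1 : HasDerivAt (fun r : ℝ => Real.exp (-r)) (-Real.exp (-p.1)) p.1 := by
      simpa using (hasDerivAt_neg p.1).exp
    have e2 := e1.comp_hasFDerivAt p (hasFDerivAt_fst (𝕜 := ℝ) (E := ℝ) (F := ℝ) (p := p))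
    refine e2.congr_fderiv ?_
    ext <;> simp
  have h2 : HasFDerivAt (fun q : ℝ × ℝ => q.2 * Real.exp (-q.1 / 2))
      ((-(p.2 * Real.exp (-p.1 / 2)) / 2) • ContinuousLinearMap.fst ℝ ℝ ℝ +
        (Real.exp (-p.1 / 2)) • ContinuousLinearMap.snd ℝ ℝ ℝ) p := by
    have e1 : HasDerivAt (fun r : ℝ => Real.exp (-r / 2)) (Real.exp (-p.1 / 2) * (-1 / 2)) p.1 :=
      ((hasDerivAt_neg p.1).div_const 2).exp
    have e2 := e1.comp_hasFDerivAt p (hasFDerivAt_fst (𝕜 := ℝ) (E := ℝ) (F := ℝ) (p := p))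
    have e3 := (hasFDerivAt_snd (𝕜 := ℝ) (E := ℝ) (F := ℝ) (p := p)).mul e2
    refine e3.congr_fderiv ?_
    ext
    · simp; ring
    · simp
  exact h1.prodMk h2

theorem det_TT' (p : ℝ × ℝ) : (TT' p).det = -Real.exp (-(3 / 2) * p.1) := by
  unfold TT'
  simp only [LinearMap.det_toContinuousLinearMap, LinearMap.det_toLin, Matrix.det_fin_two_of]
  rw [zero_mul, sub_zero, neg_mul, ← Real.exp_add]
  congr 2
  ring

theorem TT_injective : Function.Injective TT := by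
  rintro ⟨a, b⟩ ⟨c, d⟩ h
  simp only [TT, Prod.mk.injEq] at h
  have h1 : a = c := by
    have := Real.exp_injective h.1
    linarith
  subst h1
  have h2 : b = d := mul_right_cancel₀ (Real.exp_pos _).ne' h.2
  rw [h2]

theorem sqrt_exp (s : ℝ) : √(Real.exp (-s)) = Real.exp (-s / 2) := by
  rw [← Real.exp_half]

theorem exp_half_log {τ : ℝ} (hτ : 0 < τ) : Real.exp (-(-Real.log τ) / 2) = √τ := by
  rw [neg_neg, Real.exp_half, Real.exp_log hτ]

theorem TT_image (L : ℝ) : TT '' Om L = Ioo (0 : ℝ) 1 ×ˢ Ioo (0 : ℝ) L := by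
  ext ⟨τ, x⟩
  constructor
  · rintro ⟨⟨s, y⟩, ⟨h1, h2, h3⟩, h⟩
    simp only [TT, Prod.mk.injEq] at h
    obtain ⟨rfl, rfl⟩ := h
    exact ⟨⟨Real.exp_pos _, by rw [← Real.exp_zero]; exact Real.exp_lt_exp.2 (by linarith)⟩, ⟨by positivity, h3⟩⟩
  · rintro ⟨⟨h1, h2⟩, ⟨h3, h4⟩⟩
    have hs : 0 < √τ := Real.sqrt_pos.2 h1
    refine ⟨(-Real.log τ, x / √τ), ⟨?_, ?_, ?_⟩, ?_⟩
    · show 0 < -Real.log τ
      linarith [Real.log_neg h1 h2]
    · exact div_pos h3 hs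
    · show x / √τ * Real.exp (-(-Real.log τ) / 2) < L
      rw [exp_half_log h1, div_mul_cancel₀ _ hs.ne']; exact h4
    · simp only [TT, Prod.mk.injEq]
      rw [exp_half_log h1, div_mul_cancel₀ _ hs.ne', neg_neg, Real.exp_log h1]
      exact ⟨rfl, rfl⟩

theorem isOpen_Om (L : ℝ) : IsOpen (Om L) := by
  unfold Om
  apply IsOpen.inter (isOpen_lt continuous_const continuous_fst)
  apply IsOpen.inter (isOpen_lt continuous_const continuous_snd)
  have hc : Continuous (fun p : ℝ × ℝ => p.2 * Real.exp (-p.1 / 2)) := by fun_prop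
  exact isOpen_lt hc continuous_const

theorem II_cov (L : ℝ) (F : ℝ → ℝ → ℝ) :
    II L F = ∫ p in Om L, Real.exp (-(3 / 2) * p.1) *
      F (Real.exp (-p.1)) (p.2 * Real.exp (-p.1 / 2)) := by
  unfold II
  rw [← TT_image, integral_image_eq_integral_abs_det_fderiv_smul volume (isOpen_Om L).measurableSet
    (fun p _ => (hasFDerivAt_TT p).hasFDerivWithinAt) TT_injective.injOn]
  refine setIntegral_congr_fun (isOpen_Om L).measurableSet (fun p _ => ?_)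
  show |(TT' p).det| • F (TT p).1 (TT p).2 = _
  rw [det_TT', abs_neg, abs_of_pos (Real.exp_pos _)]
  rfl

end Crest.Agent.R213.A.CoV
end
end

-- ▼ part R213/A/Tr1
section

/-!
# Row 213, PART A: transfer between the inner variables and the original ones, smoothness and
pointwise identities (helper795)
-/

set_option autoImplicit false

open Set MeasureTheory Filter Topology

noncomputable section

namespace Crest.Agent.R213.A.Tr

/-! ### cut-offs -/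

/-- space cutoff: `1` for `r ≤ 3/32`, `0` for `r ≥ 1/8` -/
def chi (r : ℝ) : ℝ := Real.smoothTransition (4 - 32 * r)

theorem chi_smooth : ContDiff ℝ (⊤ : ℕ∞) chi := by
  unfold chi
  exact Real.smoothTransition.contDiff.comp (by fun_prop)

theorem chi_one {r : ℝ} (h : r ≤ 3 / 32) : chi r = 1 :=
  Real.smoothTransition.one_of_one_le (by linarith)

theorem chi_zero {r : ℝ} (h : 1 / 8 ≤ r) : chi r = 0 :=
  Real.smoothTransition.zero_of_nonpos (by linarith)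

theorem chi_nonneg (r : ℝ) : 0 ≤ chi r := Real.smoothTransition.nonneg _

theorem chi_le_one (r : ℝ) : chi r ≤ 1 := Real.smoothTransition.le_one _

theorem exists_theta {a b : ℝ} (ha : 0 < a) (hab : a < b) (hb : b < 1) :
    ∃ θ : ℝ → ℝ, ContDiff ℝ (⊤ : ℕ∞) θ ∧ (∀ τ ∈ Icc a b, θ τ = 1) ∧
      (∀ τ, 0 ≤ θ τ ∧ θ τ ≤ 1) ∧
      (∃ a' b' : ℝ, 0 < a' ∧ a' < b' ∧ b' < 1 ∧ ∀ τ, τ ∉ Icc a' b' → θ τ = 0) := by
  have hb1 : 0 < 1 - b := by linarith
  refine ⟨fun τ => Real.smoothTransition (2 * τ / a - 1) *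
    Real.smoothTransition ((1 + b - 2 * τ) / (1 - b)), ?_, ?_, ?_, a / 2, (1 + b) / 2,
    by linarith, by linarith, by linarith, ?_⟩
  · exact (Real.smoothTransition.contDiff.comp (by fun_prop)).mul
      (Real.smoothTransition.contDiff.comp (by fun_prop))
  · intro τ hτ
    have h1 : 1 ≤ 2 * τ / a - 1 := by
      have : 2 ≤ 2 * τ / a := by
        rw [le_div_iff₀ ha]; linarith [hτ.1]
      linarith
    have h2 : 1 ≤ (1 + b - 2 * τ) / (1 - b) := by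
      rw [le_div_iff₀ hb1]; linarith [hτ.2]
    show Real.smoothTransition _ * Real.smoothTransition _ = 1
    rw [Real.smoothTransition.one_of_one_le h1, Real.smoothTransition.one_of_one_le h2, one_mul]
  · intro τ
    constructor
    · exact mul_nonneg (Real.smoothTransition.nonneg _) (Real.smoothTransition.nonneg _)
    · exact mul_le_one₀ (Real.smoothTransition.le_one _) (Real.smoothTransition.nonneg _)
        (Real.smoothTransition.le_one _)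
  · intro τ hτ
    show Real.smoothTransition _ * Real.smoothTransition _ = 0
    rw [mem_Icc, not_and_or, not_le, not_le] at hτ
    rcases hτ with h | h
    · rw [Real.smoothTransition.zero_of_nonpos, zero_mul]
      have : 2 * τ / a < 1 := by rw [div_lt_one ha]; linarith
      linarith
    · rw [Real.smoothTransition.zero_of_nonpos (x := (1 + b - 2 * τ) / (1 - b)), mul_zero]
      rw [div_nonpos_iff]
      right
      constructor <;> linarith

/-! ### the two transforms -/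

/-- `ψ ↦ P` -/
def Pf (κ : ℝ) (ψ : ℝ → ℝ → ℝ) (s y : ℝ) : ℝ :=
  Real.exp (-(65 / 2 - κ) * s) * ψ (Real.exp (-s)) (y * Real.exp (-s / 2))

/-- cut-off of `V` -/
def Vc (L : ℝ) (θ : ℝ → ℝ) (V : ℝ → ℝ → ℝ) (s y : ℝ) : ℝ :=
  θ (Real.exp (-s)) * chi (y * Real.exp (-s / 2) / L) * V s y

/-- `V ↦ u` (with cut-offs) -/
def Uf (κ L : ℝ) (θ : ℝ → ℝ) (V : ℝ → ℝ → ℝ) (τ x : ℝ) : ℝ :=
  τ ^ (55 / 2 - κ) * (θ τ * chi (x / L) * V (-Real.log τ) (x / √τ))

variable {κ L : ℝ} {θ : ℝ → ℝ} {V ψ : ℝ → ℝ → ℝ}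

theorem Uf_eq {τ : ℝ} (hτ : 0 < τ) (x : ℝ) :
    Uf κ L θ V τ x = τ ^ (55 / 2 - κ) * Vc L θ V (-Real.log τ) (x * (√τ)⁻¹) := by
  have hs : 0 < √τ := Real.sqrt_pos.2 hτ
  unfold Uf Vc
  rw [CoV.exp_half_log hτ, neg_neg, Real.exp_log hτ, mul_assoc x, inv_mul_cancel₀ hs.ne', mul_one,
    div_eq_mul_inv x (√τ)]

theorem Uf_exp (s y : ℝ) :
    Uf κ L θ V (Real.exp (-s)) (y * Real.exp (-s / 2)) =
      Real.exp (-(55 / 2 - κ) * s) * Vc L θ V s y := by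
  rw [Uf_eq (Real.exp_pos _), Real.log_exp, neg_neg, CoV.sqrt_exp, mul_assoc y,
    mul_inv_cancel₀ (Real.exp_pos _).ne', mul_one, ← Real.exp_mul]
  congr 2
  ring

theorem sm_Uf (hV : DR V) (hθ : ContDiff ℝ (⊤ : ℕ∞) θ) : Sm (Ioo 0 1) L (Uf κ L θ V) := by
  have h1 : Sm (Ioo 0 1) L (fun τ _ => τ ^ (55 / 2 - κ)) :=
    Sm.rpow (u := fun τ _ => τ) Sm.fst _ (fun τ hτ x _ => hτ.1.ne')
  have h2 : Sm (Ioo 0 1) L (fun τ _ => θ τ) := Sm.of_left hθ.contDiffOn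
  have h3 : Sm (Ioo 0 1) L (fun _ x => chi (x / L)) :=
    Sm.of_right (chi_smooth.comp (by fun_prop)).contDiffOn
  have h4 : Sm (Ioo 0 1) L (fun τ x => V (-Real.log τ) (x / √τ)) := by
    have e1 : Sm (Ioo 0 1) L (fun τ _ => -Real.log τ) :=
      (Sm.log (u := fun τ _ => τ) Sm.fst (fun τ hτ x _ => hτ.1.ne')).neg
    have e2 : Sm (Ioo 0 1) L (fun τ x => x / √τ) :=
      Sm.div (u := fun _ x => x) (v := fun τ _ => √τ) Sm.snd
        (Sm.sqrt (u := fun τ _ => τ) Sm.fst (fun τ hτ x _ => hτ.1.ne'))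
        (fun τ hτ x _ => (Real.sqrt_pos.2 hτ.1).ne')
    exact ContDiffOn.comp (g := fun p : ℝ × ℝ => V p.1 p.2)
      (f := fun p : ℝ × ℝ => (-Real.log p.1, p.2 / √p.1)) hV.1 (ContDiffOn.prodMk e1 e2)
      (fun p hp => ⟨mem_univ _, div_nonneg hp.2.1 (Real.sqrt_nonneg _)⟩)
  exact h1.mul ((h2.mul h3).mul h4)

theorem tst_Uf (hV : DR V) (hθ : ContDiff ℝ (⊤ : ℕ∞) θ)
    (hθs : ∃ a' b' : ℝ, 0 < a' ∧ a' < b' ∧ b' < 1 ∧ ∀ τ, τ ∉ Icc a' b' → θ τ = 0) :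
    Tst L (Uf κ L θ V) := by
  obtain ⟨a', b', h1, h2, h3, h4⟩ := hθs
  exact ⟨sm_Uf hV hθ, a', b', h1, h2, h3, fun τ x hτ => by unfold Uf; rw [h4 τ hτ]; ring⟩

theorem dr_Vc (hV : DR V) (hθ : ContDiff ℝ (⊤ : ℕ∞) θ) : DR (Vc L θ V) := by
  obtain ⟨h1, R, hR⟩ := hV
  refine ⟨?_, R, fun s y h => by unfold Vc; rw [hR s y h]; ring⟩
  have e1 : ContDiff ℝ (⊤ : ℕ∞) (fun p : ℝ × ℝ => θ (Real.exp (-p.1))) :=
    hθ.comp (by fun_prop)
  have e2 : ContDiff ℝ (⊤ : ℕ∞) (fun p : ℝ × ℝ => chi (p.2 * Real.exp (-p.1 / 2) / L)) :=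
    chi_smooth.comp (by fun_prop)
  exact (e1.mul e2).contDiffOn.mul h1

/-! ### second derivatives -/

theorem deriv_comp_mul_right' (f : ℝ → ℝ) (e y : ℝ) :
    deriv (fun y => f (y * e)) y = e * deriv f (y * e) := by
  have := deriv_comp_mul_left e f y
  simpa [mul_comm, smul_eq_mul] using this

theorem deriv2_scale (f : ℝ → ℝ) (c e y : ℝ) :
    deriv (deriv (fun y => c * f (y * e))) y = c * e ^ 2 * deriv (deriv f) (y * e) := by
  have h1 : ∀ (F : ℝ → ℝ) (c y : ℝ), deriv (fun y => c * F (y * e)) y = c * e * deriv F (y * e) := by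
    intro F c y
    rw [deriv_const_mul_field, deriv_comp_mul_right']
    ring
  have h2 : deriv (fun y => c * f (y * e)) = fun y => (c * e) * deriv f (y * e) :=
    funext (fun y => h1 f c y)
  rw [h2, h1]
  ring

theorem dx_eq_deriv' {u : ℝ → ℝ → ℝ} {τ x : ℝ} (hx : x ∈ Ioo 0 L) : dx L u τ x = deriv (u τ) x :=
  dx_eq_deriv hx

theorem dxx_eq {u : ℝ → ℝ → ℝ} {τ x : ℝ} (hx : x ∈ Ioo 0 L) :
    dx L (dx L u) τ x = deriv (deriv (u τ)) x := by
  rw [dx_eq_deriv hx]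
  apply Filter.EventuallyEq.deriv_eq
  filter_upwards [Ioo_mem_nhds hx.1 hx.2] with z hz
  exact dx_eq_deriv hz

theorem Pf_yy (s y : ℝ) : deriv (deriv (Pf κ ψ s)) y =
    Real.exp (-(65 / 2 - κ) * s) * Real.exp (-s / 2) ^ 2 *
      deriv (deriv (ψ (Real.exp (-s)))) (y * Real.exp (-s / 2)) :=
  deriv2_scale (ψ (Real.exp (-s))) _ _ _

theorem Pf_y (s y : ℝ) : deriv (Pf κ ψ s) y =
    Real.exp (-(65 / 2 - κ) * s) * Real.exp (-s / 2) *
      deriv (ψ (Real.exp (-s))) (y * Real.exp (-s / 2)) := by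
  show deriv (fun y => Real.exp (-(65 / 2 - κ) * s) * ψ (Real.exp (-s)) (y * Real.exp (-s / 2))) y = _
  rw [deriv_const_mul_field, deriv_comp_mul_right' (ψ (Real.exp (-s))) (Real.exp (-s / 2)) y]
  ring

theorem Uf_yy (s y : ℝ) :
    deriv (deriv (Uf κ L θ V (Real.exp (-s)))) (y * Real.exp (-s / 2)) =
      Real.exp (-(55 / 2 - κ) * s) * (Real.exp (-s / 2) ^ 2)⁻¹ *
        deriv (deriv (Vc L θ V s)) y := by
  have h1 : Uf κ L θ V (Real.exp (-s)) = fun x => Real.exp (-(55 / 2 - κ) * s) *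
      Vc L θ V s (x * (Real.exp (-s / 2))⁻¹) := by
    funext x
    rw [Uf_eq (Real.exp_pos _), Real.log_exp, neg_neg, CoV.sqrt_exp, ← Real.exp_mul]
    congr 2
    ring
  rw [h1, deriv2_scale, mul_assoc y, mul_inv_cancel₀ (Real.exp_pos _).ne', mul_one, inv_pow]

/-- chain rule in `s` -/
theorem Pf_s (hL : 0 < L) (hψ : Sm (Ioo 0 1) L ψ) {s y : ℝ} (hs : 0 < s)
    (hy : y * Real.exp (-s / 2) ∈ Ioo 0 L) :
    deriv (fun r => Pf κ ψ r y) s = -(65 / 2 - κ) * Pf κ ψ s y -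
      Real.exp (-(65 / 2 - κ) * s) * (Real.exp (-s) * dt ψ (Real.exp (-s)) (y * Real.exp (-s / 2)) +
        y / 2 * Real.exp (-s / 2) * dx L ψ (Real.exp (-s)) (y * Real.exp (-s / 2))) := by
  have hτ : Real.exp (-s) ∈ Ioo (0 : ℝ) 1 :=
    ⟨Real.exp_pos _, by rw [← Real.exp_zero]; exact Real.exp_lt_exp.2 (by linarith)⟩
  have e1 : HasDerivAt (fun r : ℝ => Real.exp (-r)) (-Real.exp (-s)) s := by
    simpa using (hasDerivAt_neg s).exp
  have e2 : HasDerivAt (fun r : ℝ => y * Real.exp (-r / 2)) (-(y / 2 * Real.exp (-s / 2))) s := by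
    have e1 : HasDerivAt (fun r : ℝ => Real.exp (-r / 2)) (Real.exp (-s / 2) * (-1 / 2)) s :=
      ((hasDerivAt_neg s).div_const 2).exp
    refine (e1.const_mul y).congr_deriv ?_
    ring
  have hA : {r : ℝ | Real.exp (-r) ∈ Ioo (0 : ℝ) 1 ∧ y * Real.exp (-r / 2) ∈ Ioo 0 L} ∈ 𝓝 s := by
    have c1 : ContinuousAt (fun r : ℝ => Real.exp (-r)) s := e1.continuousAt
    have c2 : ContinuousAt (fun r : ℝ => y * Real.exp (-r / 2)) s := e2.continuousAt
    filter_upwards [c1.preimage_mem_nhds (Ioo_mem_nhds hτ.1 hτ.2),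
      c2.preimage_mem_nhds (Ioo_mem_nhds hy.1 hy.2)] with r h1 h2
    exact ⟨h1, h2⟩
  have e3 : HasDerivAt (fun r => ψ (Real.exp (-r)) (y * Real.exp (-r / 2)))
      (-Real.exp (-s) * dt ψ (Real.exp (-s)) (y * Real.exp (-s / 2)) +
        -(y / 2 * Real.exp (-s / 2)) * dx L ψ (Real.exp (-s)) (y * Real.exp (-s / 2))) s := by
    have := Sm.hasDerivWithinAt_comp2 (a := fun r => Real.exp (-r))
      (b := fun r => y * Real.exp (-r / 2)) isOpen_Ioo hL hψ e1.hasDerivWithinAt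
      e2.hasDerivWithinAt (A := {r : ℝ | Real.exp (-r) ∈ Ioo (0 : ℝ) 1 ∧
        y * Real.exp (-r / 2) ∈ Ioo 0 L}) (fun z hz => hz.1)
      (fun z hz => Ioo_subset_Icc_self hz.2) ⟨hτ, hy⟩
    exact this.hasDerivAt hA
  have e4 : HasDerivAt (fun r : ℝ => Real.exp (-(65 / 2 - κ) * r))
      (Real.exp (-(65 / 2 - κ) * s) * -(65 / 2 - κ)) s := by
    simpa using ((hasDerivAt_id s).const_mul (-(65 / 2 - κ))).exp
  have e5 := e4.mul e3
  have e6 : deriv (fun r => Pf κ ψ r y) s = _ := e5.deriv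
  rw [e6]
  unfold Pf
  ring

end Crest.Agent.R213.A.Tr
end
end

-- ▼ part R213/A/Tr2
section

/-!
# Row 213, PART A: transfer, identities for the integrals (helper795)
-/

set_option autoImplicit false

open Set MeasureTheory Filter Topology

noncomputable section

namespace Crest.Agent.R213.A.Tr

variable {κ L : ℝ} {θ : ℝ → ℝ} {V ψ : ℝ → ℝ → ℝ}

/-- data of a test function supported in `x ≤ L/16` -/
structure Loc (L : ℝ) (ψ : ℝ → ℝ → ℝ) (a b : ℝ) : Prop where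
  Lpos : 0 < L
  sm : Sm (Ioo 0 1) L ψ
  a_pos : 0 < a
  ab : a < b
  b_lt : b < 1
  supp : ∀ τ x, τ ∉ Icc a b → ψ τ x = 0
  suppx : ∀ τ x, L / 16 ≤ x → ψ τ x = 0

variable {a b : ℝ}

/-- the open set where `P` vanishes -/
def ZZ (L a b : ℝ) : Set (ℝ × ℝ) :=
  {p | Real.exp (-p.1) ∉ Icc a b ∨ L / 16 < p.2 * Real.exp (-p.1 / 2)}

theorem isOpen_ZZ : IsOpen (ZZ L a b) := by
  have h1 : IsOpen {p : ℝ × ℝ | Real.exp (-p.1) ∉ Icc a b} := by
    have : Continuous (fun p : ℝ × ℝ => Real.exp (-p.1)) := by fun_prop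
    exact isClosed_Icc.isOpen_compl.preimage this
  have h2 : IsOpen {p : ℝ × ℝ | L / 16 < p.2 * Real.exp (-p.1 / 2)} := by
    have : Continuous (fun p : ℝ × ℝ => p.2 * Real.exp (-p.1 / 2)) := by fun_prop
    exact isOpen_lt continuous_const this
  exact h1.union h2

theorem Pf_zero (h : Loc L ψ a b) {s y : ℝ} (hz : (s, y) ∈ ZZ L a b) : Pf κ ψ s y = 0 := by
  unfold Pf
  rcases hz with h1 | h1
  · rw [h.supp _ _ h1, mul_zero]
  · rw [h.suppx _ _ h1.le, mul_zero]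

theorem Pf_s_zero (h : Loc L ψ a b) {s y : ℝ} (hz : (s, y) ∈ ZZ L a b) :
    deriv (fun r => Pf κ ψ r y) s = 0 := by
  have h1 : (fun r => Pf κ ψ r y) =ᶠ[𝓝 s] fun _ => 0 := by
    have hc : ContinuousAt (fun r : ℝ => (r, y)) s := by fun_prop
    filter_upwards [hc.preimage_mem_nhds (isOpen_ZZ.mem_nhds hz)] with r hr
    exact Pf_zero h hr
  rw [h1.deriv_eq]; simp

theorem Pf_ev_y (h : Loc L ψ a b) {s y : ℝ} (hz : (s, y) ∈ ZZ L a b) :
    (Pf κ ψ s) =ᶠ[𝓝 y] fun _ => 0 := by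
  have hc : ContinuousAt (fun r : ℝ => (s, r)) y := by fun_prop
  filter_upwards [hc.preimage_mem_nhds (isOpen_ZZ.mem_nhds hz)] with r hr
  exact Pf_zero h hr

theorem Pf_y_zero (h : Loc L ψ a b) {s y : ℝ} (hz : (s, y) ∈ ZZ L a b) :
    deriv (Pf κ ψ s) y = 0 := by
  rw [(Pf_ev_y h hz).deriv_eq]; simp

theorem Pf_yy_zero (h : Loc L ψ a b) {s y : ℝ} (hz : (s, y) ∈ ZZ L a b) :
    deriv (deriv (Pf κ ψ s)) y = 0 := by
  have h1 : deriv (Pf κ ψ s) =ᶠ[𝓝 y] deriv (fun _ => 0) := (Pf_ev_y h hz).deriv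
  rw [h1.deriv_eq]; simp

/-- `ψ` vanishes near points with `x > L/16` -/
theorem psi_dt_zero (h : Loc L ψ a b) {τ x : ℝ} (hx : τ ∉ Icc a b ∨ L / 16 < x) :
    dt ψ τ x = 0 := by
  rcases hx with h1 | h1
  · exact Kit.dt_zero_of h.supp h1 x
  · unfold dt
    have : (fun r => ψ r x) = fun _ => 0 := funext (fun r => h.suppx r x h1.le)
    rw [this]; simp

theorem psi_xx_zero (h : Loc L ψ a b) {τ x : ℝ} (hx : τ ∉ Icc a b ∨ L / 16 < x) :
    deriv (deriv (ψ τ)) x = 0 := by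
  rcases hx with h1 | h1
  · have : ψ τ = fun _ => 0 := funext (fun y => h.supp τ y h1)
    rw [this]; simp
  · have h2 : ψ τ =ᶠ[𝓝 x] fun _ => 0 := by
      filter_upwards [Ioi_mem_nhds h1] with z hz
      exact h.suppx τ z (le_of_lt hz)
    have h3 : deriv (ψ τ) =ᶠ[𝓝 x] deriv (fun _ => 0) := h2.deriv
    rw [h3.deriv_eq]; simp

/-- points outside `Om` with `y > 0` are in `ZZ` -/
theorem ZZ_of_not_Om (h : Loc L ψ a b) {p : ℝ × ℝ} (hy : 0 < p.2) (hp : p ∉ CoV.Om L) :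
    p ∈ ZZ L a b := by
  by_contra hz
  unfold ZZ at hz
  simp only [Set.mem_ofPred_eq, not_or, not_not, not_lt] at hz
  apply hp
  refine ⟨?_, hy, ?_⟩
  · have h1 : Real.exp (-p.1) < Real.exp 0 := by
      rw [Real.exp_zero]; exact hz.1.2.trans_lt h.b_lt
    have := Real.exp_lt_exp.1 h1
    linarith
  · have := h.Lpos
    linarith [hz.2]

/-- powers of `E = e^{-s/2}` -/
theorem expE (s : ℝ) (n : ℕ) : Real.exp (-s / 2) ^ n = Real.exp (-(n / 2) * s) := by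
  rw [← Real.exp_nat_mul]; congr 1; ring

theorem exp_s (s : ℝ) : Real.exp (-s) = Real.exp (-s / 2) ^ 2 := by
  rw [expE]; congr 1; push_cast; ring

theorem exp_32 (s : ℝ) : Real.exp (-(3 / 2) * s) = Real.exp (-s / 2) ^ 3 := by
  rw [expE]; congr 1

theorem exp_65 (s : ℝ) : Real.exp (-(65 / 2 - κ) * s) = Real.exp (-s / 2) ^ 65 * Real.exp (κ * s) := by
  rw [expE, ← Real.exp_add]; congr 1; push_cast; ring

theorem exp_55 (s : ℝ) : Real.exp (-(55 / 2 - κ) * s) = Real.exp (-s / 2) ^ 55 * Real.exp (κ * s) := by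
  rw [expE, ← Real.exp_add]; congr 1; push_cast; ring

theorem exp_rpow (s : ℝ) : Real.exp (-s) ^ (2 * κ) = (Real.exp (κ * s) ^ 2)⁻¹ := by
  rw [← Real.exp_mul, ← Real.exp_nat_mul, ← Real.exp_neg]; congr 1; push_cast; ring

theorem Wt_TT (s y : ℝ) : Wt κ (Real.exp (-s)) (y * Real.exp (-s / 2)) =
    (Real.exp (κ * s) ^ 2)⁻¹ / (Real.exp (-s / 2) ^ 120 * w60 y) := by
  unfold Wt w60
  have h1 : (y * Real.exp (-s / 2)) ^ 2 + Real.exp (-s) = Real.exp (-s / 2) ^ 2 * (1 + y ^ 2) := by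
    rw [exp_s]; ring
  rw [exp_rpow, h1, mul_pow, ← pow_mul]

section bg

variable {c0 C0 : ℝ} {g : ℝ → ℝ} {φ m : ℝ → ℝ → ℝ}

theorem phi_TT (hB : Bg c0 C0 g L φ m) {s y : ℝ} (hs : 0 < s) (hy : 0 < y)
    (hx : y * Real.exp (-s / 2) ≤ L / 8) :
    φ (Real.exp (-s)) (y * Real.exp (-s / 2)) = y * g y * Real.exp (-s / 2) := by
  have hE := Real.exp_pos (-s / 2)
  rw [hB.inner (Real.exp (-s)) ⟨Real.exp_pos _, by
    rw [← Real.exp_zero]; exact Real.exp_lt_exp.2 (by linarith)⟩ _ ⟨by positivity, hx⟩,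
    CoV.sqrt_exp, mul_div_assoc, div_self hE.ne', mul_one]
  ring


/-- pointwise identity for the form -/
theorem BB_point (hB : Bg c0 C0 g L φ m) (h : Loc L ψ a b) (hθ1 : ∀ τ ∈ Icc a b, θ τ = 1)
    {s y : ℝ} (hp : (s, y) ∈ CoV.Om L) :
    Real.exp (-(3 / 2) * s) * ((y * Real.exp (-s / 2)) ^ 9 *
      (dt ψ (Real.exp (-s)) (y * Real.exp (-s / 2)) *
          Uf κ L θ V (Real.exp (-s)) (y * Real.exp (-s / 2)) +
        φ (Real.exp (-s)) (y * Real.exp (-s / 2)) ^ 2 *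
          dx L (dx L ψ) (Real.exp (-s)) (y * Real.exp (-s / 2)) *
          dx L (dx L (Uf κ L θ V)) (Real.exp (-s)) (y * Real.exp (-s / 2)))) =
    y ^ 9 * (V s y * (-(deriv (fun r => Pf κ ψ r y) s) - (65 / 2 - κ) * Pf κ ψ s y
        - y / 2 * deriv (Pf κ ψ s) y) +
      (y * g y) ^ 2 * deriv (deriv (V s)) y * deriv (deriv (Pf κ ψ s)) y) := by
  obtain ⟨hs, hy, hx⟩ := hp
  have hx' : y * Real.exp (-s / 2) ∈ Ioo 0 L := ⟨by have := hy; positivity, hx⟩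
  simp only at hs hy hx
  rw [dxx_eq hx', dxx_eq hx', Pf_s h.Lpos h.sm hs hx', Pf_y, Pf_yy, dx_eq_deriv' hx']
  by_cases hc : Real.exp (-s) ∉ Icc a b ∨ L / 16 < y * Real.exp (-s / 2)
  · rw [psi_dt_zero h hc, psi_xx_zero h hc]
    ring
  · rw [not_or, not_not, not_lt] at hc
    have hL := h.Lpos
    have hchi : ∀ᶠ z in 𝓝 y, Vc L θ V s z = V s z := by
      have hcont : ContinuousAt (fun z : ℝ => z * Real.exp (-s / 2) / L) y := by fun_prop
      have hlt : y * Real.exp (-s / 2) / L < 3 / 32 := by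
        rw [div_lt_iff₀ hL]; linarith [hc.2]
      filter_upwards [hcont.preimage_mem_nhds (Iio_mem_nhds hlt)] with z hz
      unfold Vc
      rw [hθ1 _ hc.1, chi_one (le_of_lt hz), one_mul, one_mul]
    have e1 : Vc L θ V s y = V s y := hchi.self_of_nhds
    have e2 : deriv (deriv (Vc L θ V s)) y = deriv (deriv (V s)) y := by
      have : Vc L θ V s =ᶠ[𝓝 y] V s := hchi
      exact this.deriv.deriv_eq
    rw [Uf_exp, Uf_yy, e1, e2, phi_TT hB hs hy (by linarith [hc.2]), exp_32, exp_65, exp_55,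
      exp_s]
    have hE := (Real.exp_pos (-s / 2)).ne'
    generalize Real.exp (-s / 2) = E at *
    unfold Pf
    field_simp
    ring

theorem w60_pos (y : ℝ) : 0 < w60 y := by unfold w60; positivity

/-- pointwise identity for the `Y` norm -/
theorem nY_point (hB : Bg c0 C0 g L φ m) (h : Loc L ψ a b) {s y : ℝ} (hp : (s, y) ∈ CoV.Om L) :
    Real.exp (-(3 / 2) * s) * ((y * Real.exp (-s / 2)) ^ 9 *
      ((φ (Real.exp (-s)) (y * Real.exp (-s / 2)) *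
          dx L (dx L ψ) (Real.exp (-s)) (y * Real.exp (-s / 2))) ^ 2 /
            Wt κ (Real.exp (-s)) (y * Real.exp (-s / 2)) +
        ψ (Real.exp (-s)) (y * Real.exp (-s / 2)) ^ 2 /
          (Real.exp (-s) * Wt κ (Real.exp (-s)) (y * Real.exp (-s / 2))))) =
    y ^ 9 * w60 y * ((y * g y) ^ 2 * deriv (deriv (Pf κ ψ s)) y ^ 2 + Pf κ ψ s y ^ 2) := by
  obtain ⟨hs, hy, hx⟩ := hp
  have hx' : y * Real.exp (-s / 2) ∈ Ioo 0 L := ⟨by have := hy; positivity, hx⟩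
  simp only at hs hy hx
  rw [dxx_eq hx', Pf_yy]
  by_cases hc : Real.exp (-s) ∉ Icc a b ∨ L / 16 < y * Real.exp (-s / 2)
  · have h0 : ψ (Real.exp (-s)) (y * Real.exp (-s / 2)) = 0 := by
      rcases hc with h1 | h1
      · exact h.supp _ _ h1
      · exact h.suppx _ _ h1.le
    rw [psi_xx_zero h hc]
    unfold Pf
    rw [h0]
    ring
  · rw [not_or, not_not, not_lt] at hc
    have hL := h.Lpos
    rw [phi_TT hB hs hy (by linarith [hc.2]), Wt_TT, exp_32, exp_65]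
    unfold Pf
    rw [exp_65]
    have hE := (Real.exp_pos (-s / 2)).ne'
    have hK := (Real.exp_pos (κ * s)).ne'
    have hw := (w60_pos y).ne'
    rw [exp_s s]
    generalize Real.exp (-s / 2) = E at *
    generalize Real.exp (κ * s) = K at *
    generalize w60 y = w at *
    field_simp

/-- pointwise identity for the `X` norm -/
theorem nX_point (hB : Bg c0 C0 g L φ m) {s y : ℝ} (hp : (s, y) ∈ CoV.Om L) :
    Real.exp (-(3 / 2) * s) * ((y * Real.exp (-s / 2)) ^ 9 *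
      (Wt κ (Real.exp (-s)) (y * Real.exp (-s / 2)) * (φ (Real.exp (-s)) (y * Real.exp (-s / 2)) *
          dx L (dx L (Uf κ L θ V)) (Real.exp (-s)) (y * Real.exp (-s / 2))) ^ 2 +
        Wt κ (Real.exp (-s)) (y * Real.exp (-s / 2)) / Real.exp (-s) *
          Uf κ L θ V (Real.exp (-s)) (y * Real.exp (-s / 2)) ^ 2)) =
    y ^ 9 / w60 y * ((y * g y) ^ 2 * deriv (deriv (Vc L θ V s)) y ^ 2 + Vc L θ V s y ^ 2) := by
  obtain ⟨hs, hy, hx⟩ := hp
  have hx' : y * Real.exp (-s / 2) ∈ Ioo 0 L := ⟨by have := hy; positivity, hx⟩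
  simp only at hs hy hx
  have hL : 0 < L := lt_trans hx'.1 hx'.2
  rw [dxx_eq hx', Uf_exp, Uf_yy]
  have hE := (Real.exp_pos (-s / 2)).ne'
  have hK := (Real.exp_pos (κ * s)).ne'
  have hw := (w60_pos y).ne'
  by_cases hc : L / 8 < y * Real.exp (-s / 2)
  · have h0 : ∀ᶠ z in 𝓝 y, Vc L θ V s z = 0 := by
      have hcont : ContinuousAt (fun z : ℝ => z * Real.exp (-s / 2) / L) y := by fun_prop
      have hlt : 1 / 8 < y * Real.exp (-s / 2) / L := by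
        rw [lt_div_iff₀ hL]; linarith [hc]
      filter_upwards [hcont.preimage_mem_nhds (Ioi_mem_nhds hlt)] with z hz
      unfold Vc
      rw [chi_zero (le_of_lt hz)]
      ring
    have e1 : Vc L θ V s y = 0 := h0.self_of_nhds
    have e2 : deriv (deriv (Vc L θ V s)) y = 0 := by
      have : Vc L θ V s =ᶠ[𝓝 y] fun _ => 0 := h0
      have h3 : deriv (Vc L θ V s) =ᶠ[𝓝 y] deriv (fun _ => 0) := this.deriv
      rw [h3.deriv_eq]; simp
    rw [e1, e2]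
    ring
  · rw [not_lt] at hc
    rw [phi_TT hB hs hy hc, Wt_TT, exp_32, exp_55, exp_s s]
    generalize Real.exp (-s / 2) = E at *
    generalize Real.exp (κ * s) = K at *
    generalize w60 y = w at *
    field_simp

end bg

end Crest.Agent.R213.A.Tr
end
end

-- ▼ part R213/A/Tr3
section

/-!
# Row 213, PART A: one-dimensional cut-off lemma (helper795)
-/

set_option autoImplicit false

open Set MeasureTheory Filter Topology

noncomputable section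

namespace Crest.Agent.R213.A.Tr

/-! ### real functions on `[0,∞)` -/

/-- one-sided smooth real function with bounded support: derivatives as continuous functions -/
theorem exists_derivs {f : ℝ → ℝ} (hf : ContDiffOn ℝ (⊤ : ℕ∞) f (Ici 0)) :
    ∃ f1 f2 : ℝ → ℝ, ContinuousOn f1 (Ici 0) ∧ ContinuousOn f2 (Ici 0) ∧
      (∀ y, 0 < y → HasDerivAt f (f1 y) y) ∧ (∀ y, 0 < y → HasDerivAt f1 (f2 y) y) := by
  have hU : UniqueDiffOn ℝ (Ici (0 : ℝ)) := uniqueDiffOn_Ici 0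
  have h1 : ContDiffOn ℝ (⊤ : ℕ∞) (derivWithin f (Ici 0)) (Ici 0) := hf.derivWithin hU (by simp)
  have h2 : ContDiffOn ℝ (⊤ : ℕ∞) (derivWithin (derivWithin f (Ici 0)) (Ici 0)) (Ici 0) :=
    h1.derivWithin hU (by simp)
  refine ⟨derivWithin f (Ici 0), derivWithin (derivWithin f (Ici 0)) (Ici 0), h1.continuousOn,
    h2.continuousOn, ?_, ?_⟩
  · intro y hy
    exact ((hf.differentiableOn (by simp)) y hy.le).hasDerivWithinAt.hasDerivAt (Ici_mem_nhds hy)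
  · intro y hy
    exact ((h1.differentiableOn (by simp)) y hy.le).hasDerivWithinAt.hasDerivAt (Ici_mem_nhds hy)

theorem integrable_Ioi {h : ℝ → ℝ} (hc : ContinuousOn h (Ici 0)) {R : ℝ}
    (hR : ∀ y, R ≤ y → h y = 0) : IntegrableOn h (Ioi 0) := by
  have h1 : IntegrableOn h (Icc 0 R) :=
    (hc.mono (fun y hy => hy.1)).integrableOn_compact isCompact_Icc
  refine h1.of_forall_sdiff_eq_zero measurableSet_Ioi ?_
  rintro y ⟨hy, hy'⟩
  apply hR
  by_contra h2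
  exact hy' ⟨le_of_lt hy, (not_le.1 h2).le⟩


theorem deriv2_eq_of_pos {f f1 f2 : ℝ → ℝ} (h1 : ∀ y, 0 < y → HasDerivAt f (f1 y) y)
    (h2 : ∀ y, 0 < y → HasDerivAt f1 (f2 y) y) {y : ℝ} (hy : 0 < y) :
    deriv (deriv f) y = f2 y := by
  have : deriv f =ᶠ[𝓝 y] f1 := by
    filter_upwards [Ioi_mem_nhds hy] with z hz
    exact (h1 z hz).deriv
  rw [this.deriv_eq]
  exact (h2 y hy).deriv

/-- complexification -/
theorem derivC {f f1 : ℝ → ℝ} (h1 : ∀ y, 0 < y → HasDerivAt f (f1 y) y) {y : ℝ} (hy : 0 < y) :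
    deriv (fun z => (f z : ℂ)) y = (f1 y : ℂ) := ((h1 y hy).ofReal_comp).deriv

theorem deriv2C {f f1 f2 : ℝ → ℝ} (h1 : ∀ y, 0 < y → HasDerivAt f (f1 y) y)
    (h2 : ∀ y, 0 < y → HasDerivAt f1 (f2 y) y) {y : ℝ} (hy : 0 < y) :
    deriv (deriv (fun z => (f z : ℂ))) y = (f2 y : ℂ) := by
  have : deriv (fun z => (f z : ℂ)) =ᶠ[𝓝 y] fun z => (f1 z : ℂ) := by
    filter_upwards [Ioi_mem_nhds hy] with z hz
    exact derivC h1 hz
  rw [this.deriv_eq]
  exact ((h2 y hy).ofReal_comp).deriv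

theorem contDiffOn_ofReal {f : ℝ → ℝ} {s : Set ℝ} (hf : ContDiffOn ℝ (⊤ : ℕ∞) f s) :
    ContDiffOn ℝ (⊤ : ℕ∞) (fun z => (f z : ℂ)) s :=
  Complex.ofRealCLM.contDiff.comp_contDiffOn hf

/-- `f` vanishes for `y ≥ R` ⟹ so do the derivatives (for `y > R`) -/
theorem derivs_zero {f f1 : ℝ → ℝ} (h1 : ∀ y, 0 < y → HasDerivAt f (f1 y) y) {R : ℝ}
    (hR : ∀ y, R ≤ y → f y = 0) {y : ℝ} (hy : 0 < y) (hy' : R < y) : f1 y = 0 := by
  rw [← (h1 y hy).deriv]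
  have : f =ᶠ[𝓝 y] fun _ => 0 := by
    filter_upwards [Ioi_mem_nhds hy'] with z hz
    exact hR z (le_of_lt hz)
  rw [this.deriv_eq]; simp

/-- the weight `y⁹ (1+y²)^{-60}` -/
theorem cont_w : Continuous (fun y : ℝ => y ^ 9 / w60 y) := by
  unfold w60
  exact (continuous_pow 9).div (by fun_prop) (fun y => by positivity)

variable {c0 C0 : ℝ} {g : ℝ → ℝ}

/-- statement of `st_interpX` with `ε = 1` -/
def IX (g : ℝ → ℝ) (K : ℝ) : Prop := 0 ≤ K ∧ ∀ P, DD P →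
      ∫ y in Ioi (0 : ℝ), y ^ 9 / w60 y * ((y * g y) ^ 2 / (1 + y ^ 2)) * ‖deriv P y‖ ^ 2 ≤
        1 * (∫ y in Ioi (0 : ℝ), y ^ 9 / w60 y * (y * g y) ^ 2 * ‖deriv (deriv P) y‖ ^ 2) +
          K * ∫ y in Ioi (0 : ℝ), y ^ 9 / w60 y / (1 + y ^ 2) * ‖P y‖ ^ 2

set_option maxHeartbeats 1000000 in
theorem cut1D (hg : Prof c0 C0 g) {K : ℝ} (hK : IX g K) {M1 M2 : ℝ} (hM1 : 0 ≤ M1) (hM2 : 0 ≤ M2)
    {f ζ : ℝ → ℝ} (hf : ContDiffOn ℝ (⊤ : ℕ∞) f (Ici 0)) {R : ℝ} (hR : ∀ y, R ≤ y → f y = 0)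
    (hζ : ContDiff ℝ (⊤ : ℕ∞) ζ) (h0 : ∀ y, 0 < y → ζ y ^ 2 ≤ 1)
    (h1 : ∀ y, 0 < y → deriv ζ y ^ 2 * (1 + y ^ 2) ≤ M1)
    (h2 : ∀ y, 0 < y → (y * deriv (deriv ζ) y) ^ 2 ≤ M2) :
    ∫ y in Ioi (0 : ℝ), y ^ 9 / w60 y * ((y * g y) ^ 2 * deriv (deriv (fun z => ζ z * f z)) y ^ 2 +
        (ζ y * f y) ^ 2) ≤
      (4 + 12 * M1 * (1 + K) + 3 * C0 ^ 2 * M2) *
        ∫ y in Ioi (0 : ℝ), y ^ 9 / w60 y * ((y * g y) ^ 2 * deriv (deriv f) y ^ 2 + f y ^ 2) := by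
  obtain ⟨hK0, hK⟩ := hK
  obtain ⟨f1, f2, hc1, hc2, hd1, hd2⟩ := exists_derivs hf
  have hcf : ContinuousOn f (Ici 0) := hf.continuousOn
  have hcg : Continuous g := hg.smooth.continuous
  set R' := max R 0 + 1 with hR'
  have hR0 : 0 < R' := by positivity
  have hRR : R < R' := lt_of_le_of_lt (le_max_left _ _) (by linarith)
  have hz0 : ∀ y, R' ≤ y → f y = 0 := fun y hy => hR y (by linarith)
  have hz1 : ∀ y, R' ≤ y → f1 y = 0 := fun y hy => derivs_zero hd1 hR (by linarith) (by linarith)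
  have hz1' : ∀ y, max R 0 + 1 / 2 ≤ y → f1 y = 0 := fun y hy =>
    derivs_zero hd1 hR (by have := le_max_right R 0; linarith) (by have := le_max_left R 0; linarith)
  have hz2 : ∀ y, R' ≤ y → f2 y = 0 := fun y hy =>
    derivs_zero hd2 hz1' (by linarith) (by rw [hR'] at hy; linarith)
  have hw := cont_w
  -- the three basic integrals
  have iA : IntegrableOn (fun y => y ^ 9 / w60 y * (y * g y) ^ 2 * f2 y ^ 2) (Ioi 0) := by
    refine integrable_Ioi (R := R') ?_ (fun y hy => by rw [hz2 y hy]; ring)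
    exact ((hw.mul ((continuous_id.mul hcg).pow 2)).continuousOn).mul (hc2.pow 2)
  have iD : IntegrableOn (fun y => y ^ 9 / w60 y * ((y * g y) ^ 2 / (1 + y ^ 2)) * f1 y ^ 2)
      (Ioi 0) := by
    refine integrable_Ioi (R := R') ?_ (fun y hy => by rw [hz1 y hy]; ring)
    refine ContinuousOn.mul (Continuous.continuousOn ?_) (hc1.pow 2)
    exact hw.mul (((continuous_id.mul hcg).pow 2).div (by fun_prop) (fun y => by positivity))
  have iB : IntegrableOn (fun y => y ^ 9 / w60 y * f y ^ 2) (Ioi 0) := by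
    refine integrable_Ioi (R := R') ?_ (fun y hy => by rw [hz0 y hy]; ring)
    exact hw.continuousOn.mul (hcf.pow 2)
  have iB' : IntegrableOn (fun y => y ^ 9 / w60 y / (1 + y ^ 2) * f y ^ 2) (Ioi 0) := by
    refine integrable_Ioi (R := R') ?_ (fun y hy => by rw [hz0 y hy]; ring)
    refine ContinuousOn.mul (Continuous.continuousOn ?_) (hcf.pow 2)
    exact hw.div (by fun_prop) (fun y => by positivity)
  -- the interpolation inequality for the complexification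
  have hDD : DD (fun z => (f z : ℂ)) := ⟨contDiffOn_ofReal hf, R', fun y hy => by
    show (f y : ℂ) = 0
    rw [hz0 y hy]; simp⟩
  have hI := hK _ hDD
  have e1 : ∫ y in Ioi (0 : ℝ), y ^ 9 / w60 y * ((y * g y) ^ 2 / (1 + y ^ 2)) *
      ‖deriv (fun z => (f z : ℂ)) y‖ ^ 2 =
      ∫ y in Ioi (0 : ℝ), y ^ 9 / w60 y * ((y * g y) ^ 2 / (1 + y ^ 2)) * f1 y ^ 2 := by
    refine setIntegral_congr_fun measurableSet_Ioi (fun y hy => ?_)
    show _ * ‖deriv (fun z => (f z : ℂ)) y‖ ^ 2 = _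
    rw [derivC hd1 hy, Complex.norm_real, Real.norm_eq_abs, sq_abs]
  have e2 : ∫ y in Ioi (0 : ℝ), y ^ 9 / w60 y * (y * g y) ^ 2 *
      ‖deriv (deriv (fun z => (f z : ℂ))) y‖ ^ 2 =
      ∫ y in Ioi (0 : ℝ), y ^ 9 / w60 y * (y * g y) ^ 2 * f2 y ^ 2 := by
    refine setIntegral_congr_fun measurableSet_Ioi (fun y hy => ?_)
    show _ * ‖deriv (deriv (fun z => (f z : ℂ))) y‖ ^ 2 = _
    rw [deriv2C hd1 hd2 hy, Complex.norm_real, Real.norm_eq_abs, sq_abs]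
  have e3 : ∫ y in Ioi (0 : ℝ), y ^ 9 / w60 y / (1 + y ^ 2) * ‖(f y : ℂ)‖ ^ 2 =
      ∫ y in Ioi (0 : ℝ), y ^ 9 / w60 y / (1 + y ^ 2) * f y ^ 2 := by
    refine setIntegral_congr_fun measurableSet_Ioi (fun y hy => ?_)
    show _ * ‖(f y : ℂ)‖ ^ 2 = _
    rw [Complex.norm_real, Real.norm_eq_abs, sq_abs]
  rw [e1, e2, e3] at hI
  set A := ∫ y in Ioi (0 : ℝ), y ^ 9 / w60 y * (y * g y) ^ 2 * f2 y ^ 2 with hA
  set D := ∫ y in Ioi (0 : ℝ), y ^ 9 / w60 y * ((y * g y) ^ 2 / (1 + y ^ 2)) * f1 y ^ 2 with hD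
  set B := ∫ y in Ioi (0 : ℝ), y ^ 9 / w60 y * f y ^ 2 with hB
  set B' := ∫ y in Ioi (0 : ℝ), y ^ 9 / w60 y / (1 + y ^ 2) * f y ^ 2 with hB'
  have hwn : ∀ y, 0 < y → 0 ≤ y ^ 9 / w60 y := fun y hy => by
    have := w60_pos y; positivity
  have hBB : B' ≤ B := by
    refine setIntegral_mono_on iB' iB measurableSet_Ioi (fun y hy => ?_)
    have h3 := hwn y hy
    have h4 : y ^ 9 / w60 y / (1 + y ^ 2) ≤ y ^ 9 / w60 y :=
      div_le_self h3 (by nlinarith [sq_nonneg y])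
    exact mul_le_mul_of_nonneg_right h4 (sq_nonneg _)
  have hA0 : 0 ≤ A := setIntegral_nonneg measurableSet_Ioi (fun y hy => by
    have := hwn y hy; positivity)
  have hB0 : 0 ≤ B := setIntegral_nonneg measurableSet_Ioi (fun y hy => by
    have := hwn y hy; positivity)
  -- right side
  have hR1 : ∫ y in Ioi (0 : ℝ), y ^ 9 / w60 y * ((y * g y) ^ 2 * deriv (deriv f) y ^ 2 + f y ^ 2) =
      A + B := by
    rw [hA, hB, ← integral_add iA iB]
    refine setIntegral_congr_fun measurableSet_Ioi (fun y hy => ?_)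
    show _ * (_ * deriv (deriv f) y ^ 2 + _) = _
    rw [deriv2_eq_of_pos hd1 hd2 hy]
    ring
  -- left side
  have hζd : Differentiable ℝ ζ := hζ.differentiable (by simp)
  have hζ1 : ContDiff ℝ (⊤ : ℕ∞) (deriv ζ) := by
    have : ContDiff ℝ ((⊤ : ℕ∞) + 1) ζ := by simpa using hζ
    exact (contDiff_succ_iff_deriv.1 this).2.2
  have hζ1d : Differentiable ℝ (deriv ζ) := hζ1.differentiable (by simp)
  have hζ2 : ContDiff ℝ (⊤ : ℕ∞) (deriv (deriv ζ)) := by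
    have : ContDiff ℝ ((⊤ : ℕ∞) + 1) (deriv ζ) := by simpa using hζ1
    exact (contDiff_succ_iff_deriv.1 this).2.2
  have hp1 : ∀ y, 0 < y → HasDerivAt (fun z => ζ z * f z) (deriv ζ y * f y + ζ y * f1 y) y :=
    fun y hy => (hζd y).hasDerivAt.mul (hd1 y hy)
  have hp2 : ∀ y, 0 < y → HasDerivAt (fun z => deriv ζ z * f z + ζ z * f1 z)
      (deriv (deriv ζ) y * f y + deriv ζ y * f1 y + (deriv ζ y * f1 y + ζ y * f2 y)) y :=
    fun y hy => ((hζ1d y).hasDerivAt.mul (hd1 y hy)).add ((hζd y).hasDerivAt.mul (hd2 y hy))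
  have hL1 : ∫ y in Ioi (0 : ℝ), y ^ 9 / w60 y * ((y * g y) ^ 2 *
        deriv (deriv (fun z => ζ z * f z)) y ^ 2 + (ζ y * f y) ^ 2) =
      ∫ y in Ioi (0 : ℝ), y ^ 9 / w60 y * ((y * g y) ^ 2 *
        (deriv (deriv ζ) y * f y + 2 * (deriv ζ y * f1 y) + ζ y * f2 y) ^ 2 + (ζ y * f y) ^ 2) := by
    refine setIntegral_congr_fun measurableSet_Ioi (fun y hy => ?_)
    show _ * (_ * deriv (deriv (fun z => ζ z * f z)) y ^ 2 + _) = _
    rw [deriv2_eq_of_pos hp1 hp2 hy]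
    ring
  have iL : IntegrableOn (fun y => y ^ 9 / w60 y * ((y * g y) ^ 2 *
        (deriv (deriv ζ) y * f y + 2 * (deriv ζ y * f1 y) + ζ y * f2 y) ^ 2 + (ζ y * f y) ^ 2))
      (Ioi 0) := by
    refine integrable_Ioi (R := R') ?_ (fun y hy => by rw [hz0 y hy, hz1 y hy, hz2 y hy]; ring)
    refine hw.continuousOn.mul (ContinuousOn.add (ContinuousOn.mul
      ((continuous_id.mul hcg).pow 2).continuousOn (ContinuousOn.pow ?_ 2))
      ((hζ.continuous.continuousOn.mul hcf).pow 2))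
    exact ((hζ2.continuous.continuousOn.mul hcf).add
      (continuousOn_const.mul (hζ1.continuous.continuousOn.mul hc1))).add
      (hζ.continuous.continuousOn.mul hc2)
  rw [hL1, hR1]
  have hmain : ∫ y in Ioi (0 : ℝ), y ^ 9 / w60 y * ((y * g y) ^ 2 *
        (deriv (deriv ζ) y * f y + 2 * (deriv ζ y * f1 y) + ζ y * f2 y) ^ 2 + (ζ y * f y) ^ 2) ≤
      3 * A + 12 * M1 * D + (3 * C0 ^ 2 * M2 + 1) * B := by
    have jA := iA.const_mul 3
    have jD := iD.const_mul (12 * M1)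
    have jB := iB.const_mul (3 * C0 ^ 2 * M2 + 1)
    have jS : 3 * A + 12 * M1 * D + (3 * C0 ^ 2 * M2 + 1) * B =
        ∫ y in Ioi (0 : ℝ), (3 * (y ^ 9 / w60 y * (y * g y) ^ 2 * f2 y ^ 2) +
          12 * M1 * (y ^ 9 / w60 y * ((y * g y) ^ 2 / (1 + y ^ 2)) * f1 y ^ 2) +
          (3 * C0 ^ 2 * M2 + 1) * (y ^ 9 / w60 y * f y ^ 2)) := by
      rw [hA, hB, hD, ← integral_const_mul, ← integral_const_mul, ← integral_const_mul]
      have e5 := integral_add (jA.add jD) jB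
      have e6 := integral_add jA jD
      simp only [Pi.add_apply] at e5 e6
      rw [e5, e6]
    rw [jS]
    refine setIntegral_mono_on iL ((jA.add jD).add jB) measurableSet_Ioi (fun y hy => ?_)
    have hy0 : 0 < y := hy
    have h3 := hwn y hy0
    have hy1 : 0 < 1 + y ^ 2 := by positivity
    have hG : (y * g y) ^ 2 ≤ C0 ^ 2 * y ^ 2 := by
      have g0 : 0 ≤ g y := hg.c0_pos.le.trans (hg.lower y hy0.le)
      have g1 := hg.upper y hy0.le
      rw [mul_pow]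
      have : g y ^ 2 ≤ C0 ^ 2 := by gcongr
      nlinarith [sq_nonneg y]
    have k1 : (deriv (deriv ζ) y * f y + 2 * (deriv ζ y * f1 y) + ζ y * f2 y) ^ 2 ≤
        3 * (deriv (deriv ζ) y ^ 2 * f y ^ 2) + 12 * (deriv ζ y ^ 2 * f1 y ^ 2) +
          3 * (ζ y ^ 2 * f2 y ^ 2) := by
      nlinarith [sq_nonneg (deriv (deriv ζ) y * f y - 2 * (deriv ζ y * f1 y)),
        sq_nonneg (2 * (deriv ζ y * f1 y) - ζ y * f2 y),
        sq_nonneg (deriv (deriv ζ) y * f y - ζ y * f2 y)]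
    have k2 : (y * g y) ^ 2 * deriv (deriv ζ) y ^ 2 ≤ C0 ^ 2 * M2 := by
      calc (y * g y) ^ 2 * deriv (deriv ζ) y ^ 2 ≤ C0 ^ 2 * y ^ 2 * deriv (deriv ζ) y ^ 2 :=
            mul_le_mul_of_nonneg_right hG (sq_nonneg _)
        _ = C0 ^ 2 * (y * deriv (deriv ζ) y) ^ 2 := by ring
        _ ≤ C0 ^ 2 * M2 := mul_le_mul_of_nonneg_left (h2 y hy0) (sq_nonneg _)
    have k3 : (y * g y) ^ 2 * deriv ζ y ^ 2 ≤ M1 * ((y * g y) ^ 2 / (1 + y ^ 2)) := by
      have : deriv ζ y ^ 2 ≤ M1 / (1 + y ^ 2) := by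
        rw [le_div_iff₀ hy1]; exact h1 y hy0
      calc (y * g y) ^ 2 * deriv ζ y ^ 2 ≤ (y * g y) ^ 2 * (M1 / (1 + y ^ 2)) :=
            mul_le_mul_of_nonneg_left this (sq_nonneg _)
        _ = _ := by ring
    have k4 : (y * g y) ^ 2 * ζ y ^ 2 ≤ (y * g y) ^ 2 :=
      mul_le_of_le_one_right (sq_nonneg _) (h0 y hy0)
    have k5 : (ζ y * f y) ^ 2 ≤ f y ^ 2 := by
      rw [mul_pow]; exact mul_le_of_le_one_left (sq_nonneg _) (h0 y hy0)
    have k6 : (y * g y) ^ 2 * (deriv (deriv ζ) y * f y + 2 * (deriv ζ y * f1 y) + ζ y * f2 y) ^ 2 +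
        (ζ y * f y) ^ 2 ≤ 3 * ((y * g y) ^ 2 * f2 y ^ 2) +
          12 * M1 * (((y * g y) ^ 2 / (1 + y ^ 2)) * f1 y ^ 2) +
          (3 * C0 ^ 2 * M2 + 1) * f y ^ 2 := by
      have l1 := mul_le_mul_of_nonneg_left k1 (sq_nonneg (y * g y))
      have l2 := mul_le_mul_of_nonneg_right k2 (sq_nonneg (f y))
      have l3 := mul_le_mul_of_nonneg_right k3 (sq_nonneg (f1 y))
      have l4 := mul_le_mul_of_nonneg_right k4 (sq_nonneg (f2 y))
      have l5 : (y * g y) ^ 2 * (3 * (deriv (deriv ζ) y ^ 2 * f y ^ 2) +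
          12 * (deriv ζ y ^ 2 * f1 y ^ 2) + 3 * (ζ y ^ 2 * f2 y ^ 2)) =
          3 * ((y * g y) ^ 2 * deriv (deriv ζ) y ^ 2 * f y ^ 2) +
          12 * ((y * g y) ^ 2 * deriv ζ y ^ 2 * f1 y ^ 2) +
          3 * ((y * g y) ^ 2 * ζ y ^ 2 * f2 y ^ 2) := by ring
      have l6 : M1 * ((y * g y) ^ 2 / (1 + y ^ 2)) * f1 y ^ 2 =
          M1 * (((y * g y) ^ 2 / (1 + y ^ 2)) * f1 y ^ 2) := by ring
      have l7 : 12 * M1 * (((y * g y) ^ 2 / (1 + y ^ 2)) * f1 y ^ 2) =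
          12 * (M1 * (((y * g y) ^ 2 / (1 + y ^ 2)) * f1 y ^ 2)) := by ring
      have l8 : (3 * C0 ^ 2 * M2 + 1) * f y ^ 2 = 3 * (C0 ^ 2 * M2 * f y ^ 2) + f y ^ 2 := by ring
      rw [l5] at l1
      rw [l6] at l3
      rw [l7, l8]
      linarith
    calc y ^ 9 / w60 y * ((y * g y) ^ 2 *
        (deriv (deriv ζ) y * f y + 2 * (deriv ζ y * f1 y) + ζ y * f2 y) ^ 2 + (ζ y * f y) ^ 2)
        ≤ y ^ 9 / w60 y * (3 * ((y * g y) ^ 2 * f2 y ^ 2) +
          12 * M1 * (((y * g y) ^ 2 / (1 + y ^ 2)) * f1 y ^ 2) +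
          (3 * C0 ^ 2 * M2 + 1) * f y ^ 2) := mul_le_mul_of_nonneg_left k6 h3
      _ = _ := by ring
  refine hmain.trans ?_
  have hC2 : 0 ≤ C0 ^ 2 * M2 := by positivity
  have l1 : D ≤ A + K * B := by
    have : K * B' ≤ K * B := mul_le_mul_of_nonneg_left hBB hK0
    linarith
  have l2 := mul_le_mul_of_nonneg_left l1 hM1
  have l3 : 0 ≤ M1 * K * A := by positivity
  have l4 : 0 ≤ M1 * B := by positivity
  have l5 : 0 ≤ C0 ^ 2 * M2 * A := by positivity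
  nlinarith [l2, l3, l4, l5]

end Crest.Agent.R213.A.Tr
end
end

-- ▼ part R213/A/StKit
section

/-!
# Row 213, PART A: kit for the stationary (complex, one-variable) calculus on `[0,∞)`
-/

set_option autoImplicit false

open Set MeasureTheory Filter Topology

noncomputable section

namespace Crest.Agent.R213.A

/-- values, first and second derivatives of a test function: `P1, P2` continuous on `[0,∞)`. -/
structure DDJet (P P1 P2 : ℝ → ℂ) (R : ℝ) : Prop where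
  R_pos : 0 < R
  c0 : ContinuousOn P (Ici 0)
  c1 : ContinuousOn P1 (Ici 0)
  c2 : ContinuousOn P2 (Ici 0)
  d1 : ∀ y, 0 < y → HasDerivAt P (P1 y) y
  d2 : ∀ y, 0 < y → HasDerivAt P1 (P2 y) y
  e1 : ∀ y, 0 < y → deriv P y = P1 y
  e2 : ∀ y, 0 < y → deriv (deriv P) y = P2 y
  z0 : ∀ y, R ≤ y → P y = 0
  z1 : ∀ y, R ≤ y → P1 y = 0
  z2 : ∀ y, R ≤ y → P2 y = 0

theorem DD.jet {P : ℝ → ℂ} (hP : DD P) : ∃ P1 P2 R, DDJet P P1 P2 R := by
  obtain ⟨hs, R, hR⟩ := hP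
  have hu : UniqueDiffOn ℝ (Ici (0:ℝ)) := uniqueDiffOn_Ici 0
  have h1 : ContDiffOn ℝ (⊤ : ℕ∞) (derivWithin P (Ici 0)) (Ici 0) :=
    hs.derivWithin hu (by simp)
  have h2 : ContDiffOn ℝ (⊤ : ℕ∞) (derivWithin (derivWithin P (Ici 0)) (Ici 0)) (Ici 0) :=
    h1.derivWithin hu (by simp)
  have hd1 : ∀ y, 0 < y → HasDerivAt P (derivWithin P (Ici 0) y) y := by
    intro y hy
    have := (hs.differentiableOn (by simp) y hy.le).hasDerivWithinAt
    exact this.hasDerivAt (Ici_mem_nhds hy)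
  have hd2 : ∀ y, 0 < y → HasDerivAt (derivWithin P (Ici 0))
      (derivWithin (derivWithin P (Ici 0)) (Ici 0) y) y := by
    intro y hy
    have := (h1.differentiableOn (by simp) y hy.le).hasDerivWithinAt
    exact this.hasDerivAt (Ici_mem_nhds hy)
  have he1 : ∀ y, 0 < y → deriv P y = derivWithin P (Ici 0) y := fun y hy => (hd1 y hy).deriv
  have he2 : ∀ y, 0 < y → deriv (deriv P) y = derivWithin (derivWithin P (Ici 0)) (Ici 0) y := by
    intro y hy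
    have : deriv P =ᶠ[𝓝 y] derivWithin P (Ici 0) := by
      filter_upwards [Ioi_mem_nhds hy] with z hz using he1 z hz
    rw [this.deriv_eq]
    exact (hd2 y hy).deriv
  have hz0 : ∀ y, max R 1 < y → P y = 0 := fun y hy => hR y ((le_max_left _ _).trans hy.le)
  have hz1 : ∀ y, max R 1 < y → derivWithin P (Ici 0) y = 0 := by
    intro y hy
    have hy0 : 0 < y := lt_of_lt_of_le one_pos ((le_max_right _ _).trans hy.le)
    rw [← he1 y hy0]
    have : P =ᶠ[𝓝 y] fun _ => 0 := by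
      filter_upwards [Ioi_mem_nhds hy] with z hz using hz0 z hz
    rw [this.deriv_eq]; simp
  have hz2 : ∀ y, max R 1 < y → derivWithin (derivWithin P (Ici 0)) (Ici 0) y = 0 := by
    intro y hy
    have hy0 : 0 < y := lt_of_lt_of_le one_pos ((le_max_right _ _).trans hy.le)
    rw [← (hd2 y hy0).deriv]
    have : derivWithin P (Ici 0) =ᶠ[𝓝 y] fun _ => 0 := by
      filter_upwards [Ioi_mem_nhds hy] with z hz using hz1 z hz
    rw [this.deriv_eq]; simp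
  have hm : max R 1 < max R 1 + 1 := by linarith
  refine ⟨derivWithin P (Ici 0), derivWithin (derivWithin P (Ici 0)) (Ici 0), max R 1 + 1,
    ⟨by positivity, hs.continuousOn, h1.continuousOn, h2.continuousOn, hd1, hd2, he1, he2,
      fun y hy => hz0 y (hm.trans_le hy), fun y hy => hz1 y (hm.trans_le hy),
      fun y hy => hz2 y (hm.trans_le hy)⟩⟩

/-- continuous on `[0,∞)` and vanishing for large argument implies integrable. -/
theorem integrableOn_of_supp {E : Type*} [NormedAddCommGroup E] {f : ℝ → E} {R : ℝ}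
    (hf : ContinuousOn f (Ici 0)) (hz : ∀ y, R ≤ y → f y = 0) : IntegrableOn f (Ioi 0) := by
  have h1 : IntegrableOn f (Icc 0 (max R 0)) :=
    (hf.mono (fun x hx => hx.1)).integrableOn_Icc
  have h2 : IntegrableOn f (Ioi (max R 0)) := by
    refine (integrableOn_zero (μ := volume) (s := Ioi (max R 0))).congr_fun ?_ measurableSet_Ioi
    intro x hx
    exact (hz x ((le_max_left _ _).trans (le_of_lt hx))).symm
  have : Ioi (0:ℝ) ⊆ Icc 0 (max R 0) ∪ Ioi (max R 0) := by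
    intro x hx
    by_cases h : x ≤ max R 0
    · exact Or.inl ⟨le_of_lt hx, h⟩
    · exact Or.inr (not_le.mp h)
  exact (h1.union h2).mono_set this

/-- the integral of the derivative of a compactly supported function vanishing at `0` is `0`. -/
theorem integral_deriv_zero {F f : ℝ → ℝ} {R : ℝ} (hF : ContinuousOn F (Ici 0))
    (hf : ContinuousOn f (Ici 0)) (hd : ∀ y, 0 < y → HasDerivAt F (f y) y) (h0 : F 0 = 0)
    (hz : ∀ y, R ≤ y → F y = 0) (hz' : ∀ y, R ≤ y → f y = 0) :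
    ∫ y in Ioi (0:ℝ), f y = 0 := by
  set b := max R 0 with hb
  have hb0 : 0 ≤ b := le_max_right _ _
  have hi : IntegrableOn f (Ioi 0) := integrableOn_of_supp hf hz'
  have h1 : ∫ y in Ioi (0:ℝ), f y = ∫ y in (0:ℝ)..b, f y := by
    rw [intervalIntegral.integral_of_le hb0]
    rw [← setIntegral_eq_of_subset_of_forall_sdiff_eq_zero measurableSet_Ioi
      (s := Ioc 0 b) (fun x hx => hx.1)]
    intro x hx
    have : b < x := by
      by_contra h
      exact hx.2 ⟨hx.1, not_lt.mp h⟩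
    exact hz' x ((le_max_left _ _).trans this.le)
  rw [h1]
  have h2 := intervalIntegral.integral_eq_sub_of_hasDerivAt_of_le hb0
    (hF.mono (fun x hx => hx.1)) (fun x hx => hd x hx.1)
    ((hf.mono (by rw [uIcc_of_le hb0]; exact fun x hx => hx.1)).intervalIntegrable)
  rw [h2, h0, hz b (le_max_left _ _), sub_zero]

end Crest.Agent.R213.A
end
end

-- ▼ part R213/A/StInterp
section

/-!
# Row 213, PART A: static interpolation (`st_interpY`, `st_interpX`)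
-/

set_option autoImplicit false

open Set MeasureTheory Filter Topology

noncomputable section

namespace Crest.Agent.R213.A

/-- `Re(v̄ v')` has derivative `|v'|² + Re(v̄ v'')`. -/
theorem hasDerivAt_re_conj_mul {v v1 : ℝ → ℂ} {a b : ℂ} {y : ℝ} (h : HasDerivAt v a y)
    (h1 : HasDerivAt v1 b y) :
    HasDerivAt (fun x => (starRingEnd ℂ (v x) * v1 x).re)
      ((starRingEnd ℂ a * v1 y).re + (starRingEnd ℂ (v y) * b).re) y := by
  have hc : HasDerivAt (fun x => starRingEnd ℂ (v x)) (starRingEnd ℂ a) y :=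
    (Complex.conjCLE.toContinuousLinearMap.hasFDerivAt (x := v y)).comp_hasDerivAt y h
  have hm : HasDerivAt (fun x => starRingEnd ℂ (v x) * v1 x)
    (starRingEnd ℂ a * v1 y + starRingEnd ℂ (v y) * b) y := hc.mul h1
  have := (Complex.reCLM.hasFDerivAt (x := starRingEnd ℂ (v y) * v1 y)).comp_hasDerivAt y hm
  refine this.congr_deriv ?_
  simp only [Complex.reCLM_apply, Complex.add_re]

theorem re_conj_mul_le (a b : ℂ) : |(starRingEnd ℂ a * b).re| ≤ ‖a‖ * ‖b‖ := by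
  refine (Complex.abs_re_le_norm _).trans ?_
  rw [norm_mul, RCLike.norm_conj]

/-- the pointwise estimate behind the interpolation. -/
theorem interp_alg {a b c : ℂ} {p p1 q1 q2 K ε : ℝ} (hp : 0 ≤ p) (hq1 : 0 ≤ q1) (hq2 : 0 ≤ q2)
    (hK : 0 ≤ K) (hε : 0 < ε) (h12 : p ^ 2 ≤ q1 * q2) (h1 : p1 ^ 2 ≤ K * p * q1) :
    p * ‖b‖ ^ 2 ≤ ε * (q2 * ‖c‖ ^ 2) + (1 / ε + K) * (q1 * ‖a‖ ^ 2) +
      2 * (p1 * (starRingEnd ℂ a * b).re + p * ((starRingEnd ℂ b * b).re +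
        (starRingEnd ℂ a * c).re)) := by
  have hb : (starRingEnd ℂ b * b).re = ‖b‖ ^ 2 := by
    rw [← Complex.normSq_eq_conj_mul_self, Complex.ofReal_re, Complex.normSq_eq_norm_sq]
  rw [hb]
  have e1 := re_conj_mul_le a b
  have e2 := re_conj_mul_le a c
  set A := ‖a‖
  set B := ‖b‖
  set D := ‖c‖
  have hA : 0 ≤ A := norm_nonneg _
  have hB : 0 ≤ B := norm_nonneg _
  have hD : 0 ≤ D := norm_nonneg _
  -- -2 p1 Re ≤ 2 |p1| A B ≤ p B² + K q1 A²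
  have k1 : -(2 * (p1 * (starRingEnd ℂ a * b).re)) ≤ p * B ^ 2 + K * (q1 * A ^ 2) := by
    have h3 : |p1 * (starRingEnd ℂ a * b).re| ≤ |p1| * (A * B) := by
      rw [abs_mul]; gcongr
    have h4 : 2 * (|p1| * (A * B)) ≤ p * B ^ 2 + K * (q1 * A ^ 2) := by
      have h5 : (2 * (|p1| * (A * B))) ^ 2 ≤ (p * B ^ 2 + K * (q1 * A ^ 2)) ^ 2 := by
        have h6 : (|p1| * (A * B)) ^ 2 ≤ (p * B ^ 2) * (K * (q1 * A ^ 2)) := by
          have : (|p1| * (A * B)) ^ 2 = p1 ^ 2 * (A ^ 2 * B ^ 2) := by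
            rw [mul_pow, sq_abs]; ring
          rw [this]
          have : p1 ^ 2 * (A ^ 2 * B ^ 2) ≤ (K * p * q1) * (A ^ 2 * B ^ 2) := by gcongr
          linarith [this]
        nlinarith [sq_nonneg (p * B ^ 2 - K * (q1 * A ^ 2))]
      exact abs_le_of_sq_le_sq' h5 (by positivity) |>.2
    have := neg_abs_le (p1 * (starRingEnd ℂ a * b).re)
    linarith
  have k2 : -(2 * (p * (starRingEnd ℂ a * c).re)) ≤ ε * (q2 * D ^ 2) + 1 / ε * (q1 * A ^ 2) := by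
    have h3 : |p * (starRingEnd ℂ a * c).re| ≤ p * (A * D) := by
      rw [abs_mul, abs_of_nonneg hp]; gcongr
    have h4 : 2 * (p * (A * D)) ≤ ε * (q2 * D ^ 2) + 1 / ε * (q1 * A ^ 2) := by
      have h5 : (2 * (p * (A * D))) ^ 2 ≤ (ε * (q2 * D ^ 2) + 1 / ε * (q1 * A ^ 2)) ^ 2 := by
        have h6 : (p * (A * D)) ^ 2 ≤ (ε * (q2 * D ^ 2)) * (1 / ε * (q1 * A ^ 2)) := by
          have e : (ε * (q2 * D ^ 2)) * (1 / ε * (q1 * A ^ 2)) = (q1 * q2) * (A ^ 2 * D ^ 2) := by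
            field_simp
          rw [e]
          have : (p * (A * D)) ^ 2 = p ^ 2 * (A ^ 2 * D ^ 2) := by ring
          rw [this]
          gcongr
        nlinarith [sq_nonneg (ε * (q2 * D ^ 2) - 1 / ε * (q1 * A ^ 2))]
      exact abs_le_of_sq_le_sq' h5 (by positivity) |>.2
    have := neg_abs_le (p * (starRingEnd ℂ a * c).re)
    linarith
  linarith

/-- weighted interpolation on `[0,∞)`. -/
theorem interp_gen {P P1 P2 : ℝ → ℂ} {R : ℝ} (hP : DDJet P P1 P2 R) {p p1 q1 q2 : ℝ → ℝ}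
    (cp : ContinuousOn p (Ici 0)) (cp1 : ContinuousOn p1 (Ici 0)) (cq1 : ContinuousOn q1 (Ici 0))
    (cq2 : ContinuousOn q2 (Ici 0)) (hdp : ∀ y, 0 < y → HasDerivAt p (p1 y) y) (h0 : p 0 = 0)
    (hp : ∀ y, 0 < y → 0 ≤ p y) (hq1 : ∀ y, 0 < y → 0 ≤ q1 y) (hq2 : ∀ y, 0 < y → 0 ≤ q2 y)
    {K ε : ℝ} (hK : 0 ≤ K) (hε : 0 < ε)
    (h12 : ∀ y, 0 < y → p y ^ 2 ≤ q1 y * q2 y) (h1 : ∀ y, 0 < y → p1 y ^ 2 ≤ K * p y * q1 y) :
    ∫ y in Ioi (0 : ℝ), p y * ‖P1 y‖ ^ 2 ≤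
      ε * (∫ y in Ioi (0 : ℝ), q2 y * ‖P2 y‖ ^ 2) +
        (1 / ε + K) * ∫ y in Ioi (0 : ℝ), q1 y * ‖P y‖ ^ 2 := by
  have c0 := hP.c0
  have c1 := hP.c1
  have c2 := hP.c2
  set F : ℝ → ℝ := fun y => p y * (starRingEnd ℂ (P y) * P1 y).re with hF
  set f : ℝ → ℝ := fun y => p1 y * (starRingEnd ℂ (P y) * P1 y).re +
    p y * ((starRingEnd ℂ (P1 y) * P1 y).re + (starRingEnd ℂ (P y) * P2 y).re) with hf
  have cc : ContinuousOn (fun y => starRingEnd ℂ (P y)) (Ici 0) :=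
    Complex.continuous_conj.comp_continuousOn c0
  have cc1 : ContinuousOn (fun y => starRingEnd ℂ (P1 y)) (Ici 0) :=
    Complex.continuous_conj.comp_continuousOn c1
  have cF : ContinuousOn F (Ici 0) := cp.mul (Complex.continuous_re.comp_continuousOn (cc.mul c1))
  have cf : ContinuousOn f (Ici 0) :=
    (cp1.mul (Complex.continuous_re.comp_continuousOn (cc.mul c1))).add
      (cp.mul ((Complex.continuous_re.comp_continuousOn (cc1.mul c1)).add
        (Complex.continuous_re.comp_continuousOn (cc.mul c2))))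
  have hI : ∫ y in Ioi (0:ℝ), f y = 0 := by
    refine integral_deriv_zero (R := R) cF cf ?_ ?_ ?_ ?_
    · intro y hy
      exact (hdp y hy).mul (hasDerivAt_re_conj_mul (hP.d1 y hy) (hP.d2 y hy))
    · simp [hF, h0]
    · intro y hy; simp [hF, hP.z0 y hy]
    · intro y hy; simp [hf, hP.z0 y hy, hP.z1 y hy]
  have i1 : IntegrableOn (fun y => p y * ‖P1 y‖ ^ 2) (Ioi 0) :=
    integrableOn_of_supp (R := R) (cp.mul (c1.norm.pow 2)) (fun y hy => by simp [hP.z1 y hy])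
  have i2 : IntegrableOn (fun y => q2 y * ‖P2 y‖ ^ 2) (Ioi 0) :=
    integrableOn_of_supp (R := R) (cq2.mul (c2.norm.pow 2)) (fun y hy => by simp [hP.z2 y hy])
  have i3 : IntegrableOn (fun y => q1 y * ‖P y‖ ^ 2) (Ioi 0) :=
    integrableOn_of_supp (R := R) (cq1.mul (c0.norm.pow 2)) (fun y hy => by simp [hP.z0 y hy])
  have i4 : IntegrableOn f (Ioi 0) :=
    integrableOn_of_supp (R := R) cf (fun y hy => by simp [hf, hP.z0 y hy, hP.z1 y hy])
  have key : ∫ y in Ioi (0 : ℝ), p y * ‖P1 y‖ ^ 2 ≤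
      ∫ y in Ioi (0:ℝ), (ε * (q2 y * ‖P2 y‖ ^ 2) + (1 / ε + K) * (q1 y * ‖P y‖ ^ 2) + 2 * f y) := by
    refine setIntegral_mono_on i1 (((i2.const_mul ε).add (i3.const_mul _)).add (i4.const_mul 2))
      measurableSet_Ioi ?_
    intro y hy
    exact interp_alg (hp y hy) (hq1 y hy) (hq2 y hy) hK hε (h12 y hy) (h1 y hy)
  have e : ∫ y in Ioi (0:ℝ), (ε * (q2 y * ‖P2 y‖ ^ 2) + (1 / ε + K) * (q1 y * ‖P y‖ ^ 2) + 2 * f y)
      = ε * (∫ y in Ioi (0 : ℝ), q2 y * ‖P2 y‖ ^ 2) +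
        (1 / ε + K) * (∫ y in Ioi (0 : ℝ), q1 y * ‖P y‖ ^ 2) + 2 * ∫ y in Ioi (0:ℝ), f y := by
    have j1 : IntegrableOn (fun y => ε * (q2 y * ‖P2 y‖ ^ 2)) (Ioi 0) := i2.const_mul ε
    have j2 : IntegrableOn (fun y => (1 / ε + K) * (q1 y * ‖P y‖ ^ 2)) (Ioi 0) := i3.const_mul _
    have j3 : IntegrableOn (fun y => 2 * f y) (Ioi 0) := i4.const_mul 2
    have j12 : IntegrableOn (fun y => ε * (q2 y * ‖P2 y‖ ^ 2) + (1 / ε + K) * (q1 y * ‖P y‖ ^ 2))
      (Ioi 0) := j1.add j2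
    rw [integral_add j12 j3, integral_add j1 j2, integral_const_mul, integral_const_mul,
      integral_const_mul]
  rw [e, hI] at key
  linarith

/-! ### the profile -/

theorem Prof.gG {c0 C0 : ℝ} {g : ℝ → ℝ} (hg : Prof c0 C0 g) :
    ∃ G1 : ℝ → ℝ, Continuous G1 ∧ (∀ y, HasDerivAt (fun z => z * g z) (G1 y) y) ∧
      (∀ y, 0 ≤ y → |G1 y| ≤ C0) ∧ (∀ y, 0 ≤ y → 0 ≤ y * g y) ∧ (∀ y, 0 ≤ y → y * g y ≤ C0 * y) ∧
      0 < C0 := by
  have hs : ContDiff ℝ (⊤ : ℕ∞) (fun z => z * g z) := contDiff_id.mul hg.smooth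
  have h00 := hg.lower 0 le_rfl
  have h01 := hg.upper 0 le_rfl
  refine ⟨deriv (fun z => z * g z), hs.continuous_deriv (by simp), ?_, hg.dG, ?_, ?_, ?_⟩
  · intro y
    exact (hs.differentiable (by simp) y).hasDerivAt
  · intro y hy
    exact mul_nonneg hy (hg.c0_pos.le.trans (hg.lower y hy))
  · intro y hy
    rw [mul_comm C0]
    exact mul_le_mul_of_nonneg_left (hg.upper y hy) hy
  · linarith [hg.c0_pos]

/-- both static interpolation inequalities: `ω` is any weight with `|ω'| ≤ 120 y/(1+y²) ω`. -/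
theorem st_interp {c0 C0 : ℝ} {g : ℝ → ℝ} (hg : Prof c0 C0 g) {ω ω1 : ℝ → ℝ}
    (cω : Continuous ω) (cω1 : Continuous ω1) (hω : ∀ y, HasDerivAt ω (ω1 y) y)
    (hpos : ∀ y, 0 < ω y) (hb : ∀ y, 0 < y → |ω1 y| ≤ 120 * y / (1 + y ^ 2) * ω y)
    {ε : ℝ} (hε : 0 < ε) :
    ∃ K : ℝ, 0 ≤ K ∧ ∀ P, DD P →
      ∫ y in Ioi (0 : ℝ), y ^ 9 * ω y * ((y * g y) ^ 2 / (1 + y ^ 2)) * ‖deriv P y‖ ^ 2 ≤
        ε * (∫ y in Ioi (0 : ℝ), y ^ 9 * ω y * (y * g y) ^ 2 * ‖deriv (deriv P) y‖ ^ 2) +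
          K * ∫ y in Ioi (0 : ℝ), y ^ 9 * ω y / (1 + y ^ 2) * ‖P y‖ ^ 2 := by
  obtain ⟨G1, cG1, hG1, bG1, G0, GC, hC0⟩ := Prof.gG hg
  refine ⟨(1 / ε + 133 ^ 2) * C0 ^ 2, by positivity, ?_⟩
  intro P hP
  obtain ⟨P1, P2, R, hJ⟩ := hP.jet
  have cg : Continuous g := hg.smooth.continuous
  set G : ℝ → ℝ := fun z => z * g z with hGdef
  have cG : Continuous G := continuous_id.mul cg
  set p : ℝ → ℝ := fun y => y ^ 9 * ω y * (G y ^ 2 / (1 + y ^ 2)) with hp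
  set p1 : ℝ → ℝ := fun y => (9 * y ^ 8 * ω y + y ^ 9 * ω1 y) * (G y ^ 2 / (1 + y ^ 2)) +
    y ^ 9 * ω y * ((2 * G y * G1 y * (1 + y ^ 2) - G y ^ 2 * (2 * y)) / (1 + y ^ 2) ^ 2) with hp1
  set q1 : ℝ → ℝ := fun y => C0 ^ 2 * (y ^ 9 * ω y / (1 + y ^ 2)) with hq1
  set q2 : ℝ → ℝ := fun y => y ^ 9 * ω y * G y ^ 2 with hq2
  have hne : ∀ y : ℝ, 1 + y ^ 2 ≠ 0 := fun y => by positivity
  have hne' : ∀ y : ℝ, (1 + y ^ 2) ^ 2 ≠ 0 := fun y => by positivity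
  have cp : Continuous p := by
    simp only [hp]; fun_prop (disch := exact hne _)
  have cp1 : Continuous p1 := by
    simp only [hp1]; fun_prop (disch := first | exact hne _ | exact hne' _)
  have cq1 : Continuous q1 := by
    simp only [hq1]; fun_prop (disch := exact hne _)
  have cq2 : Continuous q2 := by
    simp only [hq2]; fun_prop
  have hdp : ∀ y, 0 < y → HasDerivAt p (p1 y) y := by
    intro y _
    have a1 : HasDerivAt (fun y : ℝ => y ^ 9) (9 * y ^ 8) y := by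
      simpa using hasDerivAt_pow 9 y
    have a2 : HasDerivAt (fun y : ℝ => 1 + y ^ 2) (2 * y) y := by
      have := (hasDerivAt_pow 2 y).const_add 1
      simpa using this
    have a3 : HasDerivAt (fun y => G y ^ 2) (2 * G y * G1 y) y := by
      have := (hG1 y).pow 2
      refine this.congr_deriv ?_
      push_cast; ring
    exact (a1.mul (hω y)).mul (a3.div a2 (hne y))
  have hGy : ∀ y, 0 < y → 0 ≤ G y ∧ G y ≤ C0 * y := fun y hy => ⟨G0 y hy.le, GC y hy.le⟩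
  have key := interp_gen hJ (K := 133 ^ 2) (ε := ε) cp.continuousOn cp1.continuousOn
    cq1.continuousOn cq2.continuousOn hdp (by simp [hp]) ?_ ?_ ?_ (by positivity) hε ?_ ?_
  · have l1 : ∫ y in Ioi (0 : ℝ), y ^ 9 * ω y * ((y * g y) ^ 2 / (1 + y ^ 2)) * ‖deriv P y‖ ^ 2 =
        ∫ y in Ioi (0 : ℝ), p y * ‖P1 y‖ ^ 2 := by
      refine setIntegral_congr_fun measurableSet_Ioi ?_
      intro y hy
      simp only [hp, hGdef, hJ.e1 y hy]
    have l2 : ∫ y in Ioi (0 : ℝ), y ^ 9 * ω y * (y * g y) ^ 2 * ‖deriv (deriv P) y‖ ^ 2 =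
        ∫ y in Ioi (0 : ℝ), q2 y * ‖P2 y‖ ^ 2 := by
      refine setIntegral_congr_fun measurableSet_Ioi ?_
      intro y hy
      simp only [hq2, hGdef, hJ.e2 y hy]
    have l3 : ∫ y in Ioi (0 : ℝ), q1 y * ‖P y‖ ^ 2 =
        C0 ^ 2 * ∫ y in Ioi (0 : ℝ), y ^ 9 * ω y / (1 + y ^ 2) * ‖P y‖ ^ 2 := by
      rw [← integral_const_mul]
      refine setIntegral_congr_fun measurableSet_Ioi ?_
      intro y _
      simp only [hq1]; ring
    rw [l1, l2]
    rw [l3] at key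
    calc _ ≤ _ := key
      _ = _ := by ring
  · intro y hy
    have := hpos y
    simp only [hp]; positivity
  · intro y hy
    have := hpos y
    simp only [hq1]; positivity
  · intro y hy
    have := hpos y
    simp only [hq2]; positivity
  · -- p² ≤ q1 q2
    intro y hy
    have hw := hpos y
    obtain ⟨g0, g1⟩ := hGy y hy
    have e : p y ^ 2 = (y ^ 9 * ω y) ^ 2 * (G y ^ 2 * (G y ^ 2 / (1 + y ^ 2) ^ 2)) := by
      simp only [hp]; field_simp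
    have e' : q1 y * q2 y = (y ^ 9 * ω y) ^ 2 * (G y ^ 2 * (C0 ^ 2 / (1 + y ^ 2))) := by
      simp only [hq1, hq2]; field_simp
    rw [e, e']
    have : G y ^ 2 / (1 + y ^ 2) ^ 2 ≤ C0 ^ 2 / (1 + y ^ 2) := by
      rw [div_le_div_iff₀ (by positivity) (by positivity)]
      have h2 : G y ^ 2 ≤ C0 ^ 2 * (1 + y ^ 2) := by
        have : G y ^ 2 ≤ (C0 * y) ^ 2 := by gcongr
        nlinarith [sq_nonneg C0]
      calc G y ^ 2 * (1 + y ^ 2) ≤ (C0 ^ 2 * (1 + y ^ 2)) * (1 + y ^ 2) := by gcongr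
        _ = _ := by ring
    gcongr
  · -- p1² ≤ 133² p q1
    intro y hy
    have hw := hpos y
    obtain ⟨g0, g1⟩ := hGy y hy
    have hb1 : |G1 y| ≤ C0 := bG1 y hy.le
    -- bound |p1| ≤ 133 C0 * y^9 ω G/(1+y²)
    have hp1b : |p1 y| ≤ 133 * C0 * (y ^ 9 * ω y * G y / (1 + y ^ 2)) := by
      have t1 : |9 * y ^ 8 * ω y * (G y ^ 2 / (1 + y ^ 2))| ≤
          9 * C0 * (y ^ 9 * ω y * G y / (1 + y ^ 2)) := by
        rw [abs_of_nonneg (by positivity)]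
        have : 9 * y ^ 8 * ω y * (G y ^ 2 / (1 + y ^ 2)) =
          9 * (y ^ 8 * ω y * G y / (1 + y ^ 2)) * G y := by ring
        rw [this]
        calc 9 * (y ^ 8 * ω y * G y / (1 + y ^ 2)) * G y ≤
            9 * (y ^ 8 * ω y * G y / (1 + y ^ 2)) * (C0 * y) := by gcongr
          _ = _ := by ring
      have t2 : |y ^ 9 * ω1 y * (G y ^ 2 / (1 + y ^ 2))| ≤
          120 * C0 * (y ^ 9 * ω y * G y / (1 + y ^ 2)) := by
        rw [abs_mul, abs_mul, abs_of_nonneg (show 0 ≤ y ^ 9 by positivity),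
          abs_of_nonneg (show 0 ≤ G y ^ 2 / (1 + y ^ 2) by positivity)]
        calc y ^ 9 * |ω1 y| * (G y ^ 2 / (1 + y ^ 2)) ≤
            y ^ 9 * (120 * y / (1 + y ^ 2) * ω y) * (G y ^ 2 / (1 + y ^ 2)) := by
              gcongr; exact hb y hy
          _ = 120 * (y ^ 9 * ω y * G y / (1 + y ^ 2)) * (y * G y / (1 + y ^ 2)) := by
              field_simp
          _ ≤ 120 * (y ^ 9 * ω y * G y / (1 + y ^ 2)) * C0 := by
              gcongr
              rw [div_le_iff₀ (by positivity)]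
              nlinarith [mul_le_mul_of_nonneg_left g1 hy.le]
          _ = _ := by ring
      have t3 : |y ^ 9 * ω y * ((2 * G y * G1 y * (1 + y ^ 2) - G y ^ 2 * (2 * y)) /
          (1 + y ^ 2) ^ 2)| ≤ 4 * C0 * (y ^ 9 * ω y * G y / (1 + y ^ 2)) := by
        have e : y ^ 9 * ω y * ((2 * G y * G1 y * (1 + y ^ 2) - G y ^ 2 * (2 * y)) /
          (1 + y ^ 2) ^ 2) = (y ^ 9 * ω y * G y / (1 + y ^ 2)) *
            (2 * G1 y - 2 * (y * G y / (1 + y ^ 2))) := by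
          field_simp
        rw [e, abs_mul, abs_of_nonneg (show 0 ≤ y ^ 9 * ω y * G y / (1 + y ^ 2) by positivity)]
        have h5 : y * G y / (1 + y ^ 2) ≤ C0 := by
          rw [div_le_iff₀ (by positivity)]
          nlinarith [mul_le_mul_of_nonneg_left g1 hy.le]
        have h6 : 0 ≤ y * G y / (1 + y ^ 2) := by positivity
        have h7 : |2 * G1 y - 2 * (y * G y / (1 + y ^ 2))| ≤ 4 * C0 := by
          rw [abs_le] at hb1 ⊢
          constructor <;> linarith [hb1.1, hb1.2]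
        calc _ ≤ (y ^ 9 * ω y * G y / (1 + y ^ 2)) * (4 * C0) := by gcongr
          _ = _ := by ring
      have e : p1 y = 9 * y ^ 8 * ω y * (G y ^ 2 / (1 + y ^ 2)) +
          y ^ 9 * ω1 y * (G y ^ 2 / (1 + y ^ 2)) +
          y ^ 9 * ω y * ((2 * G y * G1 y * (1 + y ^ 2) - G y ^ 2 * (2 * y)) /
          (1 + y ^ 2) ^ 2) := by simp only [hp1]; ring
      rw [e]
      refine (abs_add_le _ _).trans ?_
      have t12 := abs_add_le (9 * y ^ 8 * ω y * (G y ^ 2 / (1 + y ^ 2)))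
        (y ^ 9 * ω1 y * (G y ^ 2 / (1 + y ^ 2)))
      linarith
    calc p1 y ^ 2 = |p1 y| ^ 2 := (sq_abs _).symm
      _ ≤ (133 * C0 * (y ^ 9 * ω y * G y / (1 + y ^ 2))) ^ 2 := by gcongr
      _ = 133 ^ 2 * p y * q1 y := by
        simp only [hp, hq1]; field_simp

theorem hasDerivAt_w60 (y : ℝ) : HasDerivAt w60 (120 * y * (1 + y ^ 2) ^ 59) y := by
  have a2 : HasDerivAt (fun y : ℝ => 1 + y ^ 2) (2 * y) y := by
    have := (hasDerivAt_pow 2 y).const_add 1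
    simpa using this
  have := a2.pow 60
  refine this.congr_deriv ?_
  push_cast
  ring

theorem w60_pos (y : ℝ) : 0 < w60 y := by unfold w60; positivity

theorem continuous_w60 : Continuous w60 := by unfold w60; fun_prop


theorem st_interpX {c0 C0 : ℝ} {g : ℝ → ℝ} (hg : Prof c0 C0 g) {ε : ℝ} (hε : 0 < ε) :
    ∃ K : ℝ, 0 ≤ K ∧ ∀ P, DD P →
      ∫ y in Ioi (0 : ℝ), y ^ 9 / w60 y * ((y * g y) ^ 2 / (1 + y ^ 2)) * ‖deriv P y‖ ^ 2 ≤
        ε * (∫ y in Ioi (0 : ℝ), y ^ 9 / w60 y * (y * g y) ^ 2 * ‖deriv (deriv P) y‖ ^ 2) +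
          K * ∫ y in Ioi (0 : ℝ), y ^ 9 / w60 y / (1 + y ^ 2) * ‖P y‖ ^ 2 := by
  have h := st_interp hg (ω := fun y => (w60 y)⁻¹)
    (ω1 := fun y => -(120 * y * (1 + y ^ 2) ^ 59) / (w60 y) ^ 2)
    (continuous_w60.inv₀ (fun y => (w60_pos y).ne'))
    (by
      have : ∀ y, w60 y ^ 2 ≠ 0 := fun y => (pow_pos (w60_pos y) 2).ne'
      have := continuous_w60
      fun_prop (disch := exact this _))
    (fun y => (hasDerivAt_w60 y).inv (w60_pos y).ne')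
    (fun y => inv_pos.mpr (w60_pos y)) ?_ hε
  · simpa only [div_eq_mul_inv] using h
  · intro y hy
    have hw := w60_pos y
    rw [neg_div, abs_neg, abs_of_nonneg (by positivity)]
    apply le_of_eq
    unfold w60
    field_simp

end Crest.Agent.R213.A
end
end

-- ▼ part R213/A/Transfer

/-!
# Row 213, PART A: the inner space-time estimate in the original variables (helper795)
-/

set_option autoImplicit false

open Set MeasureTheory Filter Topology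

noncomputable section

namespace Crest.Agent.R213.A

namespace Tr

variable {κ L : ℝ} {θ : ℝ → ℝ} {V ψ : ℝ → ℝ → ℝ} {a b : ℝ} {c0 C0 : ℝ} {g : ℝ → ℝ}
  {φ m : ℝ → ℝ → ℝ}

/-! ### bounds for the cutoff -/

theorem deriv_chi_zero {r : ℝ} (h : 1 / 8 < r) : deriv chi r = 0 := by
  have : chi =ᶠ[𝓝 r] fun _ => 0 := by
    filter_upwards [Ioi_mem_nhds h] with z hz
    exact chi_zero (le_of_lt hz)
  rw [this.deriv_eq]; simp

theorem deriv2_chi_zero {r : ℝ} (h : 1 / 8 < r) : deriv (deriv chi) r = 0 := by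
  have : deriv chi =ᶠ[𝓝 r] fun _ => 0 := by
    filter_upwards [Ioi_mem_nhds h] with z hz
    exact deriv_chi_zero hz
  rw [this.deriv_eq]; simp

theorem chi1_smooth : ContDiff ℝ (⊤ : ℕ∞) (deriv chi) := by
  have : ContDiff ℝ ((⊤ : ℕ∞) + 1) chi := by simpa using chi_smooth
  exact (contDiff_succ_iff_deriv.1 this).2.2

theorem chi2_smooth : ContDiff ℝ (⊤ : ℕ∞) (deriv (deriv chi)) := by
  have : ContDiff ℝ ((⊤ : ℕ∞) + 1) (deriv chi) := by simpa using chi1_smooth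
  exact (contDiff_succ_iff_deriv.1 this).2.2

theorem exists_chi_bound : ∃ B : ℝ, 0 ≤ B ∧ ∀ r, 0 < r → |deriv chi r| ≤ B ∧
    |deriv (deriv chi) r| ≤ B := by
  obtain ⟨B1, h1⟩ := (isCompact_Icc (a := (0 : ℝ)) (b := 1 / 8)).exists_bound_of_continuousOn
    chi1_smooth.continuous.continuousOn
  obtain ⟨B2, h2⟩ := (isCompact_Icc (a := (0 : ℝ)) (b := 1 / 8)).exists_bound_of_continuousOn
    chi2_smooth.continuous.continuousOn
  refine ⟨max (max B1 B2) 0, le_max_right _ _, fun r hr => ?_⟩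
  by_cases h : r ≤ 1 / 8
  · exact ⟨(h1 r ⟨hr.le, h⟩).trans ((le_max_left _ _).trans (le_max_left _ _)),
      (h2 r ⟨hr.le, h⟩).trans ((le_max_right _ _).trans (le_max_left _ _))⟩
  · rw [deriv_chi_zero (not_le.1 h), deriv2_chi_zero (not_le.1 h)]
    simp

/-! ### integrability for `DR` functions -/

/-- the `X` density -/
def FX (g : ℝ → ℝ) (V : ℝ → ℝ → ℝ) (s y : ℝ) : ℝ :=
  y ^ 9 / w60 y * ((y * g y) ^ 2 * deriv (deriv (V s)) y ^ 2 + V s y ^ 2)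

theorem integrable_strip {F G : ℝ × ℝ → ℝ} {R : ℝ}
    (hG : ContinuousOn G (univ ×ˢ Icc 0 R)) (h1 : ∀ s y, 0 < y → y < R → F (s, y) = G (s, y))
    (h2 : ∀ s y, 0 < y → R ≤ y → F (s, y) = 0) (h3 : ∀ s y, 0 < y → R < |s| → F (s, y) = 0) :
    IntegrableOn F (univ ×ˢ Ioi 0) := by
  have e1 : IntegrableOn G (Icc (-R) R ×ˢ Icc 0 R) :=
    (hG.mono (prod_mono (subset_univ _) Subset.rfl)).integrableOn_compact
      (isCompact_Icc.prod isCompact_Icc)
  have e2 : IntegrableOn G (Icc (-R) R ×ˢ Ioo 0 R) :=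
    e1.mono_set (prod_mono Subset.rfl Ioo_subset_Icc_self)
  have e3 : IntegrableOn F (Icc (-R) R ×ˢ Ioo 0 R) := by
    refine e2.congr_fun (fun p hp => ?_) (measurableSet_Icc.prod measurableSet_Ioo)
    exact (h1 p.1 p.2 hp.2.1 hp.2.2).symm
  refine e3.of_forall_sdiff_eq_zero (MeasurableSet.univ.prod measurableSet_Ioi) ?_
  rintro ⟨s, y⟩ ⟨⟨_, hy⟩, hn⟩
  have hy0 : 0 < y := hy
  by_cases hs : R < |s|
  · exact h3 s y hy0 hs
  · refine h2 s y hy0 ?_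
    by_contra hlt
    exact hn ⟨abs_le.1 (not_lt.1 hs), ⟨hy0, not_le.1 hlt⟩⟩

/-- second derivative of a `DR` function as a continuous function -/
theorem dr_second (hV : DR V) : ∃ (R : ℝ) (V2 : ℝ → ℝ → ℝ), 0 < R ∧
    ContinuousOn (fun p : ℝ × ℝ => V2 p.1 p.2) (univ ×ˢ Icc 0 R) ∧
    ContinuousOn (fun p : ℝ × ℝ => V p.1 p.2) (univ ×ˢ Icc 0 R) ∧
    (∀ s y, 0 < y → y < R → deriv (deriv (V s)) y = V2 s y) ∧
    (∀ s y, R ≤ y → deriv (deriv (V s)) y = 0 ∧ V s y = 0) ∧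
    (∀ s y, R < |s| → deriv (deriv (V s)) y = 0 ∧ V s y = 0) := by
  obtain ⟨h1, R, hR⟩ := hV
  set R' := max R 0 + 1 with hR'
  have hR0 : 0 < R' := by positivity
  have hRR : R < R' := lt_of_le_of_lt (le_max_left _ _) (by linarith)
  have hsm : Sm univ R' V := h1.mono (prod_mono Subset.rfl (fun y hy => hy.1))
  have hsm2 : Sm univ R' (dx R' (dx R' V)) := Sm.dx isOpen_univ hR0 (Sm.dx isOpen_univ hR0 hsm)
  refine ⟨R', dx R' (dx R' V), hR0, hsm2.continuousOn, hsm.continuousOn, ?_, ?_, ?_⟩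
  · intro s y hy0 hyR
    exact (dxx_eq ⟨hy0, hyR⟩).symm
  · intro s y hy
    have h2 : V s =ᶠ[𝓝 y] fun _ => 0 := by
      filter_upwards [Ioi_mem_nhds (lt_of_lt_of_le hRR hy)] with z hz
      exact hR s z (Or.inr hz)
    have h3 : deriv (V s) =ᶠ[𝓝 y] deriv (fun _ => 0) := h2.deriv
    refine ⟨?_, hR s y (Or.inr (lt_of_lt_of_le hRR hy))⟩
    rw [h3.deriv_eq]; simp
  · intro s y hs
    have h2 : V s = fun _ => 0 := funext (fun z => hR s z (Or.inl (hRR.trans hs)))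
    rw [h2]; simp

theorem integrable_FX (hg : Prof c0 C0 g) (hV : DR V) :
    IntegrableOn (fun p : ℝ × ℝ => FX g V p.1 p.2) (univ ×ˢ Ioi 0) := by
  obtain ⟨R, V2, hR, hc2, hc, h1, h2, h3⟩ := dr_second hV
  have hcg : Continuous g := hg.smooth.continuous
  refine integrable_strip (R := R) (G := fun p => p.2 ^ 9 / w60 p.2 *
    ((p.2 * g p.2) ^ 2 * V2 p.1 p.2 ^ 2 + V p.1 p.2 ^ 2)) ?_ ?_ ?_ ?_
  · refine ContinuousOn.mul (cont_w.comp continuous_snd).continuousOn (ContinuousOn.add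
      (ContinuousOn.mul ?_ (hc2.pow 2)) (hc.pow 2))
    exact ((continuous_snd.mul (hcg.comp continuous_snd)).pow 2).continuousOn
  · intro s y hy hyR
    simp only [FX, h1 s y hy hyR]
  · intro s y hy hyR
    simp only [FX, h2 s y hyR]
    ring
  · intro s y hy hs
    simp only [FX, h3 s y hs]
    ring

theorem nXI_fubini (hg : Prof c0 C0 g) (hV : DR V) :
    nXI g V = ∫ s, ∫ y in Ioi (0 : ℝ), FX g V s y := by
  have h := integrable_FX hg hV
  unfold nXI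
  rw [Measure.volume_eq_prod] at h ⊢
  have e := setIntegral_prod (fun p : ℝ × ℝ => FX g V p.1 p.2) h
  rw [Measure.restrict_univ] at e
  exact e

theorem FX_nonneg {s y : ℝ} (hy : 0 < y) : 0 ≤ FX g V s y := by
  unfold FX
  have := w60_pos y
  positivity

/-! ### the norm of the cut-off function -/

theorem nXI_cut (hg : Prof c0 C0 g) :
    ∃ K : ℝ, 0 ≤ K ∧ ∀ (L : ℝ) (θ : ℝ → ℝ) (V : ℝ → ℝ → ℝ), 8 ≤ L → DR V →
      ContDiff ℝ (⊤ : ℕ∞) θ → (∀ τ, 0 ≤ θ τ ∧ θ τ ≤ 1) → (∀ τ, 1 ≤ τ → θ τ = 0) →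
      nXI g (Vc L θ V) ≤ K * nXI g V := by
  obtain ⟨K, hK0, hK⟩ := st_interpX hg one_pos
  have hIX : IX g K := ⟨hK0, hK⟩
  obtain ⟨B, hB0, hB⟩ := exists_chi_bound
  have hM : 0 ≤ B ^ 2 := sq_nonneg B
  refine ⟨4 + 12 * B ^ 2 * (1 + K) + 3 * C0 ^ 2 * B ^ 2, by positivity,
    fun L θ V hL hV hθ hθ1 hθ0 => ?_⟩
  set K' := 4 + 12 * B ^ 2 * (1 + K) + 3 * C0 ^ 2 * B ^ 2 with hK'
  have hK'0 : 0 ≤ K' := by positivity
  have hL0 : 0 < L := by linarith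
  have hVc : DR (Vc L θ V) := dr_Vc hV hθ
  rw [nXI_fubini hg hVc, nXI_fubini hg hV, ← integral_const_mul]
  have i1 := integrable_FX hg hVc
  have i2 := integrable_FX hg hV
  rw [IntegrableOn, Measure.volume_eq_prod, ← Measure.prod_restrict, Measure.restrict_univ] at i1 i2
  refine integral_mono i1.integral_prod_left (i2.integral_prod_left.const_mul K') (fun s => ?_)
  show ∫ y in Ioi (0 : ℝ), FX g (Vc L θ V) s y ≤ K' * ∫ y in Ioi (0 : ℝ), FX g V s y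
  have hVs : ContDiffOn ℝ (⊤ : ℕ∞) (V s) (Ici 0) := by
    have : ContDiff ℝ (⊤ : ℕ∞) (fun y : ℝ => (s, y)) := by fun_prop
    exact ContDiffOn.comp (g := fun p : ℝ × ℝ => V p.1 p.2) hV.1 this.contDiffOn
      (fun y hy => ⟨mem_univ _, hy⟩)
  obtain ⟨R, hR⟩ := hV.2
  have hR' : ∀ y, R + 1 ≤ y → V s y = 0 := fun y hy => hR s y (Or.inr (by linarith))
  by_cases hs : s ≤ 0
  · -- the cutoff vanishes
    have h1 : θ (Real.exp (-s)) = 0 := hθ0 _ (by rw [← Real.exp_zero]; exact Real.exp_le_exp.2 (by linarith))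
    have h2 : Vc L θ V s = fun _ => 0 := by
      funext y; unfold Vc; rw [h1]; ring
    have h3 : ∫ y in Ioi (0 : ℝ), FX g (Vc L θ V) s y = 0 := by
      have : ∀ y, FX g (Vc L θ V) s y = 0 := fun y => by
        unfold FX; rw [h2]; simp
      simp [this]
    rw [h3]
    exact mul_nonneg hK'0 (setIntegral_nonneg measurableSet_Ioi (fun y hy => FX_nonneg hy))
  · have hs' : 0 < s := not_le.1 hs
    set q := Real.exp (-s / 2) / L with hq
    have hq0 : 0 < q := by positivity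
    have hq1 : q ≤ 1 / 8 := by
      rw [hq, div_le_div_iff₀ hL0 (by norm_num)]
      have : Real.exp (-s / 2) ≤ 1 := by
        rw [← Real.exp_zero]; exact Real.exp_le_exp.2 (by linarith)
      linarith
    set t := θ (Real.exp (-s)) with ht
    have ht0 := hθ1 (Real.exp (-s))
    have hζ : ContDiff ℝ (⊤ : ℕ∞) (fun y => t * chi (y * q)) :=
      contDiff_const.mul (chi_smooth.comp (by fun_prop))
    have hd1 : ∀ y, deriv (fun y => t * chi (y * q)) y = t * q * deriv chi (y * q) := by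
      intro y
      rw [deriv_const_mul_field, deriv_comp_mul_right']
      ring
    have hd2 : ∀ y, deriv (deriv (fun y => t * chi (y * q))) y =
        t * q ^ 2 * deriv (deriv chi) (y * q) := fun y => deriv2_scale chi t q y
    have htt : t ^ 2 ≤ 1 := by nlinarith [ht0.1, ht0.2]
    have hmain := cut1D hg hIX hM hM hVs hR' hζ ?_ ?_ ?_
    · have e1 : ∀ y, (fun z => t * chi (z * q) * V s z) y = Vc L θ V s y := by
        intro y
        simp only [Vc, hq, ht]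
        rw [mul_div_assoc]
      have e2 : (fun z => t * chi (z * q) * V s z) = Vc L θ V s := funext e1
      have e3 : ∀ y, (t * chi (y * q) * V s y) = Vc L θ V s y := e1
      simp only [e2, e3] at hmain
      exact hmain
    · intro y _
      have c0 := chi_nonneg (y * q)
      have c1 := chi_le_one (y * q)
      show (t * chi (y * q)) ^ 2 ≤ 1
      rw [mul_pow]
      have : chi (y * q) ^ 2 ≤ 1 := by nlinarith
      nlinarith [sq_nonneg t, sq_nonneg (chi (y * q))]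
    · intro y hy
      rw [hd1]
      have hyq : 0 < y * q := by positivity
      by_cases hc : 1 / 8 < y * q
      · rw [deriv_chi_zero hc]; simp only [mul_zero, ne_eq, OfNat.ofNat_ne_zero,
          not_false_eq_true, zero_pow, zero_mul]; exact hM
      · have hc' := not_lt.1 hc
        have b1 := (hB _ hyq).1
        have b2 : deriv chi (y * q) ^ 2 ≤ B ^ 2 := sq_le_sq' (by linarith [abs_le.1 b1]) (abs_le.1 b1).2
        have b3 : (t * q * deriv chi (y * q)) ^ 2 * (1 + y ^ 2) =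
            t ^ 2 * deriv chi (y * q) ^ 2 * (q ^ 2 + (y * q) ^ 2) := by ring
        rw [b3]
        have b4 : q ^ 2 + (y * q) ^ 2 ≤ 1 := by nlinarith
        have b5 : t ^ 2 * deriv chi (y * q) ^ 2 ≤ B ^ 2 := by
          nlinarith [sq_nonneg t, sq_nonneg (deriv chi (y * q))]
        calc t ^ 2 * deriv chi (y * q) ^ 2 * (q ^ 2 + (y * q) ^ 2)
            ≤ B ^ 2 * (q ^ 2 + (y * q) ^ 2) := by gcongr
          _ ≤ B ^ 2 * 1 := by gcongr
          _ = B ^ 2 := mul_one _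
    · intro y hy
      rw [hd2]
      have hyq : 0 < y * q := by positivity
      by_cases hc : 1 / 8 < y * q
      · rw [deriv2_chi_zero hc]; simp only [mul_zero, ne_eq, OfNat.ofNat_ne_zero,
          not_false_eq_true, zero_pow]; exact hM
      · have hc' := not_lt.1 hc
        have b1 := (hB _ hyq).2
        have b2 : deriv (deriv chi) (y * q) ^ 2 ≤ B ^ 2 :=
          sq_le_sq' (by linarith [abs_le.1 b1]) (abs_le.1 b1).2
        have b3 : (y * (t * q ^ 2 * deriv (deriv chi) (y * q))) ^ 2 =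
            t ^ 2 * deriv (deriv chi) (y * q) ^ 2 * (q ^ 2 * (y * q) ^ 2) := by ring
        rw [b3]
        have b4 : q ^ 2 * (y * q) ^ 2 ≤ 1 := by
          have l1 : q ^ 2 ≤ 1 := by nlinarith
          have l2 : (y * q) ^ 2 ≤ 1 := by nlinarith
          calc q ^ 2 * (y * q) ^ 2 ≤ 1 * 1 := by gcongr
            _ = 1 := one_mul 1
        have b5 : t ^ 2 * deriv (deriv chi) (y * q) ^ 2 ≤ B ^ 2 := by
          nlinarith [sq_nonneg t, sq_nonneg (deriv (deriv chi) (y * q))]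
        calc t ^ 2 * deriv (deriv chi) (y * q) ^ 2 * (q ^ 2 * (y * q) ^ 2)
            ≤ B ^ 2 * (q ^ 2 * (y * q) ^ 2) := by gcongr
          _ ≤ B ^ 2 * 1 := by gcongr
          _ = B ^ 2 := mul_one _

/-! ### the integral identities -/

theorem Om_subset : CoV.Om L ⊆ (univ ×ˢ Ioi 0 : Set (ℝ × ℝ)) := fun _ hp => ⟨mem_univ _, hp.2.1⟩

theorem nX_le (hB : Bg c0 C0 g L φ m) (hg : Prof c0 C0 g) (hV : DR V)
    (hθ : ContDiff ℝ (⊤ : ℕ∞) θ) : nX κ L φ (Uf κ L θ V) ≤ nXI g (Vc L θ V) := by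
  unfold nX
  rw [CoV.II_cov]
  have e1 : ∫ p in CoV.Om L, Real.exp (-(3 / 2) * p.1) *
      ((fun τ x => x ^ 9 * (Wt κ τ x * (φ τ x * dx L (dx L (Uf κ L θ V)) τ x) ^ 2 +
        Wt κ τ x / τ * Uf κ L θ V τ x ^ 2)) (Real.exp (-p.1)) (p.2 * Real.exp (-p.1 / 2))) =
      ∫ p in CoV.Om L, FX g (Vc L θ V) p.1 p.2 :=
    setIntegral_congr_fun (CoV.isOpen_Om L).measurableSet (fun p hp => nX_point hB hp)
  rw [e1]
  have i1 := integrable_FX hg (dr_Vc (L := L) hV hθ)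
  have e2 : nXI g (Vc L θ V) = ∫ p in (univ ×ˢ Ioi 0 : Set (ℝ × ℝ)), FX g (Vc L θ V) p.1 p.2 := rfl
  rw [e2]
  refine setIntegral_mono_set i1 ?_ (HasSubset.Subset.eventuallyLE Om_subset)
  filter_upwards [ae_restrict_mem (MeasurableSet.univ.prod measurableSet_Ioi)] with p hp
  exact FX_nonneg hp.2

theorem BB_eq (hB : Bg c0 C0 g L φ m) (h : Loc L ψ a b) (hθ1 : ∀ τ ∈ Icc a b, θ τ = 1) :
    BB L φ (Uf κ L θ V) ψ = BIn g κ V (Pf κ ψ) := by
  unfold BB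
  rw [CoV.II_cov]
  have e1 : ∫ p in CoV.Om L, Real.exp (-(3 / 2) * p.1) *
      ((fun τ x => x ^ 9 * (dt ψ τ x * Uf κ L θ V τ x +
        φ τ x ^ 2 * dx L (dx L ψ) τ x * dx L (dx L (Uf κ L θ V)) τ x)) (Real.exp (-p.1))
          (p.2 * Real.exp (-p.1 / 2))) =
      ∫ p in CoV.Om L, p.2 ^ 9 *
    (V p.1 p.2 * (-(deriv (fun s => Pf κ ψ s p.2) p.1) - (65 / 2 - κ) * Pf κ ψ p.1 p.2
        - p.2 / 2 * deriv (Pf κ ψ p.1) p.2) +
      (p.2 * g p.2) ^ 2 * deriv (deriv (V p.1)) p.2 * deriv (deriv (Pf κ ψ p.1)) p.2) :=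
    setIntegral_congr_fun (CoV.isOpen_Om L).measurableSet (fun p hp => BB_point hB h hθ1 hp)
  rw [e1]
  unfold BIn
  refine setIntegral_eq_of_subset_of_forall_sdiff_eq_zero
    (MeasurableSet.univ.prod measurableSet_Ioi) Om_subset ?_ |>.symm
  rintro ⟨s, y⟩ ⟨⟨_, hy⟩, hn⟩
  have hz := ZZ_of_not_Om h hy hn
  show y ^ 9 * (V s y * (-(deriv (fun s => Pf κ ψ s y) s) - (65 / 2 - κ) * Pf κ ψ s y
        - y / 2 * deriv (Pf κ ψ s) y) +
      (y * g y) ^ 2 * deriv (deriv (V s)) y * deriv (deriv (Pf κ ψ s)) y) = 0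
  rw [Pf_s_zero h hz, Pf_zero h hz, Pf_y_zero h hz, Pf_yy_zero h hz]
  ring

theorem nY_eq' (hB : Bg c0 C0 g L φ m) (h : Loc L ψ a b) :
    nY κ L φ ψ = nYI g (Pf κ ψ) := by
  unfold nY
  rw [CoV.II_cov]
  have e1 : ∫ p in CoV.Om L, Real.exp (-(3 / 2) * p.1) *
      ((fun τ x => x ^ 9 * ((φ τ x * dx L (dx L ψ) τ x) ^ 2 / Wt κ τ x +
    ψ τ x ^ 2 / (τ * Wt κ τ x))) (Real.exp (-p.1)) (p.2 * Real.exp (-p.1 / 2))) =
      ∫ p in CoV.Om L, p.2 ^ 9 * w60 p.2 *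
    ((p.2 * g p.2) ^ 2 * deriv (deriv (Pf κ ψ p.1)) p.2 ^ 2 + Pf κ ψ p.1 p.2 ^ 2) :=
    setIntegral_congr_fun (CoV.isOpen_Om L).measurableSet (fun p hp => nY_point hB h hp)
  rw [e1]
  unfold nYI
  refine setIntegral_eq_of_subset_of_forall_sdiff_eq_zero
    (MeasurableSet.univ.prod measurableSet_Ioi) Om_subset ?_ |>.symm
  rintro ⟨s, y⟩ ⟨⟨_, hy⟩, hn⟩
  have hz := ZZ_of_not_Om h hy hn
  show y ^ 9 * w60 y * ((y * g y) ^ 2 * deriv (deriv (Pf κ ψ s)) y ^ 2 + Pf κ ψ s y ^ 2) = 0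
  rw [Pf_zero h hz, Pf_yy_zero h hz]
  ring

/-! ### `P` is a test function in the inner variables -/

theorem dr_Pf (h : Loc L ψ a b) : DR (Pf κ ψ) := by
  have hL := h.Lpos
  constructor
  · rintro ⟨s, y⟩ ⟨_, hy⟩
    by_cases hz : (s, y) ∈ ZZ L a b
    · have h0 : (fun p : ℝ × ℝ => Pf κ ψ p.1 p.2) =ᶠ[𝓝[univ ×ˢ Ici 0] (s, y)] fun _ => 0 := by
        filter_upwards [mem_nhdsWithin_of_mem_nhds (isOpen_ZZ.mem_nhds hz)] with p hp
        exact Pf_zero h hp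
      exact contDiffWithinAt_const.congr_of_eventuallyEq h0 (Pf_zero h hz)
    · unfold ZZ at hz
      simp only [Set.mem_ofPred_eq, not_or, not_not, not_lt] at hz
      have hτ : Real.exp (-s) ∈ Ioo (0 : ℝ) 1 := ⟨Real.exp_pos _, hz.1.2.trans_lt h.b_lt⟩
      have hx : y * Real.exp (-s / 2) < L := by linarith [hz.2]
      have hy0 : 0 ≤ y := hy
      have e1 : ContDiff ℝ (⊤ : ℕ∞) (fun p : ℝ × ℝ => Real.exp (-(65 / 2 - κ) * p.1)) := by fun_prop
      have e2 : ContDiff ℝ (⊤ : ℕ∞)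
          (fun p : ℝ × ℝ => (Real.exp (-p.1), p.2 * Real.exp (-p.1 / 2))) := by fun_prop
      have e3 : ContDiffWithinAt ℝ (⊤ : ℕ∞) (fun p : ℝ × ℝ => ψ p.1 p.2) (Ioo 0 1 ×ˢ Icc 0 L)
          (Real.exp (-s), y * Real.exp (-s / 2)) :=
        h.sm _ ⟨hτ, ⟨mul_nonneg hy0 (Real.exp_pos _).le, hx.le⟩⟩
      have hA : {p : ℝ × ℝ | Real.exp (-p.1) < 1 ∧ p.2 * Real.exp (-p.1 / 2) < L} ∩
          (univ ×ˢ Ici 0) ∈ 𝓝[univ ×ˢ Ici 0] (s, y) := by
        have c1 : Continuous (fun p : ℝ × ℝ => Real.exp (-p.1)) := by fun_prop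
        have c2 : Continuous (fun p : ℝ × ℝ => p.2 * Real.exp (-p.1 / 2)) := by fun_prop
        refine inter_mem (mem_nhdsWithin_of_mem_nhds ?_) self_mem_nhdsWithin
        exact ((isOpen_lt c1 continuous_const).inter (isOpen_lt c2 continuous_const)).mem_nhds
          ⟨hτ.2, hx⟩
      have e4 : ContDiffWithinAt ℝ (⊤ : ℕ∞)
          (fun p : ℝ × ℝ => ψ (Real.exp (-p.1)) (p.2 * Real.exp (-p.1 / 2)))
          ({p : ℝ × ℝ | Real.exp (-p.1) < 1 ∧ p.2 * Real.exp (-p.1 / 2) < L} ∩ (univ ×ˢ Ici 0))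
          (s, y) := by
        refine ContDiffWithinAt.comp (g := fun p : ℝ × ℝ => ψ p.1 p.2)
          (f := fun p : ℝ × ℝ => (Real.exp (-p.1), p.2 * Real.exp (-p.1 / 2))) (s, y) e3
          e2.contDiffWithinAt ?_
        rintro ⟨r, z⟩ ⟨⟨h1, h2⟩, ⟨_, h3⟩⟩
        exact ⟨⟨Real.exp_pos _, h1⟩, ⟨mul_nonneg h3 (Real.exp_pos _).le, h2.le⟩⟩
      exact e1.contDiffWithinAt.mul (e4.mono_of_mem_nhdsWithin hA)
  · have ha := h.a_pos
    refine ⟨max (-Real.log a) (L / √a), fun s y hsy => ?_⟩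
    apply Pf_zero h
    by_contra hz
    unfold ZZ at hz
    simp only [Set.mem_ofPred_eq, not_or, not_not, not_lt] at hz
    obtain ⟨⟨h1, h2⟩, h3⟩ := hz
    have hs0 : 0 < s := by
      have : Real.exp (-s) < Real.exp 0 := by rw [Real.exp_zero]; exact h2.trans_lt h.b_lt
      have := Real.exp_lt_exp.1 this
      linarith
    have hs1 : s ≤ -Real.log a := by
      have : Real.log a ≤ -s := by
        rw [← Real.log_exp (-s)]
        exact Real.log_le_log ha h1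
      linarith
    rcases hsy with h4 | h4
    · rw [abs_of_pos hs0] at h4
      exact absurd (h4.trans_le hs1) (not_lt.2 (le_max_left _ _))
    · have hsa : 0 < √a := Real.sqrt_pos.2 ha
      have h5 : √a ≤ Real.exp (-s / 2) := by
        rw [← CoV.sqrt_exp]; exact Real.sqrt_le_sqrt h1
      have h6 : L / √a < y := lt_of_le_of_lt (le_max_right _ _) h4
      have h7 : L < y * √a := by rwa [div_lt_iff₀ hsa] at h6
      have hy0 : 0 < y := lt_trans (by positivity) h6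
      have h8 : y * √a ≤ y * Real.exp (-s / 2) := by gcongr
      linarith

end Tr

theorem transfer {c0 C0 : ℝ} {g : ℝ → ℝ} (hg : Prof c0 C0 g) {κ C : ℝ} (hC : 0 ≤ C)
    (h : InEst g κ C) : ∃ C' : ℝ, 0 ≤ C' ∧ InnerOrig c0 C0 g κ C' := by
  obtain ⟨K, hK0, hK⟩ := Tr.nXI_cut hg
  refine ⟨C * K, mul_nonneg hC hK0, ?_⟩
  intro L hL φ m hB ψ hψ hx S hS hyp
  obtain ⟨hsm, a, b, ha, hab, hb, hsupp⟩ := hψ
  have hLoc : Tr.Loc L ψ a b := ⟨by linarith, hsm, ha, hab, hb, hsupp, hx⟩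
  obtain ⟨θ, hθ, hθ1, hθ2, hθ3⟩ := Tr.exists_theta ha hab hb
  have hθ0 : ∀ τ, 1 ≤ τ → θ τ = 0 := by
    obtain ⟨a', b', _, _, h3, h4⟩ := hθ3
    intro τ hτ
    exact h4 τ (fun h5 => absurd h5.2 (not_le.2 (h3.trans_le hτ)))
  rw [Tr.nY_eq' hB hLoc, mul_assoc]
  refine h (Tr.Pf κ ψ) (Tr.dr_Pf hLoc) (K * S) (mul_nonneg hK0 hS) (fun V hV => ?_)
  have h1 := hyp (Tr.Uf κ L θ V) (Tr.tst_Uf hV hθ hθ3)
  rw [Tr.BB_eq hB hLoc hθ1] at h1
  calc BIn g κ V (Tr.Pf κ ψ) ^ 2 ≤ S * nX κ L φ (Tr.Uf κ L θ V) := h1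
    _ ≤ S * nXI g (Tr.Vc L θ V) := by
        have := Tr.nX_le (κ := κ) hB hg hV hθ
        gcongr
    _ ≤ S * (K * nXI g V) := by
        have := hK L θ V hL hV hθ hθ2 hθ0
        gcongr
    _ = K * S * nXI g V := by ring

end Crest.Agent.R213.A
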