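import Crest.Agent.R213.A.Loc_Mg
import Crest.Agent.R213.A.ADefs
import Crest.Agent.R213.A.Dual
import Crest.Agent.R213.A.Transfer_Mg
import Crest.Agent.R213.A.StHilb
import Crest.Agent.R213.A.StGard
import Crest.Agent.R213.A.StDefs
import Crest.Agent.R213.C.Intp

-- ▼ part R213/A/Glue
section

/-!
# Row 213, part A: gluing (`glue`): inner estimate + Gårding + localisation ⇒ a priori estimate
-/

set_option autoImplicit false

open Set MeasureTheory Filter Topology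

noncomputable section

namespace Crest.Agent.R213.A

theorem glue {c0 C0 : ℝ} {g : ℝ → ℝ} (hg : Prof c0 C0 g) {κ C : ℝ}
    (hκ : κ ∈ Ioo (1 / 8 : ℝ) (1 / 4)) (hC : 0 ≤ C) (h : InnerOrig c0 C0 g κ C) :
    ∃ L1 C' : ℝ, 0 ≤ C' ∧ 8 ≤ L1 ∧ ∀ L ≥ L1, ∀ φ m, Bg c0 C0 g L φ m → APE κ L C' φ := by
  obtain ⟨c, K, CG, hc, hK, hCG, hG⟩ := garding_full hg
  -- cut-off
  set χ0 : ℝ → ℝ := fun r => 1 - Real.smoothTransition (32 * r - 1) with hχ0
  have hχ : ContDiff ℝ (⊤ : ℕ∞) χ0 := by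
    refine contDiff_const.sub (Real.smoothTransition.contDiff.comp ?_)
    fun_prop
  have hχ1 : ∀ r, r ≤ 1 / 32 → χ0 r = 1 := by
    intro r hr
    simp only [hχ0]
    rw [Real.smoothTransition.zero_of_nonpos (by linarith)]; ring
  have hχ2 : ∀ r, 1 / 16 ≤ r → χ0 r = 0 := by
    intro r hr
    simp only [hχ0]
    rw [Real.smoothTransition.one_of_one_le (by linarith)]; ring
  obtain ⟨CL, hCL, hloc⟩ := loc hg hχ hχ1 hχ2
  refine ⟨max 8 (max (32 * (K + 1)) (8 * CG * C * CL / c)),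
    2 / c * (CG / c + 2 * CG * C * CL), by positivity, le_max_left _ _, ?_⟩
  intro L hL φ m hB ψ hψ S hS hSu
  have hL8 : 8 ≤ L := (le_max_left _ _).trans hL
  have hL0 : 0 < L := by linarith
  have hLK : 32 * (K + 1) ≤ L := ((le_max_left _ _).trans (le_max_right _ _)).trans hL
  have hLC : 8 * CG * C * CL / c ≤ L := ((le_max_right _ _).trans (le_max_right _ _)).trans hL
  have hφ := PhiB.of_Bg hB hg.c0_pos.le
  obtain ⟨hUT, hUX, hGB⟩ := hG κ hκ L hL8 φ m hB ψ hψ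
  have hY0 : 0 ≤ nY κ L φ ψ := by
    rw [nYJ_eq hφ hψ]; exact add_nonneg J2_nonneg Jt_nonneg
  -- first term
  have hBU : BB L φ (fun τ x => ψ τ x / Wt κ τ x) ψ ≤
      ((c / 2 * nY κ L φ ψ) + (2 * CG * S / c)) / 2 := by
    apply prod_le_half (by positivity) (by positivity)
    calc BB L φ (fun τ x => ψ τ x / Wt κ τ x) ψ ^ 2
        ≤ S * nX κ L φ (fun τ x => ψ τ x / Wt κ τ x) := hSu _ hUT
      _ ≤ S * (CG * nY κ L φ ψ) := mul_le_mul_of_nonneg_left hUX hS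
      _ = c / 2 * nY κ L φ ψ * (2 * CG * S / c) := by field_simp
  -- localised function
  have hχψ : Tst L (fun τ x => χ0 (x / L) * ψ τ x) :=
    (hloc κ hκ L hL8 φ m hB ψ ψ hψ hψ).1
  have hX0 : ∀ u, 0 ≤ nX κ L φ u := by
    intro u
    refine II_nonneg fun t ht x hx => ?_
    have h1 := Mw_pos (κ := κ) (x := x) ht
    have h2 := hx.1
    have h3 := ht.1
    rw [Wt_eq]
    positivity
  have hin : nY κ L φ (fun τ x => χ0 (x / L) * ψ τ x) ≤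
      C * (2 * CL * S + 2 * (CL / L) * nY κ L φ ψ) := by
    refine h L hL8 φ m hB _ hχψ ?_ _ (by positivity) ?_
    · intro τ x hx
      have : 1 / 16 ≤ x / L := by
        rw [div_le_div_iff₀ (by norm_num) hL0]; linarith
      simp only [hχ2 _ this, zero_mul]
    · intro u hu
      obtain ⟨h1, h2, h3⟩ := hloc κ hκ L hL8 φ m hB u ψ hu hψ
      set a := BB L φ u (fun τ x => χ0 (x / L) * ψ τ x)
      set b := BB L φ (fun τ x => χ0 (x / L) * u τ x) ψ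
      have h4 : b ^ 2 ≤ S * (CL * nX κ L φ u) :=
        (hSu _ h1).trans (mul_le_mul_of_nonneg_left h2 hS)
      have h5 : a ^ 2 ≤ 2 * b ^ 2 + 2 * (a - b) ^ 2 := by nlinarith [sq_nonneg (a - 2 * b)]
      calc a ^ 2 ≤ 2 * b ^ 2 + 2 * (a - b) ^ 2 := h5
        _ ≤ 2 * (S * (CL * nX κ L φ u)) + 2 * (CL / L * nX κ L φ u * nY κ L φ ψ) := by linarith
        _ = (2 * CL * S + 2 * (CL / L) * nY κ L φ ψ) * nX κ L φ u := by ring
  -- the inner region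
  have hJ : II L (fun τ x => if x ^ 2 ≤ K * τ then x ^ 9 * ψ τ x ^ 2 / (τ * Wt κ τ x) else 0) ≤
      nY κ L φ (fun τ x => χ0 (x / L) * ψ τ x) := by
    rw [nYJ_eq hφ hχψ]
    have h1 : II L (fun τ x => if x ^ 2 ≤ K * τ then x ^ 9 * ψ τ x ^ 2 / (τ * Wt κ τ x) else 0) ≤
        Jt κ L (fun τ x => χ0 (x / L) * ψ τ x) := by
      have hSm : MeasurableSet {p : ℝ × ℝ | p.2 ^ 2 ≤ K * p.1} :=
        measurableSet_le (by fun_prop) (by fun_prop)
      have hF : IntegrableOn (fun p : ℝ × ℝ => if p.2 ^ 2 ≤ K * p.1 then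
          p.2 ^ 9 * ψ p.1 p.2 ^ 2 / (p.1 * Wt κ p.1 p.2) else 0) (I01 ×ˢ Ioo (0 : ℝ) L) := by
        have h := (tst_integrable (tjt (κ := κ) hψ)).indicator hSm
        refine h.congr (Filter.Eventually.of_forall fun p => ?_)
        simp only [indicator, mem_setOf_eq]
        split_ifs
        · rw [Wt_eq]
          simp only [div_eq_mul_inv, mul_inv, inv_inv]
          ring
        · rfl
      refine setIntegral_mono_on hF (tst_integrable (tjt hχψ)) meas_dom ?_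
      rintro ⟨t, x⟩ ⟨ht, hx⟩
      simp only
      have hM := Mw_pos (κ := κ) (x := x) ht
      have ht0 := ht.1
      have hx0 := hx.1
      split_ifs with h2
      · have hxK : x ≤ K + 1 := by
          by_contra hcon
          rw [not_le] at hcon
          have h5 : K * t ≤ K := by nlinarith [ht.2.le]
          nlinarith
        have h3 : x / L ≤ 1 / 32 := by
          rw [div_le_div_iff₀ hL0 (by norm_num)]; linarith
        rw [hχ1 _ h3, Wt_eq, one_mul]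
        apply le_of_eq
        simp only [div_eq_mul_inv, mul_inv, inv_inv]
        ring
      · positivity
    have h2 : 0 ≤ J2 κ L φ (fun τ x => χ0 (x / L) * ψ τ x) := J2_nonneg
    linarith
  have hfin : c * nY κ L φ ψ ≤ (c / 4 * nY κ L φ ψ + CG * S / c) +
      CG * (C * (2 * CL * S + 2 * (CL / L) * nY κ L φ ψ)) := by
    have h1 := mul_le_mul_of_nonneg_left (hJ.trans hin) hCG
    have h2 : ((c / 2 * nY κ L φ ψ) + (2 * CG * S / c)) / 2 = c / 4 * nY κ L φ ψ + CG * S / c := by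
      ring
    linarith
  have hsmall : CG * (C * (2 * (CL / L) * nY κ L φ ψ)) ≤ c / 4 * nY κ L φ ψ := by
    have h1 : CG * C * 2 * (CL / L) ≤ c / 4 := by
      rw [div_le_iff₀ hc] at hLC
      have : CG * C * 2 * (CL / L) = (2 * CG * C * CL) / L := by ring
      rw [this, div_le_div_iff₀ hL0 (by norm_num)]
      linarith
    calc CG * (C * (2 * (CL / L) * nY κ L φ ψ)) = (CG * C * 2 * (CL / L)) * nY κ L φ ψ := by ring
      _ ≤ c / 4 * nY κ L φ ψ := mul_le_mul_of_nonneg_right h1 hY0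
  have h9 : c / 2 * nY κ L φ ψ ≤ (CG / c + 2 * CG * C * CL) * S := by
    have e : CG * (C * (2 * CL * S + 2 * (CL / L) * nY κ L φ ψ)) =
      2 * CG * C * CL * S + CG * (C * (2 * (CL / L) * nY κ L φ ψ)) := by ring
    rw [e] at hfin
    have e2 : (CG / c + 2 * CG * C * CL) * S = CG * S / c + 2 * CG * C * CL * S := by ring
    rw [e2]
    linarith
  calc nY κ L φ ψ = 2 / c * (c / 2 * nY κ L φ ψ) := by field_simp
    _ ≤ 2 / c * ((CG / c + 2 * CG * C * CL) * S) := mul_le_mul_of_nonneg_left h9 (by positivity)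
    _ = _ := by ring

end Crest.Agent.R213.A
end
end

-- ▼ part R213/A/DualAPE
section

/-!
# Row 213, PART A: from the a priori estimate `APE` to weak solutions
-/

set_option autoImplicit false

open Set MeasureTheory Filter Topology
open scoped ENNReal

noncomputable section

namespace Crest.Agent.R213.A

open Crest.Agent.R213.A.Dual

variable {L : ℝ}

theorem emb_sq {V f : ℝ → ℝ → ℝ} {p : ℝ × ℝ} (hp : p ∈ Dm L) (hV : 0 < V p.1 p.2) :
    emb V f p * emb V f p = p.2 ^ 9 * (V p.1 p.2 * f p.1 p.2 ^ 2) := by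
  have h9 : 0 ≤ V p.1 p.2 * p.2 ^ 9 := mul_nonneg hV.le (pow_nonneg hp.2.1.le 9)
  unfold emb
  have h1 : √(V p.1 p.2 * p.2 ^ 9) * √(V p.1 p.2 * p.2 ^ 9) = V p.1 p.2 * p.2 ^ 9 :=
    Real.mul_self_sqrt h9
  calc _ = √(V p.1 p.2 * p.2 ^ 9) * √(V p.1 p.2 * p.2 ^ 9) * (f p.1 p.2) ^ 2 := by ring
    _ = _ := by rw [h1]; ring

/-- the weighted norm of a function in `L²` is the obvious integral -/
theorem N2_int {V f : ℝ → ℝ → ℝ} (hV : ∀ p ∈ Dm L, 0 < V p.1 p.2)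
    (hm : MemLp (emb V f) 2 (μD L)) :
    IntegrableOn (fun p : ℝ × ℝ => p.2 ^ 9 * (V p.1 p.2 * f p.1 p.2 ^ 2)) (Dm L) ∧
      N2 L V f = ENNReal.ofReal (II L (fun τ x => x ^ 9 * (V τ x * f τ x ^ 2))) := by
  have h1 := integrable_mul hm hm
  have h2 : IntegrableOn (fun p : ℝ × ℝ => p.2 ^ 9 * (V p.1 p.2 * f p.1 p.2 ^ 2)) (Dm L) :=
    h1.congr_fun (fun p hp => emb_sq hp (hV p hp)) measurableSet_Dm
  refine ⟨h2, ?_⟩
  rw [N2_eq (fun p hp => (hV p hp).le), ← norm_toLp_sq hm, ← real_inner_self_eq_norm_sq,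
    inner_toLp hm hm, II]
  congr 1
  exact setIntegral_congr_fun measurableSet_Dm fun p hp => emb_sq hp (hV p hp)

theorem N2_add_int {V₁ V₂ f₁ f₂ : ℝ → ℝ → ℝ} (hV₁ : ∀ p ∈ Dm L, 0 < V₁ p.1 p.2)
    (hV₂ : ∀ p ∈ Dm L, 0 < V₂ p.1 p.2)
    (hm₁ : MemLp (emb V₁ f₁) 2 (μD L)) (hm₂ : MemLp (emb V₂ f₂) 2 (μD L)) :
    (N2 L V₁ f₁ + N2 L V₂ f₂).toReal =
      II L (fun τ x => x ^ 9 * (V₁ τ x * f₁ τ x ^ 2 + V₂ τ x * f₂ τ x ^ 2)) := by
  obtain ⟨i1, e1⟩ := N2_int hV₁ hm₁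
  obtain ⟨i2, e2⟩ := N2_int hV₂ hm₂
  have n1 : 0 ≤ II L (fun τ x => x ^ 9 * (V₁ τ x * f₁ τ x ^ 2)) :=
    setIntegral_nonneg measurableSet_Dm fun p hp =>
      mul_nonneg (pow_nonneg hp.2.1.le 9) (mul_nonneg (hV₁ p hp).le (sq_nonneg _))
  have n2 : 0 ≤ II L (fun τ x => x ^ 9 * (V₂ τ x * f₂ τ x ^ 2)) :=
    setIntegral_nonneg measurableSet_Dm fun p hp =>
      mul_nonneg (pow_nonneg hp.2.1.le 9) (mul_nonneg (hV₂ p hp).le (sq_nonneg _))
  rw [e1, e2, ← ENNReal.ofReal_add n1 n2, ENNReal.toReal_ofReal (add_nonneg n1 n2), II, II, II]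
  have := integral_add i1 i2
  rw [show (Ioo (0 : ℝ) 1 ×ˢ Ioo (0 : ℝ) L : Set (ℝ × ℝ)) = Dm L from rfl, ← this]
  exact setIntegral_congr_fun measurableSet_Dm fun p _ => (mul_add _ _ _).symm

theorem nX_eq (hL : 0 < L) {κ : ℝ} {φ : ℝ → ℝ → ℝ}
    (hφ : ContinuousOn (fun p : ℝ × ℝ => φ p.1 p.2) (Ioo (0 : ℝ) 1 ×ˢ Icc (0 : ℝ) L))
    {u : ℝ → ℝ → ℝ} (hu : Tst L u) :
    (N2 L (Wt κ) (fun τ x => φ τ x * dx L (dx L u) τ x) + N2 L (Wt' κ) u).toReal =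
      nX κ L φ u := by
  rw [N2_add_int (wgt_W κ).pos (wgt_W' κ).pos ((op_dxx hL hφ).memLp (wgt_W κ) hu)
    (op_id.memLp (wgt_W' κ) hu), nX]
  rfl

theorem nY_eq (hL : 0 < L) {κ : ℝ} {φ : ℝ → ℝ → ℝ}
    (hφ : ContinuousOn (fun p : ℝ × ℝ => φ p.1 p.2) (Ioo (0 : ℝ) 1 ×ˢ Icc (0 : ℝ) L))
    {ψ : ℝ → ℝ → ℝ} (hψ : Tst L ψ) :
    (N2 L (fun τ x => (Wt κ τ x)⁻¹) (fun τ x => φ τ x * dx L (dx L ψ) τ x) +
      N2 L (fun τ x => (Wt'' κ τ x)⁻¹) ψ).toReal = nY κ L φ ψ := by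
  rw [N2_add_int (wgt_Wi κ).pos (wgt_W''i κ).pos ((op_dxx hL hφ).memLp (wgt_Wi κ) hψ)
    (op_id.memLp (wgt_W''i κ) hψ), nY]
  congr 1
  funext τ x
  rw [Wt'']
  ring

theorem nX_nonneg {κ : ℝ} {φ u : ℝ → ℝ → ℝ} : 0 ≤ nX κ L φ u := by
  refine setIntegral_nonneg (measurableSet_Dm (L := L)) fun p hp => ?_
  have h0 : 0 < p.1 := hp.1.1
  have h1 := Wt_pos κ (x := p.2) h0
  exact mul_nonneg (pow_nonneg hp.2.1.le 9) (by positivity)


theorem phi_cont {c0 C0 : ℝ} {g : ℝ → ℝ} {L : ℝ} {φ m : ℝ → ℝ → ℝ} (hB : Bg c0 C0 g L φ m) :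
    ContinuousOn (fun p : ℝ × ℝ => φ p.1 p.2) (Ioo (0 : ℝ) 1 ×ˢ Icc (0 : ℝ) L) := by
  have h1 : ContinuousOn (fun p : ℝ × ℝ => p.2 * (1 - p.2 / L) * m p.1 p.2)
      (Ioo (0 : ℝ) 1 ×ˢ Icc (0 : ℝ) L) :=
    ContinuousOn.mul (by fun_prop) hB.sm.continuousOn
  exact h1.congr fun p hp => hB.phi_eq p.1 hp.1 p.2 hp.2

theorem dual {c0 C0 : ℝ} {g : ℝ → ℝ} {κ L C : ℝ} {φ m : ℝ → ℝ → ℝ} (hB : Bg c0 C0 g L φ m)
    (hC : 0 ≤ C) (h : APE κ L C φ) :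
    ∀ E h : ℝ → ℝ → ℝ, Sm (Ioo 0 1) L E → Sm (Ioo 0 1) L h →
        N2 L (Wt'' κ) E < ⊤ → N2 L (Wt κ) h < ⊤ →
      ∃ b δ : ℝ → ℝ → ℝ, Measurable (fun p : ℝ × ℝ => b p.1 p.2) ∧
        Measurable (fun p : ℝ × ℝ => δ p.1 p.2) ∧
        N2 L (Wt κ) b + N2 L (Wt' κ) δ ≤
          ENNReal.ofReal C * (N2 L (Wt κ) h + N2 L (Wt'' κ) E) ∧
        (∃ u : ℕ → ℝ → ℝ → ℝ, (∀ k, Tst L (u k)) ∧
          Tendsto (fun k => N2 L (Wt κ) (fun τ x => φ τ x * dx L (dx L (u k)) τ x - b τ x))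
            atTop (𝓝 0) ∧
          Tendsto (fun k => N2 L (Wt' κ) (fun τ x => u k τ x - δ τ x)) atTop (𝓝 0)) ∧
        (∀ ψ, Tst L ψ →
          II L (fun τ x => x ^ 9 * (dt ψ τ x * δ τ x + φ τ x * dx L (dx L ψ) τ x * b τ x)) =
            II L (fun τ x => x ^ 9 * (E τ x * ψ τ x + h τ x * φ τ x * dx L (dx L ψ) τ x))) := by
  have hL : 0 < L := by linarith [hB.L_ge]
  have hφ := phi_cont hB
  intro E f hE hf hE2 hf2
  have key := weak_of_infsup hL hφ (κ := κ) (Real.sqrt_nonneg C) (by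
    intro ψ hψ s hs hu
    have h1 := h ψ hψ (s ^ 2) (sq_nonneg s) (by
      intro u hu'
      have h2 := hu u hu'
      rw [nX_eq hL hφ hu'] at h2
      have h3 : BB L φ u ψ = II L (fun τ x => x ^ 9 * (dt ψ τ x * u τ x +
          φ τ x * dx L (dx L ψ) τ x * (φ τ x * dx L (dx L u) τ x))) := by
        rw [BB]
        congr 1
        funext τ x
        ring
      rw [h3, ← sq_abs]
      calc _ ≤ (s * √(nX κ L φ u)) ^ 2 := pow_le_pow_left₀ (abs_nonneg _) h2 2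
        _ = s ^ 2 * nX κ L φ u := by rw [mul_pow, Real.sq_sqrt nX_nonneg])
    rw [nY_eq hL hφ hψ]
    calc √(nY κ L φ ψ) ≤ √(C * s ^ 2) := Real.sqrt_le_sqrt h1
      _ = √C * s := by rw [Real.sqrt_mul hC, Real.sqrt_sq hs]) hE hf hE2 hf2
  rwa [Real.sq_sqrt hC] at key

end Crest.Agent.R213.A
end
end

-- ▼ part R213/A/WeakOf
section

/-!
# Row 213, PART A: assembly of `weak_exists` from `inner_static` (helper795)
-/

set_option autoImplicit false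

open Set MeasureTheory Filter Topology

noncomputable section

namespace Crest.Agent.R213.A

theorem weak_exists_of {c0 C0 : ℝ} {g : ℝ → ℝ} (hg : Prof c0 C0 g)
    (hst : ∃ κ ∈ Ioo (1 / 8 : ℝ) (1 / 4), ∃ C : ℝ, 0 ≤ C ∧ StEst g κ C) :
    ∃ κ ∈ Ioo (1 / 8 : ℝ) (1 / 4), ∃ L1 C : ℝ, ∀ L ≥ L1, ∀ φ m : ℝ → ℝ → ℝ, Bg c0 C0 g L φ m →
      ∀ E h : ℝ → ℝ → ℝ, Sm (Ioo 0 1) L E → Sm (Ioo 0 1) L h →
        N2 L (Wt'' κ) E < ⊤ → N2 L (Wt κ) h < ⊤ →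
      ∃ b δ : ℝ → ℝ → ℝ, Measurable (fun p : ℝ × ℝ => b p.1 p.2) ∧
        Measurable (fun p : ℝ × ℝ => δ p.1 p.2) ∧
        N2 L (Wt κ) b + N2 L (Wt' κ) δ ≤
          ENNReal.ofReal C * (N2 L (Wt κ) h + N2 L (Wt'' κ) E) ∧
        (∃ u : ℕ → ℝ → ℝ → ℝ, (∀ k, Tst L (u k)) ∧
          Tendsto (fun k => N2 L (Wt κ) (fun τ x => φ τ x * dx L (dx L (u k)) τ x - b τ x))
            atTop (𝓝 0) ∧
          Tendsto (fun k => N2 L (Wt' κ) (fun τ x => u k τ x - δ τ x)) atTop (𝓝 0)) ∧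
        (∀ ψ, Tst L ψ →
          II L (fun τ x => x ^ 9 * (dt ψ τ x * δ τ x + φ τ x * dx L (dx L ψ) τ x * b τ x)) =
            II L (fun τ x => x ^ 9 * (E τ x * ψ τ x + h τ x * φ τ x * dx L (dx L ψ) τ x))) := by
  obtain ⟨κ, hκ, Cs, hCs, hS⟩ := hst
  obtain ⟨Ct, hCt, hT⟩ := transfer hg hCs (four hg hCs hS)
  obtain ⟨L1, C, hC, _, hG⟩ := glue hg hκ hCt hT
  exact ⟨κ, hκ, L1, C, fun L hL φ m hB => dual hB hC (hG L hL φ m hB)⟩

end Crest.Agent.R213.A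
end
end

-- ▼ part R213/A/StForm
section

/-!
# Row 213, Part A: the stationary form in Hilbert space language
-/

set_option autoImplicit false

open Set MeasureTheory Filter Topology
open scoped InnerProductSpace ENNReal

noncomputable section

namespace Crest.Agent.R213.A.St

/-- closure of `CC` for complex-valued functions under multiplication by continuous functions -/
lemma CC.cmul {a : ℝ → ℂ} (ha : Continuous a) {F : ℝ → ℂ} (hF : CC F) :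
    CC (fun y => a y * F y) := by
  obtain ⟨hc, R, hR⟩ := hF
  exact ⟨ha.continuousOn.mul hc, R, fun y hy => by simp [hR y hy]⟩

lemma CC.cadd {F F' : ℝ → ℂ} (hF : CC F) (hF' : CC F') : CC (fun y => F y + F' y) := by
  obtain ⟨hc, R, hR⟩ := hF
  obtain ⟨hc', R', hR'⟩ := hF'
  exact ⟨hc.add hc', max R R', fun y hy => by
    simp [hR y ((le_max_left _ _).trans hy), hR' y ((le_max_right _ _).trans hy)]⟩

lemma CC.cconj_mul {F G : ℝ → ℂ} (hF : CC F) (hG : CC G) :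
    CC (fun y => starRingEnd ℂ (F y) * G y) := by
  obtain ⟨hc, R, hR⟩ := hF
  exact ⟨(Complex.continuous_conj.comp_continuousOn hc).mul hG.1, R, fun y hy => by simp [hR y hy]⟩

lemma cc0 {P : ℝ → ℂ} (h : DD P) : CC P := ⟨(dd_tf h).c0, (dd_tf h).s0⟩
lemma cc1 {P : ℝ → ℂ} (h : DD P) : CC (D1 P) := ⟨(dd_tf h).c1, (dd_tf h).s1⟩
lemma cc2 {P : ℝ → ℂ} (h : DD P) : CC (D2 P) := ⟨(dd_tf h).c2, (dd_tf h).s2⟩

lemma cc_iF0 {P : ℝ → ℂ} (h : DD P) : CC (fun y => (sv y : ℂ) * P y) :=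
  (cc0 h).cmul (Complex.continuous_ofReal.comp sv_cont)

lemma cc_iF1 {g : ℝ → ℝ} (hg : Continuous g) {P : ℝ → ℂ} (h : DD P) :
    CC (fun y => ((sv y * (y * g y) : ℝ) : ℂ) * D2 P y) :=
  (cc2 h).cmul (a := fun y => ((sv y * (y * g y) : ℝ) : ℂ))
    (Complex.continuous_ofReal.comp (sv_cont.mul (continuous_id.mul hg)))

lemma cc_bF1 {g : ℝ → ℝ} (hg : Continuous g) {P : ℝ → ℂ} (h : DD P) :
    CC (fun y => ((tv y * (y * g y) : ℝ) : ℂ) * D2 P y) :=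
  (cc2 h).cmul (a := fun y => ((tv y * (y * g y) : ℝ) : ℂ))
    (Complex.continuous_ofReal.comp (tv_cont.mul (continuous_id.mul hg)))

lemma cc_jF {P : ℝ → ℂ} (h : DD P) : CC (fun y => (tv y : ℂ) * P y) :=
  (cc0 h).cmul (Complex.continuous_ofReal.comp tv_cont)

lemma cc_bF0 {P : ℝ → ℂ} (h : DD P) :
    CC (fun y => (tv y : ℂ) * (5 * P y + ((y / 2 : ℝ) : ℂ) * D1 P y)) := by
  have h1 : CC (fun y => (5 : ℂ) * P y) := (cc0 h).cmul continuous_const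
  have h2 : CC (fun y => ((y / 2 : ℝ) : ℂ) * D1 P y) :=
    (cc1 h).cmul (a := fun y => ((y / 2 : ℝ) : ℂ)) (by fun_prop)
  exact (h1.cadd h2).cmul (Complex.continuous_ofReal.comp tv_cont)

/-- the energy embedding -/
def iota {g : ℝ → ℝ} (hg : Continuous g) (P : ℝ → ℂ) (h : DD P) : HH :=
  WithLp.toLp 2 (toL _ (cc_iF1 hg h), toL _ (cc_iF0 h))

/-- Riesz vector of `B₀(Q,·)` -/
def bvec {g : ℝ → ℝ} (hg : Continuous g) (P : ℝ → ℂ) (h : DD P) : HH :=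
  WithLp.toLp 2 (toL _ (cc_bF1 hg h), toL _ (cc_bF0 h))

/-- Riesz vector of the mass form -/
def jvec (P : ℝ → ℂ) (h : DD P) : LL := toL _ (cc_jF h)


/-- the energy embedding as a linear map -/
def iotaL {g : ℝ → ℝ} (hg : Continuous g) : DDs →ₗ[ℂ] HH where
  toFun P := iota hg P.1 P.2
  map_add' P Q := by
    have h1 : toL _ (cc_iF1 hg (dd_add P.2 Q.2)) = toL _ (cc_iF1 hg P.2) + toL _ (cc_iF1 hg Q.2) := by
      unfold toL
      rw [← MemLp.toLp_add, MemLp.toLp_eq_toLp_iff]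
      filter_upwards [ae_restrict_mem measurableSet_Ioi] with y hy
      simp only [Pi.add_apply]
      rw [D2_add P.2 Q.2 hy]; ring
    have h2 : toL _ (cc_iF0 (dd_add P.2 Q.2)) = toL _ (cc_iF0 P.2) + toL _ (cc_iF0 Q.2) := by
      unfold toL
      rw [← MemLp.toLp_add, MemLp.toLp_eq_toLp_iff]
      filter_upwards [ae_restrict_mem measurableSet_Ioi] with y hy
      simp only [Pi.add_apply]; ring
    change WithLp.toLp 2 (toL _ (cc_iF1 hg (dd_add P.2 Q.2)), toL _ (cc_iF0 (dd_add P.2 Q.2))) = _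
    rw [h1, h2]; rfl
  map_smul' a P := by
    have h1 : toL _ (cc_iF1 hg (dd_smul a P.2)) = a • toL _ (cc_iF1 hg P.2) := by
      unfold toL
      rw [← MemLp.toLp_const_smul, MemLp.toLp_eq_toLp_iff]
      filter_upwards [ae_restrict_mem measurableSet_Ioi] with y hy
      simp only [Pi.smul_apply, smul_eq_mul]
      rw [D2_smul a P.2 hy]; ring
    have h2 : toL _ (cc_iF0 (dd_smul a P.2)) = a • toL _ (cc_iF0 P.2) := by
      unfold toL
      rw [← MemLp.toLp_const_smul, MemLp.toLp_eq_toLp_iff]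
      filter_upwards [ae_restrict_mem measurableSet_Ioi] with y hy
      simp only [Pi.smul_apply, smul_eq_mul]; ring
    change WithLp.toLp 2 (toL _ (cc_iF1 hg (dd_smul a P.2)), toL _ (cc_iF0 (dd_smul a P.2))) = _
    rw [h1, h2]; rfl

/-- `⟪bvec Q, iota P⟫` as an integral -/
lemma inner_bvec_iota {g : ℝ → ℝ} (hg : Continuous g) {P Q : ℝ → ℂ} (hP : DD P) (hQ : DD Q) :
    ⟪bvec hg Q hQ, iota hg P hP⟫_ℂ = ∫ y in Ioi (0 : ℝ), ((y ^ 9 : ℝ) : ℂ) *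
      ((((y * g y) ^ 2 : ℝ) : ℂ) * (starRingEnd ℂ (D2 Q y) * D2 P y) +
        starRingEnd ℂ (5 * Q y + ((y / 2 : ℝ) : ℂ) * D1 Q y) * P y) := by
  rw [WithLp.prod_inner_apply]
  change ⟪toL _ (cc_bF1 hg hQ), toL _ (cc_iF1 hg hP)⟫_ℂ + ⟪toL _ (cc_bF0 hQ), toL _ (cc_iF0 hP)⟫_ℂ = _
  rw [inner_toL, inner_toL, ← integral_add ((cc_bF1 hg hQ).cconj_mul (cc_iF1 hg hP)).integrableOn
    ((cc_bF0 hQ).cconj_mul (cc_iF0 hP)).integrableOn]
  refine setIntegral_congr_fun measurableSet_Ioi fun y hy => ?_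
  have h1 := tv_sv (le_of_lt (mem_Ioi.1 hy))
  simp only [map_mul, Complex.conj_ofReal]
  rw [← h1]; push_cast; ring

lemma inner_jvec_iota {g : ℝ → ℝ} (hg : Continuous g) {P Q : ℝ → ℂ} (hP : DD P) (hQ : DD Q) :
    ⟪jvec Q hQ, (iota hg P hP).snd⟫_ℂ = ∫ y in Ioi (0 : ℝ), ((y ^ 9 : ℝ) : ℂ) *
      (starRingEnd ℂ (Q y) * P y) := by
  change ⟪toL _ (cc_jF hQ), toL _ (cc_iF0 hP)⟫_ℂ = _
  rw [inner_toL]
  refine setIntegral_congr_fun measurableSet_Ioi fun y hy => ?_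
  have h1 := tv_sv (le_of_lt (mem_Ioi.1 hy))
  simp only [map_mul, Complex.conj_ofReal]
  rw [← h1]; push_cast; ring

lemma norm_iota_sq {g : ℝ → ℝ} (hg : Continuous g) {P : ℝ → ℂ} (hP : DD P) :
    ‖iota hg P hP‖ ^ 2 = (∫ y in Ioi (0 : ℝ), y ^ 11 * (g y) ^ 2 * (1 + y ^ 2) ^ 60 * ‖D2 P y‖ ^ 2) +
      ∫ y in Ioi (0 : ℝ), y ^ 9 * (1 + y ^ 2) ^ 60 * ‖P y‖ ^ 2 := by
  rw [WithLp.prod_norm_sq_eq_of_L2]
  change ‖toL _ (cc_iF1 hg hP)‖ ^ 2 + ‖toL _ (cc_iF0 hP)‖ ^ 2 = _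
  rw [norm_toL_sq, norm_toL_sq]
  congr 1
  · refine setIntegral_congr_fun measurableSet_Ioi fun y hy => ?_
    have h1 := sv_sq (le_of_lt (mem_Ioi.1 hy))
    simp only [norm_mul, Complex.norm_real, mul_pow, Real.norm_eq_abs, sq_abs]
    rw [h1]; ring
  · refine setIntegral_congr_fun measurableSet_Ioi fun y hy => ?_
    have h1 := sv_sq (le_of_lt (mem_Ioi.1 hy))
    simp only [norm_mul, Complex.norm_real, mul_pow, Real.norm_eq_abs, sq_abs]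
    rw [h1]

lemma norm_iota_sq_stY {g : ℝ → ℝ} (hg : Continuous g) {P : ℝ → ℂ} (hP : DD P) :
    ‖iota hg P hP‖ ^ 2 = stY g P := by
  rw [norm_iota_sq]
  have a1 : CC (fun y => y ^ 11 * (g y) ^ 2 * (1 + y ^ 2) ^ 60 * ‖D2 P y‖ ^ 2) :=
    (cc_norm_sq (cc2 hP).1 (cc2 hP).2).mul_left
      (a := fun y => y ^ 11 * (g y) ^ 2 * (1 + y ^ 2) ^ 60) (by fun_prop)
  have a2 : CC (fun y => y ^ 9 * (1 + y ^ 2) ^ 60 * ‖P y‖ ^ 2) :=
    (cc_norm_sq (cc0 hP).1 (cc0 hP).2).mul_left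
      (a := fun y => y ^ 9 * (1 + y ^ 2) ^ 60) (by fun_prop)
  rw [← integral_add a1.integrableOn a2.integrableOn, stY]
  refine setIntegral_congr_fun measurableSet_Ioi fun y hy => ?_
  simp only [w60]
  rw [DD.deriv2_eq (mem_Ioi.1 hy)]
  simp only [D2]
  ring

/-- (Z) for complex-valued functions -/
lemma integral_total_c {F F' : ℝ → ℂ} (hF : CC F) (hF' : CC F') (h0 : F 0 = 0)
    (hd : ∀ y : ℝ, 0 < y → HasDerivAt F (F' y) y) : ∫ y in Ioi (0 : ℝ), F' y = 0 := by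
  have h1 : Tendsto F atTop (𝓝 0) := by
    obtain ⟨-, R, hR⟩ := hF
    refine tendsto_const_nhds.congr' ?_
    filter_upwards [eventually_ge_atTop R] with y hy
    exact (hR y hy).symm
  have h2 := integral_Ioi_of_hasDerivAt_of_tendsto (a := (0 : ℝ))
    (hF.1 0 (mem_Ici.2 le_rfl)) (fun x hx => hd x hx) hF'.integrableOn h1
  rw [h2, h0, sub_zero]

/-- the stationary form in Hilbert space language -/
lemma stForm_eq {g : ℝ → ℝ} (hg : Continuous g) (κ ξ : ℝ) {P Q : ℝ → ℂ} (hP : DD P) (hQ : DD Q) :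
    stForm g κ ξ Q P = ⟪bvec hg Q hQ, iota hg P hP⟫_ℂ -
      (((65 / 2 - κ : ℝ) : ℂ) + ξ * Complex.I) * ⟪jvec Q hQ, (iota hg P hP).snd⟫_ℂ := by
  rw [inner_bvec_iota, inner_jvec_iota, ← integral_const_mul]
  -- the total derivative
  set F : ℝ → ℂ := fun y => ((y ^ 10 / 2 : ℝ) : ℂ) * (starRingEnd ℂ (Q y) * P y) with hF
  set F' : ℝ → ℂ := fun y => ((5 * y ^ 9 : ℝ) : ℂ) * (starRingEnd ℂ (Q y) * P y) +
    ((y ^ 10 / 2 : ℝ) : ℂ) * (starRingEnd ℂ (D1 Q y) * P y + starRingEnd ℂ (Q y) * D1 P y) with hF'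
  have cQP := (cc0 hQ).cconj_mul (cc0 hP)
  have cQ1P := (cc1 hQ).cconj_mul (cc0 hP)
  have cQP1 := (cc0 hQ).cconj_mul (cc1 hP)
  have cQ2P2 := (cc2 hQ).cconj_mul (cc2 hP)
  have hF'c : CC F' := (cQP.cmul (a := fun y => ((5 * y ^ 9 : ℝ) : ℂ)) (by fun_prop)).cadd
    ((cQ1P.cadd cQP1).cmul (a := fun y => ((y ^ 10 / 2 : ℝ) : ℂ)) (by fun_prop))
  have h0 : ∫ y in Ioi (0 : ℝ), F' y = 0 := by
    refine integral_total_c (F := F) (cQP.cmul (a := fun y => ((y ^ 10 / 2 : ℝ) : ℂ)) (by fun_prop))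
      hF'c (by simp [hF]) ?_
    intro y hy
    have h1 : HasDerivAt (fun y : ℝ => ((y ^ 10 / 2 : ℝ) : ℂ)) (((5 * y ^ 9 : ℝ) : ℂ)) y := by
      have : HasDerivAt (fun y : ℝ => y ^ 10 / 2) (5 * y ^ 9) y := by
        refine ((hasDerivAt_pow 10 y).div_const 2).congr_deriv ?_
        norm_num; ring
      exact this.ofReal_comp
    have h2 : HasDerivAt (fun y => starRingEnd ℂ (Q y)) (starRingEnd ℂ (D1 Q y)) y := by
      exact ((dd_tf hQ).d1 y hy).star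
    have h3 := h1.mul (h2.mul ((dd_tf hP).d1 y hy))
    exact h3
  -- integrability of the three integrands
  have c1 : CC (fun y => ((y ^ 9 : ℝ) : ℂ) *
      ((((y * g y) ^ 2 : ℝ) : ℂ) * (starRingEnd ℂ (D2 Q y) * D2 P y) +
        starRingEnd ℂ (5 * Q y + ((y / 2 : ℝ) : ℂ) * D1 Q y) * P y)) := by
    have e1 : CC (fun y => (((y * g y) ^ 2 : ℝ) : ℂ) * (starRingEnd ℂ (D2 Q y) * D2 P y)) :=
      cQ2P2.cmul (a := fun y => (((y * g y) ^ 2 : ℝ) : ℂ)) (by fun_prop)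
    have e2 : CC (fun y => (5 : ℂ) * Q y + ((y / 2 : ℝ) : ℂ) * D1 Q y) :=
      ((cc0 hQ).cmul continuous_const).cadd ((cc1 hQ).cmul (a := fun y => ((y / 2 : ℝ) : ℂ))
        (by fun_prop))
    exact (e1.cadd (e2.cconj_mul (cc0 hP))).cmul (a := fun y => ((y ^ 9 : ℝ) : ℂ)) (by fun_prop)
  have c2 : CC (fun y => (((65 / 2 - κ : ℝ) : ℂ) + ξ * Complex.I) *
      (((y ^ 9 : ℝ) : ℂ) * (starRingEnd ℂ (Q y) * P y))) :=
    (cQP.cmul (a := fun y => ((y ^ 9 : ℝ) : ℂ)) (by fun_prop)).cmul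
      (a := fun _ => (((65 / 2 - κ : ℝ) : ℂ) + ξ * Complex.I)) continuous_const
  rw [← integral_sub c1.integrableOn c2.integrableOn, ← sub_zero (∫ y in Ioi (0 : ℝ), _), ← h0,
    ← integral_sub ?_ hF'c.integrableOn, stForm]
  · refine setIntegral_congr_fun measurableSet_Ioi fun y hy => ?_
    simp only [hF']
    rw [DD.deriv2_eq (mem_Ioi.1 hy), DD.deriv2_eq (mem_Ioi.1 hy), DD.deriv_eq (mem_Ioi.1 hy)]
    simp only [D1, D2, map_add, map_mul, Complex.conj_ofReal, map_ofNat]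
    push_cast
    ring
  · exact (c1.integrableOn.sub c2.integrableOn)

end Crest.Agent.R213.A.St
end
end

-- ▼ part R213/A/StBound
section

/-!
# Row 213, Part A: bounds for multiplied test functions
-/

set_option autoImplicit false

open Set MeasureTheory Filter Topology
open scoped InnerProductSpace ENNReal

noncomputable section

namespace Crest.Agent.R213.A.St

variable {c0 C0 : ℝ} {g : ℝ → ℝ}

lemma norm_sq_three (a b c : ℂ) : ‖a + b + c‖ ^ 2 ≤ 3 * (‖a‖ ^ 2 + ‖b‖ ^ 2 + ‖c‖ ^ 2) := by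
  have h := norm_add₃_le (a := a) (b := b) (c := c)
  have h0 : 0 ≤ ‖a + b + c‖ := norm_nonneg _
  nlinarith [sq_nonneg (‖a‖ - ‖b‖), sq_nonneg (‖a‖ - ‖c‖), sq_nonneg (‖b‖ - ‖c‖),
    norm_nonneg a, norm_nonneg b, norm_nonneg c]

/-- pure algebra: `p = T^60`, `q = T^58` -/
lemma alg1 {y T p q g C0 A V0 V1 V2 a b c N : ℝ} (hy : 0 < y) (hT : 0 < T) (hyT : y ^ 2 ≤ T)
    (hp : 0 < p) (hq : 0 < q) (hg : g ^ 2 ≤ C0 ^ 2)
    (h0 : V0 ^ 2 ≤ p * p) (h1 : V1 ^ 2 ≤ A ^ 2 * (y ^ 2 * (p * q))) (h2 : V2 ^ 2 ≤ A ^ 2 * (p * q))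
    (ha : 0 ≤ a) (hb : 0 ≤ b) (hc : 0 ≤ c)
    (hN : N ≤ 3 * (V2 ^ 2 * a + 2 ^ 2 * V1 ^ 2 * b + V0 ^ 2 * c)) :
    y ^ 9 / p * ((y * g) ^ 2 * N) ≤
      3 * A ^ 2 * C0 ^ 2 * (y ^ 9 * (q * T) * a) + 12 * A ^ 2 * (y ^ 13 * g ^ 2 * q * b) +
        3 * (y ^ 11 * g ^ 2 * p * c) := by
  have hgn : 0 ≤ g ^ 2 := sq_nonneg g
  have e1 : y ^ 9 / p * ((y * g) ^ 2 * (3 * (V2 ^ 2 * a))) ≤
      3 * A ^ 2 * C0 ^ 2 * (y ^ 9 * (q * T) * a) := by
    calc y ^ 9 / p * ((y * g) ^ 2 * (3 * (V2 ^ 2 * a)))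
        ≤ y ^ 9 / p * ((y * g) ^ 2 * (3 * ((A ^ 2 * (p * q)) * a))) := by gcongr
      _ = (3 * A ^ 2 * (y ^ 9 * q * a)) * (g ^ 2 * y ^ 2) := by field_simp
      _ ≤ (3 * A ^ 2 * (y ^ 9 * q * a)) * (C0 ^ 2 * T) := by gcongr
      _ = _ := by ring
  have e2 : y ^ 9 / p * ((y * g) ^ 2 * (3 * (2 ^ 2 * V1 ^ 2 * b))) ≤
      12 * A ^ 2 * (y ^ 13 * g ^ 2 * q * b) := by
    calc y ^ 9 / p * ((y * g) ^ 2 * (3 * (2 ^ 2 * V1 ^ 2 * b)))
        ≤ y ^ 9 / p * ((y * g) ^ 2 * (3 * (2 ^ 2 * (A ^ 2 * (y ^ 2 * (p * q))) * b))) := by gcongr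
      _ = _ := by field_simp; ring
  have e3 : y ^ 9 / p * ((y * g) ^ 2 * (3 * (V0 ^ 2 * c))) ≤
      3 * (y ^ 11 * g ^ 2 * p * c) := by
    calc y ^ 9 / p * ((y * g) ^ 2 * (3 * (V0 ^ 2 * c)))
        ≤ y ^ 9 / p * ((y * g) ^ 2 * (3 * (p * p * c))) := by gcongr
      _ = _ := by field_simp
  calc y ^ 9 / p * ((y * g) ^ 2 * N)
      ≤ y ^ 9 / p * ((y * g) ^ 2 * (3 * (V2 ^ 2 * a + 2 ^ 2 * V1 ^ 2 * b + V0 ^ 2 * c))) := by
        gcongr
    _ = y ^ 9 / p * ((y * g) ^ 2 * (3 * (V2 ^ 2 * a))) +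
        y ^ 9 / p * ((y * g) ^ 2 * (3 * (2 ^ 2 * V1 ^ 2 * b))) +
        y ^ 9 / p * ((y * g) ^ 2 * (3 * (V0 ^ 2 * c))) := by ring
    _ ≤ _ := by linarith

/-- pure algebra for the zeroth component -/
lemma alg2 {y p A V0 V1 T q a b M N : ℝ} (hy : 0 < y) (hT : 0 < T) (hyT : y ^ 2 ≤ T)
    (hp : 0 < p) (hq : 0 < q) (hpq : p = q * T ^ 2)
    (h0 : V0 ^ 2 ≤ p * p) (h1 : V1 ^ 2 ≤ A ^ 2 * (y ^ 2 * (p * q)))
    (ha : 0 ≤ a) (hb : 0 ≤ b) (hM : V0 = 0 ∨ y ^ 2 * p ≤ M) (hM0 : 0 ≤ M)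
    (hN : N ≤ 3 * ((5 * V0) ^ 2 * a + (y / 2 * V1) ^ 2 * a + (y / 2 * V0) ^ 2 * b)) :
    y ^ 9 / p * N ≤ (75 + 3 * A ^ 2) * (y ^ 9 * p * a) + M * (y ^ 9 * b) := by
  have t1 : y ^ 9 / p * (3 * ((5 * V0) ^ 2 * a)) ≤ 75 * (y ^ 9 * p * a) := by
    calc y ^ 9 / p * (3 * ((5 * V0) ^ 2 * a))
        = y ^ 9 / p * (75 * (V0 ^ 2 * a)) := by ring
      _ ≤ y ^ 9 / p * (75 * (p * p * a)) := by gcongr
      _ = _ := by field_simp
  have t2 : y ^ 9 / p * (3 * ((y / 2 * V1) ^ 2 * a)) ≤ 3 * A ^ 2 * (y ^ 9 * p * a) := by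
    have y4 : y ^ 4 ≤ T ^ 2 := by
      have : y ^ 4 = (y ^ 2) ^ 2 := by ring
      rw [this]; exact pow_le_pow_left₀ (by positivity) hyT 2
    calc y ^ 9 / p * (3 * ((y / 2 * V1) ^ 2 * a))
        = y ^ 9 / p * (3 * (y ^ 2 / 4 * V1 ^ 2 * a)) := by ring
      _ ≤ y ^ 9 / p * (3 * (y ^ 2 / 4 * (A ^ 2 * (y ^ 2 * (p * q))) * a)) := by gcongr
      _ = (3 / 4 * A ^ 2 * (y ^ 9 * q * a)) * y ^ 4 := by field_simp
      _ ≤ (3 / 4 * A ^ 2 * (y ^ 9 * q * a)) * T ^ 2 := by gcongr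
      _ = 3 / 4 * (A ^ 2 * (y ^ 9 * p * a)) := by rw [hpq]; ring
      _ ≤ _ := by
          have : 0 ≤ A ^ 2 * (y ^ 9 * p * a) := by positivity
          linarith
  have t3 : y ^ 9 / p * (3 * ((y / 2 * V0) ^ 2 * b)) ≤ M * (y ^ 9 * b) := by
    rcases hM with hM | hM
    · rw [hM]
      have : 0 ≤ M * (y ^ 9 * b) := by positivity
      simpa using this
    · calc y ^ 9 / p * (3 * ((y / 2 * V0) ^ 2 * b))
          = y ^ 9 / p * (3 / 4 * (y ^ 2 * V0 ^ 2 * b)) := by ring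
        _ ≤ y ^ 9 / p * (3 / 4 * (y ^ 2 * (p * p) * b)) := by gcongr
        _ = (3 / 4 * (y ^ 9 * b)) * (y ^ 2 * p) := by field_simp
        _ ≤ (3 / 4 * (y ^ 9 * b)) * M := by gcongr
        _ ≤ _ := by
            have : 0 ≤ (y ^ 9 * b) * M := by positivity
            linarith
  calc y ^ 9 / p * N
      ≤ y ^ 9 / p * (3 * ((5 * V0) ^ 2 * a + (y / 2 * V1) ^ 2 * a + (y / 2 * V0) ^ 2 * b)) := by
        gcongr
    _ = y ^ 9 / p * (3 * ((5 * V0) ^ 2 * a)) +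
        y ^ 9 / p * (3 * ((y / 2 * V1) ^ 2 * a)) +
        y ^ 9 / p * (3 * ((y / 2 * V0) ^ 2 * b)) := by ring
    _ ≤ _ := by linarith

lemma Wgt.sq0 {A : ℝ} {v v1 v2 : ℝ → ℝ} (hv : Wgt A v v1 v2) {y : ℝ} (hy : 0 < y) :
    v y ^ 2 ≤ (1 + y ^ 2) ^ 60 * (1 + y ^ 2) ^ 60 := by
  have := pow_le_pow_left₀ (hv.nonneg y hy) (hv.le_w y hy) 2
  rwa [sq ((1 + y ^ 2) ^ 60)] at this

lemma pow_split (T : ℝ) : T ^ 59 * T ^ 59 = T ^ 60 * T ^ 58 := by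
  rw [← pow_add, ← pow_add]

lemma Wgt.sq1 {A : ℝ} {v v1 v2 : ℝ → ℝ} (hv : Wgt A v v1 v2) {y : ℝ} (hy : 0 < y) :
    v1 y ^ 2 ≤ A ^ 2 * (y ^ 2 * ((1 + y ^ 2) ^ 60 * (1 + y ^ 2) ^ 58)) := by
  have := pow_le_pow_left₀ (abs_nonneg _) (hv.b1 y hy) 2
  rw [sq_abs] at this
  rw [← pow_split]
  refine this.trans (le_of_eq ?_)
  generalize (1 + y ^ 2) ^ 59 = r
  ring

lemma Wgt.sq2 {A : ℝ} {v v1 v2 : ℝ → ℝ} (hv : Wgt A v v1 v2) {y : ℝ} (hy : 0 < y) :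
    v2 y ^ 2 ≤ A ^ 2 * ((1 + y ^ 2) ^ 60 * (1 + y ^ 2) ^ 58) := by
  have := pow_le_pow_left₀ (abs_nonneg _) (hv.b2 y hy) 2
  rw [sq_abs] at this
  rw [← pow_split]
  refine this.trans (le_of_eq ?_)
  generalize (1 + y ^ 2) ^ 59 = r
  ring

lemma T60 (T : ℝ) : T ^ 60 = T ^ 58 * T ^ 2 := by rw [← pow_add]
lemma T59 (T : ℝ) : T ^ 59 = T ^ 58 * T := by rw [← pow_succ]

/-- pointwise bound of the second derivative part -/
lemma pw_d2 (hg : Prof c0 C0 g) {A : ℝ} {v v1 v2 : ℝ → ℝ} (hv : Wgt A v v1 v2)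
    (hs : ContDiff ℝ (⊤ : ℕ∞) v) {P : ℝ → ℂ} (hP : DD P) {y : ℝ} (hy : 0 < y) :
    tv y ^ 2 * ((y * g y) ^ 2 * ‖D2 (fun y => (v y : ℂ) * P y) y‖ ^ 2) ≤
      3 * A ^ 2 * C0 ^ 2 * (y ^ 9 * (1 + y ^ 2) ^ 59 * ‖P y‖ ^ 2) +
      12 * A ^ 2 * (y ^ 13 * (g y) ^ 2 * (1 + y ^ 2) ^ 58 * ‖D1 P y‖ ^ 2) +
      3 * (y ^ 11 * (g y) ^ 2 * (1 + y ^ 2) ^ 60 * ‖D2 P y‖ ^ 2) := by
  rw [D2_mul_real hs hv.d1 hv.d2 hP hy, tv_sq hy.le, T59]
  have h1 := norm_sq_three ((v2 y : ℂ) * P y) (2 * v1 y * D1 P y) (v y * D2 P y)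
  have e1 : ‖(v2 y : ℂ) * P y‖ ^ 2 = v2 y ^ 2 * ‖P y‖ ^ 2 := by
    rw [norm_mul, mul_pow, Complex.norm_real, Real.norm_eq_abs, sq_abs]
  have e2 : ‖2 * (v1 y : ℂ) * D1 P y‖ ^ 2 = 2 ^ 2 * v1 y ^ 2 * ‖D1 P y‖ ^ 2 := by
    rw [norm_mul, norm_mul, mul_pow, mul_pow, Complex.norm_real, Real.norm_eq_abs, sq_abs]
    norm_num
  have e3 : ‖(v y : ℂ) * D2 P y‖ ^ 2 = v y ^ 2 * ‖D2 P y‖ ^ 2 := by
    rw [norm_mul, mul_pow, Complex.norm_real, Real.norm_eq_abs, sq_abs]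
  rw [e1, e2, e3] at h1
  exact alg1 hy (by positivity) (by linarith) (by positivity) (by positivity)
    (pow_le_pow_left₀ (Prof.g_pos hg hy.le).le (hg.upper y hy.le) 2) (Wgt.sq0 hv hy)
    (Wgt.sq1 hv hy) (Wgt.sq2 hv hy) (by positivity) (by positivity) (by positivity) h1

/-- constant for the bound of the second derivative part -/
def Kc (A C0 : ℝ) : ℝ := 3 * A ^ 2 * C0 ^ 2 + 12 * A ^ 2 * (1 + (133 * C0) ^ 2 + C0 ^ 2) + 3

lemma Kc_nonneg (A C0 : ℝ) : 0 ≤ Kc A C0 := by unfold Kc; positivity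

lemma alg3 {A C0 I2 I1 IL I0 N J : ℝ} (hI2 : 0 ≤ I2) (hI0 : 0 ≤ I0) (hL : IL ≤ I0)
    (hI : I1 ≤ 1 * I2 + ((133 * C0) ^ 2 + C0 ^ 2 / 1) * IL)
    (hJ : J ≤ 3 * A ^ 2 * C0 ^ 2 * IL + 12 * A ^ 2 * I1 + 3 * I2) (hN : N = I2 + I0) :
    J ≤ Kc A C0 * N := by
  have h2 : I1 ≤ I2 + ((133 * C0) ^ 2 + C0 ^ 2) * I0 := by
    have : ((133 * C0) ^ 2 + C0 ^ 2) * IL ≤ ((133 * C0) ^ 2 + C0 ^ 2) * I0 :=
      mul_le_mul_of_nonneg_left hL (by positivity)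
    simp only [div_one, one_mul] at hI
    linarith
  have h3 : 12 * A ^ 2 * I1 ≤ 12 * A ^ 2 * (I2 + ((133 * C0) ^ 2 + C0 ^ 2) * I0) :=
    mul_le_mul_of_nonneg_left h2 (by positivity)
  have h4 : 3 * A ^ 2 * C0 ^ 2 * IL ≤ 3 * A ^ 2 * C0 ^ 2 * I0 :=
    mul_le_mul_of_nonneg_left hL (by positivity)
  have p1 : 0 ≤ 3 * A ^ 2 * C0 ^ 2 * I2 := by positivity
  have p2 : 0 ≤ 12 * A ^ 2 * ((133 * C0) ^ 2 + C0 ^ 2) * I2 := by positivity
  have p3 : 0 ≤ 12 * A ^ 2 * I0 := by positivity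
  have e : Kc A C0 * N = 3 * A ^ 2 * C0 ^ 2 * I2 + 3 * A ^ 2 * C0 ^ 2 * I0 +
      (12 * A ^ 2 * I2 + 12 * A ^ 2 * I0 + 12 * A ^ 2 * ((133 * C0) ^ 2 + C0 ^ 2) * I2 +
        12 * A ^ 2 * ((133 * C0) ^ 2 + C0 ^ 2) * I0) + 3 * I2 + 3 * I0 := by
    rw [hN]; unfold Kc; ring
  rw [e]
  have e' : 12 * A ^ 2 * (I2 + ((133 * C0) ^ 2 + C0 ^ 2) * I0) = 12 * A ^ 2 * I2 +
      12 * A ^ 2 * ((133 * C0) ^ 2 + C0 ^ 2) * I0 := by ring
  rw [e'] at h3
  linarith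

lemma nonneg_I2 {P : ℝ → ℂ} :
    0 ≤ ∫ y in Ioi (0 : ℝ), y ^ 11 * (g y) ^ 2 * (1 + y ^ 2) ^ 60 * ‖D2 P y‖ ^ 2 :=
  setIntegral_nonneg measurableSet_Ioi (fun y hy => by
    have : 0 < y := hy
    positivity)

lemma nonneg_I0 {P : ℝ → ℂ} :
    0 ≤ ∫ y in Ioi (0 : ℝ), y ^ 9 * (1 + y ^ 2) ^ 60 * ‖P y‖ ^ 2 :=
  setIntegral_nonneg measurableSet_Ioi (fun y hy => by
    have : 0 < y := hy
    positivity)

lemma cc_I0 {P : ℝ → ℂ} (hP : DD P) : CC (fun y => y ^ 9 * (1 + y ^ 2) ^ 60 * ‖P y‖ ^ 2) :=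
  (cc_norm_sq (cc0 hP).1 (cc0 hP).2).mul_left (a := fun y => y ^ 9 * (1 + y ^ 2) ^ 60) (by fun_prop)
lemma cc_IL {P : ℝ → ℂ} (hP : DD P) : CC (fun y => y ^ 9 * (1 + y ^ 2) ^ 59 * ‖P y‖ ^ 2) :=
  (cc_norm_sq (cc0 hP).1 (cc0 hP).2).mul_left (a := fun y => y ^ 9 * (1 + y ^ 2) ^ 59) (by fun_prop)
lemma cc_I1 (hg : Prof c0 C0 g) {P : ℝ → ℂ} (hP : DD P) :
    CC (fun y => y ^ 13 * (g y) ^ 2 * (1 + y ^ 2) ^ 58 * ‖D1 P y‖ ^ 2) := by
  have hgc := Prof.cont hg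
  exact (cc_norm_sq (cc1 hP).1 (cc1 hP).2).mul_left
    (a := fun y => y ^ 13 * (g y) ^ 2 * (1 + y ^ 2) ^ 58) (by fun_prop)
lemma cc_I2 (hg : Prof c0 C0 g) {P : ℝ → ℂ} (hP : DD P) :
    CC (fun y => y ^ 11 * (g y) ^ 2 * (1 + y ^ 2) ^ 60 * ‖D2 P y‖ ^ 2) := by
  have hgc := Prof.cont hg
  exact (cc_norm_sq (cc2 hP).1 (cc2 hP).2).mul_left
    (a := fun y => y ^ 11 * (g y) ^ 2 * (1 + y ^ 2) ^ 60) (by fun_prop)
lemma cc_J (hg : Prof c0 C0 g) {Q : ℝ → ℂ} (hQ : DD Q) :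
    CC (fun y => tv y ^ 2 * ((y * g y) ^ 2 * ‖D2 Q y‖ ^ 2)) := by
  have hgc := Prof.cont hg
  have htv := tv_cont
  have := (cc_norm_sq (cc2 hQ).1 (cc2 hQ).2).mul_left
    (a := fun y => tv y ^ 2 * (y * g y) ^ 2) (by fun_prop)
  simpa only [mul_assoc] using this
lemma cc_J0 {Q : ℝ → ℂ} (hQ : DD Q) : CC (fun y => tv y ^ 2 * ‖Q y‖ ^ 2) := by
  have htv := tv_cont
  exact (cc_norm_sq (cc0 hQ).1 (cc0 hQ).2).mul_left (a := fun y => tv y ^ 2) (by fun_prop)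

lemma IL_le_I0 {P : ℝ → ℂ} (hP : DD P) :
    ∫ y in Ioi (0 : ℝ), y ^ 9 * (1 + y ^ 2) ^ 59 * ‖P y‖ ^ 2 ≤
      ∫ y in Ioi (0 : ℝ), y ^ 9 * (1 + y ^ 2) ^ 60 * ‖P y‖ ^ 2 := by
  refine setIntegral_mono_on (cc_IL hP).integrableOn (cc_I0 hP).integrableOn
    measurableSet_Ioi fun y hy => ?_
  have hy : 0 < y := hy
  have : (1 + y ^ 2) ^ 59 ≤ (1 + y ^ 2) ^ 60 :=
    pow_le_pow_right₀ (by nlinarith [sq_nonneg y]) (by norm_num)
  gcongr

lemma int_d2_le (hg : Prof c0 C0 g) {A : ℝ} {v v1 v2 : ℝ → ℝ} (hv : Wgt A v v1 v2)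
    (hs : ContDiff ℝ (⊤ : ℕ∞) v) {P : ℝ → ℂ} (hP : DD P) :
    ∫ y in Ioi (0 : ℝ), tv y ^ 2 * ((y * g y) ^ 2 * ‖D2 (fun y => (v y : ℂ) * P y) y‖ ^ 2) ≤
      Kc A C0 * ‖iota (Prof.cont hg) P hP‖ ^ 2 := by
  have b1 := ((cc_IL hP).mul_left (a := fun _ => 3 * A ^ 2 * C0 ^ 2) continuous_const)
  have b2 := ((cc_I1 hg hP).mul_left (a := fun _ => 12 * A ^ 2) continuous_const)
  have b3 := ((cc_I2 hg hP).mul_left (a := fun _ => (3 : ℝ)) continuous_const)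
  have h1 := setIntegral_mono_on (cc_J hg (dd_mul_real hs hP)).integrableOn
    ((b1.add' b2).add' b3).integrableOn
    measurableSet_Ioi (fun y hy => pw_d2 hg hv hs hP (mem_Ioi.1 hy))
  rw [integral_add (b1.add' b2).integrableOn b3.integrableOn,
      integral_add b1.integrableOn b2.integrableOn,
      integral_const_mul, integral_const_mul, integral_const_mul] at h1
  exact alg3 nonneg_I2 nonneg_I0 (IL_le_I0 hP) (interp hg (dd_tf hP) (ε := 1) one_pos) h1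
    (norm_iota_sq _ hP)

lemma stX_split (hg : Prof c0 C0 g) {Q : ℝ → ℂ} (hQ : DD Q) :
    stX g Q = (∫ y in Ioi (0 : ℝ), tv y ^ 2 * ((y * g y) ^ 2 * ‖D2 Q y‖ ^ 2)) +
      ∫ y in Ioi (0 : ℝ), tv y ^ 2 * ‖Q y‖ ^ 2 := by
  rw [← integral_add (cc_J hg hQ).integrableOn (cc_J0 hQ).integrableOn, stX]
  refine setIntegral_congr_fun measurableSet_Ioi fun y hy => ?_
  simp only [w60]
  rw [DD.deriv2_eq (mem_Ioi.1 hy), tv_sq (le_of_lt (mem_Ioi.1 hy)), div_eq_mul_inv]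
  simp only [D2]
  generalize ((1 + y ^ 2) ^ 60)⁻¹ = p
  ring

/-- `stX` of `v P` -/
lemma stX_mul_le (hg : Prof c0 C0 g) {A : ℝ} {v v1 v2 : ℝ → ℝ} (hv : Wgt A v v1 v2)
    (hs : ContDiff ℝ (⊤ : ℕ∞) v) {P : ℝ → ℂ} (hP : DD P) :
    stX g (fun y => (v y : ℂ) * P y) ≤ (Kc A C0 + 1) * ‖iota (Prof.cont hg) P hP‖ ^ 2 := by
  have hvP := dd_mul_real hs hP
  have h1 : ∫ y in Ioi (0 : ℝ), tv y ^ 2 * ‖(v y : ℂ) * P y‖ ^ 2 ≤
      ∫ y in Ioi (0 : ℝ), y ^ 9 * (1 + y ^ 2) ^ 60 * ‖P y‖ ^ 2 := by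
    refine setIntegral_mono_on (cc_J0 hvP).integrableOn (cc_I0 hP).integrableOn
      measurableSet_Ioi fun y hy => ?_
    have hy : 0 < y := hy
    rw [tv_sq hy.le, norm_mul, Complex.norm_real, Real.norm_eq_abs, mul_pow, sq_abs]
    have v0s := Wgt.sq0 hv hy
    have hp : 0 < (1 + y ^ 2) ^ 60 := by positivity
    generalize (1 + y ^ 2) ^ 60 = p at v0s hp
    calc y ^ 9 / p * (v y ^ 2 * ‖P y‖ ^ 2)
        ≤ y ^ 9 / p * ((p * p) * ‖P y‖ ^ 2) := by gcongr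
      _ = _ := by field_simp
  have h2 := int_d2_le hg hv hs hP
  have h3 : ∫ y in Ioi (0 : ℝ), y ^ 9 * (1 + y ^ 2) ^ 60 * ‖P y‖ ^ 2 ≤
      ‖iota (Prof.cont hg) P hP‖ ^ 2 := by
    rw [norm_iota_sq]
    linarith [nonneg_I2 (g := g) (P := P)]
  rw [stX_split hg hvP, add_mul, one_mul]
  linarith

/-- the `bvec` bound for a compactly supported multiplier -/
lemma bvec_mul_le (hg : Prof c0 C0 g) {A : ℝ} {v v1 v2 : ℝ → ℝ} (hv : Wgt A v v1 v2)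
    (hs : ContDiff ℝ (⊤ : ℕ∞) v) {S : ℝ} (hS0 : 0 ≤ S) (hS : ∀ y, S ≤ y → v y = 0) :
    ∃ K : ℝ, 0 ≤ K ∧ ∀ (P : ℝ → ℂ) (hP : DD P),
      ‖bvec (Prof.cont hg) (fun y => (v y : ℂ) * P y) (dd_mul_real hs hP)‖ ^ 2 ≤
        K * ‖iota (Prof.cont hg) P hP‖ ^ 2 := by
  have hc0 := hg.c0_pos
  obtain ⟨M, hM0, hM⟩ : ∃ M : ℝ, 0 ≤ M ∧ ∀ y, 0 < y → (v y = 0 ∨ y ^ 2 * (1 + y ^ 2) ^ 60 ≤ M) := by
    refine ⟨S ^ 2 * (1 + S ^ 2) ^ 60, by positivity, fun y hy => ?_⟩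
    rcases le_or_gt S y with hSy | hSy
    · exact Or.inl (hS y hSy)
    · refine Or.inr ?_
      gcongr
  refine ⟨Kc A C0 + (75 + 3 * A ^ 2) + M * (1 / 25 * (1 / c0 ^ 2)),
    by have := Kc_nonneg A C0; positivity, fun P hP => ?_⟩
  have hgc := Prof.cont hg
  have hvP := dd_mul_real hs hP
  rw [WithLp.prod_norm_sq_eq_of_L2]
  change ‖toL _ (cc_bF1 hgc hvP)‖ ^ 2 + ‖toL _ (cc_bF0 hvP)‖ ^ 2 ≤ _
  rw [norm_toL_sq, norm_toL_sq]
  -- first component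
  have h1 : ∫ y in Ioi (0 : ℝ), ‖((tv y * (y * g y) : ℝ) : ℂ) * D2 (fun y => (v y : ℂ) * P y) y‖ ^ 2 =
      ∫ y in Ioi (0 : ℝ), tv y ^ 2 * ((y * g y) ^ 2 * ‖D2 (fun y => (v y : ℂ) * P y) y‖ ^ 2) := by
    refine setIntegral_congr_fun measurableSet_Ioi fun y hy => ?_
    simp only [norm_mul, Complex.norm_real, Real.norm_eq_abs, mul_pow, sq_abs]
    ring
  -- second component
  have a9 : CC (fun y => y ^ 9 * ‖D1 P y‖ ^ 2) :=
    (cc_norm_sq (cc1 hP).1 (cc1 hP).2).mul_left (a := fun y => y ^ 9) (by fun_prop)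
  have b1 := (cc_I0 hP).mul_left (a := fun _ => 75 + 3 * A ^ 2) continuous_const
  have b2 := a9.mul_left (a := fun _ => M) continuous_const
  have h2 : ∫ y in Ioi (0 : ℝ), ‖(tv y : ℂ) * (5 * ((v y : ℂ) * P y) +
      ((y / 2 : ℝ) : ℂ) * D1 (fun y => (v y : ℂ) * P y) y)‖ ^ 2 ≤
      (75 + 3 * A ^ 2) * (∫ y in Ioi (0 : ℝ), y ^ 9 * (1 + y ^ 2) ^ 60 * ‖P y‖ ^ 2) +
      M * ∫ y in Ioi (0 : ℝ), y ^ 9 * ‖D1 P y‖ ^ 2 := by
    rw [← integral_const_mul, ← integral_const_mul, ← integral_add b1.integrableOn b2.integrableOn]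
    refine setIntegral_mono_on (cc_norm_sq (cc_bF0 hvP).1 (cc_bF0 hvP).2).integrableOn
      (b1.add' b2).integrableOn measurableSet_Ioi fun y hy => ?_
    have hy : 0 < y := hy
    rw [D1_mul_real hs hv.d1 hP hy]
    have e0 : (5 : ℂ) * ((v y : ℂ) * P y) + ((y / 2 : ℝ) : ℂ) * (v1 y * P y + v y * D1 P y) =
        (5 * v y : ℝ) * P y + ((y / 2 * v1 y : ℝ) : ℂ) * P y + ((y / 2 * v y : ℝ) : ℂ) * D1 P y := by
      push_cast; ring
    rw [e0, norm_mul, mul_pow, Complex.norm_real, Real.norm_eq_abs, sq_abs, tv_sq hy.le]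
    have h3 := norm_sq_three ((5 * v y : ℝ) * P y) (((y / 2 * v1 y : ℝ) : ℂ) * P y)
      (((y / 2 * v y : ℝ) : ℂ) * D1 P y)
    have f1 : ∀ (r : ℝ) (z : ℂ), ‖(r : ℂ) * z‖ ^ 2 = r ^ 2 * ‖z‖ ^ 2 := fun r z => by
      rw [norm_mul, mul_pow, Complex.norm_real, Real.norm_eq_abs, sq_abs]
    rw [f1, f1, f1] at h3
    exact alg2 hy (T := 1 + y ^ 2) (q := (1 + y ^ 2) ^ 58) (by positivity) (by linarith)
      (by positivity) (by positivity) (T60 _) (Wgt.sq0 hv hy) (Wgt.sq1 hv hy) (by positivity)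
      (by positivity) (hM y hy) hM0 h3
  -- Hardy
  have h3 := hardy (dd_tf hP).tf1' 9
  have h4 : ∫ y in Ioi (0 : ℝ), y ^ (9 + 2) * ‖D2 P y‖ ^ 2 ≤
      1 / c0 ^ 2 * ∫ y in Ioi (0 : ℝ), y ^ 11 * (g y) ^ 2 * (1 + y ^ 2) ^ 60 * ‖D2 P y‖ ^ 2 := by
    rw [← integral_const_mul]
    have a6 : CC (fun y => y ^ (9 + 2) * ‖D2 P y‖ ^ 2) :=
      (cc_norm_sq (cc2 hP).1 (cc2 hP).2).mul_left (a := fun y => y ^ (9 + 2)) (by fun_prop)
    refine setIntegral_mono_on a6.integrableOn ((cc_I2 hg hP).mul_left (a := fun _ => 1 / c0 ^ 2)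
      continuous_const).integrableOn measurableSet_Ioi fun y hy => ?_
    have hy : 0 < y := hy
    have hgy := hg.lower y hy.le
    have g2 : c0 ^ 2 ≤ g y ^ 2 := pow_le_pow_left₀ hc0.le hgy 2
    have T1 : 1 ≤ (1 + y ^ 2) ^ 60 := one_le_pow₀ (by nlinarith [sq_nonneg y])
    generalize (1 + y ^ 2) ^ 60 = p at T1
    have : 1 ≤ 1 / c0 ^ 2 * (g y ^ 2 * p) := by
      rw [one_div, inv_mul_eq_div, le_div_iff₀ (by positivity), one_mul]
      calc c0 ^ 2 = c0 ^ 2 * 1 := by ring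
        _ ≤ g y ^ 2 * p := by gcongr
    calc y ^ (9 + 2) * ‖D2 P y‖ ^ 2 = 1 * (y ^ 11 * ‖D2 P y‖ ^ 2) := by ring
      _ ≤ (1 / c0 ^ 2 * (g y ^ 2 * p)) * (y ^ 11 * ‖D2 P y‖ ^ 2) := by gcongr
      _ = _ := by ring
  have h5 := int_d2_le hg hv hs hP
  rw [h1]
  have hI2 := nonneg_I2 (g := g) (P := P)
  have hI0 := nonneg_I0 (P := P)
  have hn := norm_iota_sq hgc hP
  generalize (∫ y in Ioi (0 : ℝ), ‖(tv y : ℂ) * (5 * ((v y : ℂ) * P y) +
      ((y / 2 : ℝ) : ℂ) * D1 (fun y => (v y : ℂ) * P y) y)‖ ^ 2) = J0 at h2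
  generalize (∫ y in Ioi (0 : ℝ), tv y ^ 2 * ((y * g y) ^ 2 *
    ‖D2 (fun y => (v y : ℂ) * P y) y‖ ^ 2)) = J2 at h5
  generalize (∫ y in Ioi (0 : ℝ), y ^ 11 * (g y) ^ 2 * (1 + y ^ 2) ^ 60 * ‖D2 P y‖ ^ 2) = I2 at *
  generalize (∫ y in Ioi (0 : ℝ), y ^ 9 * (1 + y ^ 2) ^ 60 * ‖P y‖ ^ 2) = I0 at *
  generalize (∫ y in Ioi (0 : ℝ), y ^ 9 * ‖D1 P y‖ ^ 2) = I9 at *
  generalize (∫ y in Ioi (0 : ℝ), y ^ (9 + 2) * ‖D2 P y‖ ^ 2) = I11 at *
  have hn' : ‖iota (Prof.cont hg) P hP‖ ^ 2 = I2 + I0 := hn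
  rw [hn'] at h5 ⊢
  have e1 : (4 : ℝ) / ((9 : ℕ) + 1) ^ 2 = 1 / 25 := by norm_num
  rw [e1] at h3
  have h6 : I9 ≤ 1 / 25 * (1 / c0 ^ 2) * (I2 + I0) := by
    calc I9 ≤ 1 / 25 * I11 := h3
      _ ≤ 1 / 25 * (1 / c0 ^ 2 * (I2 + I0)) := by
          have : 1 / c0 ^ 2 * I2 ≤ 1 / c0 ^ 2 * (I2 + I0) := by gcongr; linarith
          linarith
      _ = _ := by ring
  have h8 : (75 + 3 * A ^ 2) * I0 ≤ (75 + 3 * A ^ 2) * (I2 + I0) := by gcongr; linarith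
  have h9 : M * I9 ≤ M * (1 / 25 * (1 / c0 ^ 2) * (I2 + I0)) := by gcongr
  calc J2 + J0 ≤ Kc A C0 * (I2 + I0) + ((75 + 3 * A ^ 2) * (I2 + I0) +
        M * (1 / 25 * (1 / c0 ^ 2) * (I2 + I0))) := by linarith
    _ = _ := by ring

end Crest.Agent.R213.A.St
end
end

-- ▼ part R213/A/StLim
section

/-!
# Row 213, Part A: limit lemmas in `L²`
-/

set_option autoImplicit false

open Set MeasureTheory Filter Topology
open scoped InnerProductSpace ENNReal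

noncomputable section

namespace Crest.Agent.R213.A.St

/-- dominated convergence for `∫ m_N |e|²` when `m_N` is eventually constant pointwise -/
lemma tendsto_quad_R {m : ℕ → ℝ → ℝ} {m' : ℝ → ℝ} (hm : ∀ N, Measurable (m N)) {K : ℝ}
    (hK : ∀ N, ∀ y : ℝ, 0 < y → |m N y| ≤ K)
    (hlim : ∀ y : ℝ, 0 < y → ∀ᶠ N in atTop, m N y = m' y) (e : LL) :
    Tendsto (fun N => ∫ y in Ioi (0 : ℝ), m N y * ‖e y‖ ^ 2) atTop
      (𝓝 (∫ y in Ioi (0 : ℝ), m' y * ‖e y‖ ^ 2)) := by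
  have he : MemLp (e : ℝ → ℂ) 2 mu0 := Lp.memLp e
  have hint : Integrable (fun y => ‖e y‖ ^ 2) mu0 :=
    (memLp_two_iff_integrable_sq_norm he.1).1 he
  refine tendsto_integral_of_dominated_convergence (fun y => K * ‖e y‖ ^ 2) ?_ ?_ ?_ ?_
  · intro N
    exact ((hm N).aestronglyMeasurable).mul hint.1
  · exact hint.const_mul K
  · intro N
    filter_upwards [ae_restrict_mem measurableSet_Ioi] with y hy
    rw [norm_mul, Real.norm_eq_abs, Real.norm_eq_abs, abs_of_nonneg (sq_nonneg ‖e y‖)]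
    exact mul_le_mul_of_nonneg_right (hK N y hy) (sq_nonneg _)
  · filter_upwards [ae_restrict_mem measurableSet_Ioi] with y hy
    refine tendsto_const_nhds.congr' ?_
    filter_upwards [hlim y hy] with N hN
    rw [hN]

/-- dominated convergence for `⟪m_N e, f⟫` -/
lemma tendsto_inner_R {m : ℕ → ℝ → ℝ} (hm : ∀ N, MemLp (fun y => (m N y : ℂ)) ∞ mu0) {K : ℝ}
    (hK : ∀ N, ∀ y : ℝ, 0 < y → |m N y| ≤ K)
    (hlim : ∀ y : ℝ, 0 < y → ∀ᶠ N in atTop, m N y = 1) (e f : LL) :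
    Tendsto (fun N => ⟪mulOp (m N) (hm N) e, f⟫_ℂ) atTop (𝓝 ⟪e, f⟫_ℂ) := by
  simp_rw [L2.inner_def]
  refine tendsto_integral_of_dominated_convergence (fun y => K * ‖⟪e y, f y⟫_ℂ‖) ?_ ?_ ?_ ?_
  · intro N
    exact (L2.integrable_inner (mulOp (m N) (hm N) e) f).1
  · exact (L2.integrable_inner e f).norm.const_mul K
  · intro N
    filter_upwards [ae_restrict_mem measurableSet_Ioi, mulOp_coe (hm N) e] with y hy h1
    rw [h1]
    have : ⟪(m N y : ℂ) * e y, f y⟫_ℂ = (m N y : ℂ) * ⟪e y, f y⟫_ℂ := by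
      simp only [RCLike.inner_apply, map_mul, Complex.conj_ofReal]; ring
    rw [this, norm_mul, Complex.norm_real, Real.norm_eq_abs]
    exact mul_le_mul_of_nonneg_right (hK N y hy) (norm_nonneg _)
  · have hall : ∀ᵐ y ∂mu0, ∀ N, (mulOp (m N) (hm N) e : ℝ → ℂ) y = (m N y : ℂ) * e y :=
      ae_all_iff.2 fun N => mulOp_coe (hm N) e
    filter_upwards [ae_restrict_mem measurableSet_Ioi, hall] with y hy h1
    refine tendsto_const_nhds.congr' ?_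
    filter_upwards [hlim y hy] with N hN
    rw [h1 N, hN]; simp

variable {c0 C0 : ℝ} {g : ℝ → ℝ}

/-- the energy space -/
def YS (hg : Prof c0 C0 g) : Submodule ℂ HH :=
  (LinearMap.range (iotaL (Prof.cont hg))).topologicalClosure

lemma YS_closed (hg : Prof c0 C0 g) : IsClosed (YS hg : Set HH) :=
  Submodule.isClosed_topologicalClosure _

instance (hg : Prof c0 C0 g) : CompleteSpace (YS hg) := (YS_closed hg).completeSpace_coe

lemma iota_mem (hg : Prof c0 C0 g) {P : ℝ → ℂ} (hP : DD P) :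
    iota (Prof.cont hg) P hP ∈ YS hg :=
  Submodule.le_topologicalClosure _ ⟨⟨P, hP⟩, rfl⟩

/-- elements of the energy space are limits of test functions -/
lemma exists_seq (hg : Prof c0 C0 g) (e : YS hg) :
    ∃ P : ℕ → {P : ℝ → ℂ // DD P},
      Tendsto (fun n => iota (Prof.cont hg) (P n).1 (P n).2) atTop (𝓝 (e : HH)) := by
  have h1 : (e : HH) ∈ closure ((LinearMap.range (iotaL (Prof.cont hg)) : Submodule ℂ HH) : Set HH) := by
    have := e.2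
    change (e : HH) ∈ ((LinearMap.range (iotaL (Prof.cont hg))).topologicalClosure : Set HH) at this
    rwa [Submodule.topologicalClosure_coe] at this
  rw [mem_closure_iff_seq_limit] at h1
  obtain ⟨x, hx, hlim⟩ := h1
  choose P hP using hx
  refine ⟨fun n => ⟨(P n).1, (P n).2⟩, ?_⟩
  refine hlim.congr fun n => ?_
  rw [← hP n]; rfl

end Crest.Agent.R213.A.St
end
end

-- ▼ part R213/A/StCut
section

/-!
# Row 213, PART A: admissible multipliers (`Wgt`): the weight `(1+y²)^60` and its truncations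
-/

set_option autoImplicit false

open Set MeasureTheory Filter Topology

noncomputable section

namespace Crest.Agent.R213.A

open Crest.Agent.R213.A.St

namespace StCut

/-- cut-off: `1` for `r ≤ 1`, `0` for `r ≥ 2`. -/
def chi (r : ℝ) : ℝ := Real.smoothTransition (2 - r)

theorem chi_contDiff : ContDiff ℝ (⊤ : ℕ∞) chi :=
  Real.smoothTransition.contDiff.comp (contDiff_const.sub contDiff_id)

theorem chi_one {r : ℝ} (hr : r ≤ 1) : chi r = 1 :=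
  Real.smoothTransition.one_of_one_le (by linarith)

theorem chi_zero {r : ℝ} (hr : 2 ≤ r) : chi r = 0 :=
  Real.smoothTransition.zero_of_nonpos (by linarith)

theorem chi_nonneg (r : ℝ) : 0 ≤ chi r := Real.smoothTransition.nonneg _

theorem chi_le_one (r : ℝ) : chi r ≤ 1 := Real.smoothTransition.le_one _

theorem chi1_contDiff : ContDiff ℝ (⊤ : ℕ∞) (deriv chi) := by
  have := chi_contDiff
  exact ((contDiff_succ_iff_deriv (n := ((⊤ : ℕ∞) : WithTop ℕ∞))).mp (by simpa using this)).2.2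

theorem chi2_contDiff : ContDiff ℝ (⊤ : ℕ∞) (deriv (deriv chi)) := by
  have := chi1_contDiff
  exact ((contDiff_succ_iff_deriv (n := ((⊤ : ℕ∞) : WithTop ℕ∞))).mp (by simpa using this)).2.2

theorem chi1_zero {r : ℝ} (hr : r < 1 ∨ 2 < r) : deriv chi r = 0 := by
  rcases hr with hr | hr
  · have : chi =ᶠ[𝓝 r] fun _ => 1 := by
      filter_upwards [Iio_mem_nhds hr] with z hz using chi_one (le_of_lt hz)
    rw [this.deriv_eq]; simp
  · have : chi =ᶠ[𝓝 r] fun _ => 0 := by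
      filter_upwards [Ioi_mem_nhds hr] with z hz using chi_zero (le_of_lt hz)
    rw [this.deriv_eq]; simp

theorem chi2_zero {r : ℝ} (hr : r < 1 ∨ 2 < r) : deriv (deriv chi) r = 0 := by
  have : deriv chi =ᶠ[𝓝 r] fun _ => 0 := by
    rcases hr with hr | hr
    · filter_upwards [Iio_mem_nhds hr] with z hz using chi1_zero (Or.inl hz)
    · filter_upwards [Ioi_mem_nhds hr] with z hz using chi1_zero (Or.inr hz)
  rw [this.deriv_eq]; simp

theorem bdd_of_zero {f : ℝ → ℝ} (hf : Continuous f) (hz : ∀ r, (r < 1 ∨ 2 < r) → f r = 0) :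
    ∃ M : ℝ, 0 ≤ M ∧ ∀ r, |f r| ≤ M := by
  obtain ⟨M, hM⟩ := (isCompact_Icc (a := (1:ℝ)) (b := 2)).exists_bound_of_continuousOn
    hf.continuousOn
  refine ⟨max M 0, le_max_right _ _, fun r => ?_⟩
  by_cases h : r ∈ Icc (1:ℝ) 2
  · exact (hM r h).trans (le_max_left _ _)
  · have : r < 1 ∨ 2 < r := by
      by_contra hc
      push Not at hc
      exact h ⟨hc.1, hc.2⟩
    rw [hz r this]; simp

/-- the weight and its derivatives -/
def W0 (y : ℝ) : ℝ := (1 + y ^ 2) ^ 60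
def W1 (y : ℝ) : ℝ := 120 * (y * (1 + y ^ 2) ^ 59)
def W2 (y : ℝ) : ℝ := 120 * (1 + y ^ 2) ^ 59 + 14160 * (y ^ 2 * (1 + y ^ 2) ^ 58)

theorem hasDerivAt_base (y : ℝ) : HasDerivAt (fun y : ℝ => 1 + y ^ 2) (2 * y) y := by
  have := (hasDerivAt_pow 2 y).const_add 1
  simpa using this

theorem hasDerivAt_W0 (y : ℝ) : HasDerivAt W0 (W1 y) y := by
  refine ((hasDerivAt_base y).pow 60).congr_deriv ?_
  unfold W1
  generalize (1 + y ^ 2) = T
  norm_num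
  ring

theorem hasDerivAt_W1 (y : ℝ) : HasDerivAt W1 (W2 y) y := by
  have h := (((hasDerivAt_id y).mul ((hasDerivAt_base y).pow 59))).const_mul 120
  refine h.congr_deriv ?_
  unfold W2
  simp only [id_eq, Pi.pow_apply]
  generalize (1 + y ^ 2) = T
  norm_num
  ring

theorem continuous_W0 : Continuous W0 := by unfold W0; fun_prop
theorem continuous_W1 : Continuous W1 := by unfold W1; fun_prop
theorem continuous_W2 : Continuous W2 := by unfold W2; fun_prop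

theorem W0_nonneg (y : ℝ) : 0 ≤ W0 y := by unfold W0; positivity

theorem W2_nonneg (y : ℝ) : 0 ≤ W2 y := by unfold W2; positivity

theorem W2_le (y : ℝ) : W2 y ≤ 14280 * (1 + y ^ 2) ^ 59 := by
  unfold W2
  have e : (1 + y ^ 2) ^ 59 = (1 + y ^ 2) * (1 + y ^ 2) ^ 58 := by ring
  rw [e]
  have h : (0:ℝ) ≤ (1 + y ^ 2) ^ 58 := by positivity
  nlinarith

theorem abs_W1 {y : ℝ} (hy : 0 < y) : |W1 y| = 120 * (y * (1 + y ^ 2) ^ 59) := by
  unfold W1; exact abs_of_nonneg (by positivity)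

theorem W0_eq (y : ℝ) : W0 y = (1 + y ^ 2) ^ 59 * (1 + y ^ 2) := by
  unfold W0; exact pow_succ _ 59

/-! abstract estimates; `T = (1+y²)^59`, `c, c1, c2` = values of the cut-off -/

theorem est1 {R y T c c1 M1 w0 w1 : ℝ} (hR0 : 0 < R) (hR1 : 1 ≤ R) (hy : 0 < y) (hT : 0 ≤ T)
    (hM : 0 ≤ M1) (h0 : w0 = T * (1 + y ^ 2)) (h1 : |w1| = 120 * (y * T)) (hc : 0 ≤ c) (hc' : c ≤ 1)
    (hc1 : |c1| ≤ M1) (hz : (y < R ∨ 2 * R < y) → c1 = 0) :
    |c1 * (1 / R) * w0 + c * w1| ≤ (4 * M1 + 120) * (y * T) := by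
  have s1 : |c * w1| ≤ 120 * (y * T) := by
    rw [abs_mul, abs_of_nonneg hc, h1]
    have h0 : 0 ≤ 120 * (y * T) := by positivity
    nlinarith
  have s2 : |c1 * (1 / R) * w0| ≤ 4 * M1 * (y * T) := by
    by_cases hh : y < R ∨ 2 * R < y
    · rw [hz hh]
      simp only [zero_mul, abs_zero]
      positivity
    · push Not at hh
      have e : |c1 * (1 / R) * w0| = |c1| * ((1 / R) * (1 + y ^ 2)) * T := by
        rw [h0, abs_mul, abs_mul, abs_of_nonneg (show 0 ≤ T * (1 + y ^ 2) by positivity),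
          abs_of_nonneg (show 0 ≤ 1 / R by positivity)]
        ring
      rw [e]
      have b1 : (1 / R) * (1 + y ^ 2) ≤ 4 * y := by
        rw [one_div, inv_mul_le_iff₀ hR0]
        nlinarith
      calc |c1| * ((1 / R) * (1 + y ^ 2)) * T ≤ M1 * (4 * y) * T := by gcongr
        _ = _ := by ring
  exact (abs_add_le _ _).trans (by linarith)

theorem est2 {R y T c c1 c2 M1 M2 w0 w1 w2 : ℝ} (hR0 : 0 < R) (hR1 : 1 ≤ R) (hy : 0 < y)
    (hT : 0 ≤ T) (hM : 0 ≤ M1) (hM2 : 0 ≤ M2) (h0 : w0 = T * (1 + y ^ 2))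
    (h1 : |w1| = 120 * (y * T))
    (h2 : |w2| ≤ 14280 * T) (hc : 0 ≤ c) (hc' : c ≤ 1)
    (hc1 : |c1| ≤ M1) (hz : (y < R ∨ 2 * R < y) → c1 = 0)
    (hc2 : |c2| ≤ M2) (hz2 : (y < R ∨ 2 * R < y) → c2 = 0) :
    |c2 * (1 / R) * (1 / R) * w0 + 2 * (c1 * (1 / R) * w1) + c * w2| ≤
      (8 * M2 + 480 * M1 + 14280) * T := by
  have s1 : |c * w2| ≤ 14280 * T := by
    rw [abs_mul, abs_of_nonneg hc]
    have h0 : 0 ≤ |w2| := abs_nonneg _
    nlinarith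
  have s2 : |2 * (c1 * (1 / R) * w1)| ≤ 480 * M1 * T := by
    by_cases hh : y < R ∨ 2 * R < y
    · rw [hz hh]
      simp only [zero_mul, mul_zero, abs_zero]
      positivity
    · push Not at hh
      have e : |2 * (c1 * (1 / R) * w1)| = 240 * (|c1| * ((1 / R) * y) * T) := by
        rw [abs_mul, abs_mul, abs_mul, h1, abs_of_nonneg (show 0 ≤ 1 / R by positivity),
          abs_of_nonneg (show (0:ℝ) ≤ 2 by norm_num)]
        ring
      rw [e]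
      have b1 : (1 / R) * y ≤ 2 := by
        rw [one_div, inv_mul_le_iff₀ hR0]
        linarith
      calc 240 * (|c1| * ((1 / R) * y) * T) ≤ 240 * (M1 * 2 * T) := by gcongr
        _ = _ := by ring
  have s3 : |c2 * (1 / R) * (1 / R) * w0| ≤ 8 * M2 * T := by
    by_cases hh : y < R ∨ 2 * R < y
    · rw [hz2 hh]
      simp only [zero_mul, abs_zero]
      positivity
    · push Not at hh
      have e : |c2 * (1 / R) * (1 / R) * w0| = |c2| * ((1 / R) * ((1 / R) * (1 + y ^ 2))) * T := by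
        rw [h0, abs_mul, abs_mul, abs_mul, abs_of_nonneg (show 0 ≤ T * (1 + y ^ 2) by positivity),
          abs_of_nonneg (show 0 ≤ 1 / R by positivity)]
        ring
      rw [e]
      have b1 : (1 / R) * ((1 / R) * (1 + y ^ 2)) ≤ 8 := by
        rw [one_div, inv_mul_le_iff₀ hR0, inv_mul_le_iff₀ hR0]
        nlinarith
      calc |c2| * ((1 / R) * ((1 / R) * (1 + y ^ 2))) * T ≤ M2 * 8 * T := by gcongr
        _ = _ := by ring
  have t := abs_add_le (c2 * (1 / R) * (1 / R) * w0) (2 * (c1 * (1 / R) * w1))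
  exact (abs_add_le _ _).trans (by linarith)

end StCut

open StCut St

theorem exists_cut : ∃ A : ℝ, ∀ R : ℝ, 1 ≤ R → ∃ v : ℝ → ℝ, ContDiff ℝ (⊤ : ℕ∞) v ∧
    Wgt A v (deriv v) (deriv (deriv v)) ∧ (∀ y, 0 < y → y ≤ R → v y = (1 + y ^ 2) ^ 60) ∧
    (∀ y, 2 * R ≤ y → v y = 0) := by
  obtain ⟨M1, hM1, bM1⟩ := bdd_of_zero chi1_contDiff.continuous (fun r hr => chi1_zero hr)
  obtain ⟨M2, hM2, bM2⟩ := bdd_of_zero chi2_contDiff.continuous (fun r hr => chi2_zero hr)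
  refine ⟨8 * M2 + 480 * M1 + 14280, ?_⟩
  intro R hR
  have hR0 : 0 < R := by linarith
  set v : ℝ → ℝ := fun y => chi (y / R) * W0 y with hv
  set v1 : ℝ → ℝ := fun y => deriv chi (y / R) * (1 / R) * W0 y + chi (y / R) * W1 y with hv1
  set v2 : ℝ → ℝ := fun y => deriv (deriv chi) (y / R) * (1 / R) * (1 / R) * W0 y +
    2 * (deriv chi (y / R) * (1 / R) * W1 y) + chi (y / R) * W2 y with hv2
  have hs : ContDiff ℝ (⊤ : ℕ∞) v := by
    refine (chi_contDiff.comp (contDiff_id.div_const R)).mul ?_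
    show ContDiff ℝ (⊤ : ℕ∞) fun y : ℝ => (1 + y ^ 2) ^ 60
    fun_prop
  have hdR : ∀ y, HasDerivAt (fun y : ℝ => y / R) (1 / R) y := fun y =>
    (hasDerivAt_id y).div_const R
  have hc1 : ∀ y, HasDerivAt (fun y => chi (y / R)) (deriv chi (y / R) * (1 / R)) y := by
    intro y
    have h1 : HasDerivAt chi (deriv chi (y / R)) (y / R) :=
      (chi_contDiff.differentiable (by simp) (y / R)).hasDerivAt
    exact HasDerivAt.comp (h₂ := chi) y h1 (hdR y)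
  have hc2 : ∀ y, HasDerivAt (fun y => deriv chi (y / R))
      (deriv (deriv chi) (y / R) * (1 / R)) y := by
    intro y
    have h1 : HasDerivAt (deriv chi) (deriv (deriv chi) (y / R)) (y / R) :=
      (chi1_contDiff.differentiable (by simp) (y / R)).hasDerivAt
    exact HasDerivAt.comp (h₂ := deriv chi) y h1 (hdR y)
  have hd1 : ∀ y, HasDerivAt v (v1 y) y := fun y => (hc1 y).mul (hasDerivAt_W0 y)
  have hd2 : ∀ y, HasDerivAt v1 (v2 y) y := by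
    intro y
    have := (((hc2 y).mul_const (1 / R)).mul (hasDerivAt_W0 y)).add
      ((hc1 y).mul (hasDerivAt_W1 y))
    refine this.congr_deriv ?_
    simp only [hv2]
    ring
  have e1 : deriv v = v1 := funext fun y => (hd1 y).deriv
  have e2 : deriv (deriv v) = v2 := by
    rw [e1]; exact funext fun y => (hd2 y).deriv
  have hsw : ∀ y, (y < R ∨ 2 * R < y) → (y / R < 1 ∨ 2 < y / R) := by
    intro y hy
    rcases hy with h | h
    · left; rwa [div_lt_one hR0]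
    · right; rwa [lt_div_iff₀ hR0]
  refine ⟨v, hs, ?_, ?_, ?_⟩
  · rw [e2, e1]
    have cc0 : Continuous fun y : ℝ => chi (y / R) := chi_contDiff.continuous.comp (by fun_prop)
    have cc1 : Continuous fun y : ℝ => deriv chi (y / R) :=
      chi1_contDiff.continuous.comp (by fun_prop)
    have cc2 : Continuous fun y : ℝ => deriv (deriv chi) (y / R) :=
      chi2_contDiff.continuous.comp (by fun_prop)
    have cW0 := continuous_W0
    have cW1 := continuous_W1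
    have cW2 := continuous_W2
    refine ⟨by positivity, cc0.mul cW0, ?_, ?_, fun y _ => hd1 y, fun y _ => hd2 y, ?_, ?_, ?_, ?_⟩
    · exact ((cc1.mul continuous_const).mul cW0).add (cc0.mul cW1)
    · exact ((((cc2.mul continuous_const).mul continuous_const).mul cW0).add
        (continuous_const.mul ((cc1.mul continuous_const).mul cW1))).add (cc0.mul cW2)
    · intro y _
      exact mul_nonneg (chi_nonneg _) (W0_nonneg _)
    · intro y _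
      have h1 := chi_le_one (y / R)
      have h2 := W0_nonneg y
      have h3 : chi (y / R) * W0 y ≤ W0 y := mul_le_of_le_one_left h2 h1
      exact h3
    · intro y hy
      have hT : (0:ℝ) ≤ (1 + y ^ 2) ^ 59 := by positivity
      have h := est1 hR0 hR hy hT hM1 (W0_eq y) (abs_W1 hy) (chi_nonneg (y / R))
        (chi_le_one (y / R)) (bM1 (y / R)) (fun h => chi1_zero (hsw y h))
      refine h.trans ?_
      refine mul_le_mul_of_nonneg_right ?_ (mul_nonneg hy.le hT)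
      linarith
    · intro y hy
      have hT : (0:ℝ) ≤ (1 + y ^ 2) ^ 59 := by positivity
      exact est2 hR0 hR hy hT hM1 hM2 (W0_eq y) (abs_W1 hy)
        (by rw [abs_of_nonneg (W2_nonneg y)]; exact W2_le y) (chi_nonneg (y / R))
        (chi_le_one (y / R)) (bM1 (y / R)) (fun h => chi1_zero (hsw y h))
        (bM2 (y / R)) (fun h => chi2_zero (hsw y h))
  · intro y hy hyR
    simp only [hv]
    rw [chi_one (by rw [div_le_one hR0]; exact hyR), one_mul]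
    rfl
  · intro y hy
    simp only [hv]
    rw [chi_zero (by rw [le_div_iff₀ hR0]; exact hy), zero_mul]

theorem wgt_w60 : ∃ A : ℝ, Wgt A (fun y => (1 + y ^ 2) ^ 60)
    (deriv (fun y => (1 + y ^ 2) ^ 60)) (deriv (deriv (fun y => (1 + y ^ 2) ^ 60))) := by
  have e1 : deriv (fun y : ℝ => (1 + y ^ 2) ^ 60) = W1 := funext fun y => (hasDerivAt_W0 y).deriv
  have e2 : deriv W1 = W2 := funext fun y => (hasDerivAt_W1 y).deriv
  rw [e1, e2]
  refine ⟨14280, ⟨by norm_num, continuous_W0, continuous_W1, continuous_W2,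
    fun y _ => hasDerivAt_W0 y, fun y _ => hasDerivAt_W1 y, fun y _ => W0_nonneg y,
    fun y _ => le_rfl, ?_, ?_⟩⟩
  · intro y hy
    rw [abs_W1 hy]
    have hT : (0:ℝ) ≤ (1 + y ^ 2) ^ 59 := by positivity
    exact mul_le_mul_of_nonneg_right (by norm_num) (mul_nonneg hy.le hT)
  · intro y hy
    rw [abs_of_nonneg (W2_nonneg y)]
    exact W2_le y

end Crest.Agent.R213.A
end
end

-- ▼ part R213/A/StSpec
section

/-!
# Row 213, Part A: Gårding inequalities in the energy space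
-/

set_option autoImplicit false

open Set MeasureTheory Filter Topology
open scoped InnerProductSpace ENNReal

noncomputable section

namespace Crest.Agent.R213.A.St

variable {c0 C0 : ℝ} {g : ℝ → ℝ}

lemma quad_toL (m : ℝ → ℝ) {F : ℝ → ℂ} (h : CC F) :
    ∫ y in Ioi (0 : ℝ), m y * ‖(toL F h : ℝ → ℂ) y‖ ^ 2 = ∫ y in Ioi (0 : ℝ), m y * ‖F y‖ ^ 2 := by
  refine integral_congr_ae ?_
  filter_upwards [toL_coe h] with y hy
  rw [hy]

lemma quad_fst (hg : Continuous g) (m : ℝ → ℝ) {P : ℝ → ℂ} (hP : DD P) :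
    ∫ y in Ioi (0 : ℝ), m y * ‖((iota hg P hP).fst : ℝ → ℂ) y‖ ^ 2 =
      ∫ y in Ioi (0 : ℝ), m y * (y ^ 11 * (g y) ^ 2 * (1 + y ^ 2) ^ 60 * ‖D2 P y‖ ^ 2) := by
  change ∫ y in Ioi (0 : ℝ), m y * ‖(toL _ (cc_iF1 hg hP) : ℝ → ℂ) y‖ ^ 2 = _
  rw [quad_toL]
  refine setIntegral_congr_fun measurableSet_Ioi fun y hy => ?_
  have h1 := sv_sq (le_of_lt (mem_Ioi.1 hy))
  simp only [norm_mul, Complex.norm_real, mul_pow, Real.norm_eq_abs, sq_abs]
  rw [h1]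
  generalize (1 + y ^ 2) ^ 60 = p
  ring

lemma quad_snd (hg : Continuous g) (m : ℝ → ℝ) {P : ℝ → ℂ} (hP : DD P) :
    ∫ y in Ioi (0 : ℝ), m y * ‖((iota hg P hP).snd : ℝ → ℂ) y‖ ^ 2 =
      ∫ y in Ioi (0 : ℝ), m y * (y ^ 9 * (1 + y ^ 2) ^ 60 * ‖P y‖ ^ 2) := by
  change ∫ y in Ioi (0 : ℝ), m y * ‖(toL _ (cc_iF0 hP) : ℝ → ℂ) y‖ ^ 2 = _
  rw [quad_toL]
  refine setIntegral_congr_fun measurableSet_Ioi fun y hy => ?_
  have h1 := sv_sq (le_of_lt (mem_Ioi.1 hy))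
  simp only [norm_mul, Complex.norm_real, mul_pow, Real.norm_eq_abs, sq_abs]
  rw [h1]

/-- `Re ⟪bvec (vP), iota P⟫` -/
lemma re_bvec (hg : Prof c0 C0 g) {A : ℝ} {v v1 v2 : ℝ → ℝ} (hv : Wgt A v v1 v2)
    (hs : ContDiff ℝ (⊤ : ℕ∞) v) {P : ℝ → ℂ} (hP : DD P) :
    (⟪bvec (Prof.cont hg) (fun y => (v y : ℂ) * P y) (dd_mul_real hs hP),
      iota (Prof.cont hg) P hP⟫_ℂ).re = ∫ y in Ioi (0 : ℝ), gInt g v v1 v2 P (D1 P) (D2 P) y := by
  have hgc := Prof.cont hg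
  have hvP := dd_mul_real hs hP
  rw [inner_bvec_iota]
  have e1 : CC (fun y => (((y * g y) ^ 2 : ℝ) : ℂ) *
      (starRingEnd ℂ (D2 (fun y => (v y : ℂ) * P y) y) * D2 P y)) :=
    ((cc2 hvP).cconj_mul (cc2 hP)).cmul (a := fun y => (((y * g y) ^ 2 : ℝ) : ℂ)) (by fun_prop)
  have e2 : CC (fun y => (5 : ℂ) * ((v y : ℂ) * P y) + ((y / 2 : ℝ) : ℂ) *
      D1 (fun y => (v y : ℂ) * P y) y) :=
    ((cc0 hvP).cmul continuous_const).cadd ((cc1 hvP).cmul (a := fun y => ((y / 2 : ℝ) : ℂ))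
      (by fun_prop))
  have hint := ((e1.cadd (e2.cconj_mul (cc0 hP))).cmul (a := fun y => ((y ^ 9 : ℝ) : ℂ))
    (by fun_prop)).integrableOn
  have h1 := integral_re (𝕜 := ℂ) hint
  have h2 : ∀ z : ℂ, z.re = RCLike.re z := fun z => rfl
  rw [h2, ← h1]
  refine setIntegral_congr_fun measurableSet_Ioi fun y hy => ?_
  have hy : 0 < y := hy
  rw [D2_mul_real hs hv.d1 hv.d2 hP hy, D1_mul_real hs hv.d1 hP hy, gInt, Complex.inner,
    Complex.inner, ← h2]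
  rw [Complex.re_ofReal_mul, Complex.add_re, Complex.re_ofReal_mul]
  push_cast
  rw [mul_comm (D2 P y), mul_comm (P y) (starRingEnd ℂ _)]

lemma w_d1 {v v1 : ℝ → ℝ} {y : ℝ} (h : HasDerivAt v (v1 y) y)
    (he : v =ᶠ[𝓝 y] fun y => (1 + y ^ 2) ^ 60) : v1 y = 120 * y * (1 + y ^ 2) ^ 59 := by
  have h0 : HasDerivAt (fun y : ℝ => 1 + y ^ 2) (2 * y) y := by
    simpa using (hasDerivAt_pow 2 y).const_add 1
  have h1 : HasDerivAt (fun y : ℝ => (1 + y ^ 2) ^ 60) _ y := h0.pow 60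
  have h2 := (h.congr_of_eventuallyEq he.symm).unique h1
  rw [h2]
  norm_num
  ring

/-- multipliers appearing in the Gårding inequality -/
def m1f (v : ℝ → ℝ) (y : ℝ) : ℝ := v y / (1 + y ^ 2) ^ 60 - 1 / 4
def m0f (v v1 : ℝ → ℝ) (y : ℝ) : ℝ := (5 / 2 * v y + 1 / 4 * (y * v1 y)) / (1 + y ^ 2) ^ 60
def mrf (v : ℝ → ℝ) (y : ℝ) : ℝ := v y / (1 + y ^ 2) ^ 60
def mwf (y : ℝ) : ℝ := (1 + y ^ 2)⁻¹

lemma mrf_bd {A : ℝ} {v v1 v2 : ℝ → ℝ} (hv : Wgt A v v1 v2) {y : ℝ} (hy : 0 < y) :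
    0 ≤ mrf v y ∧ mrf v y ≤ 1 := by
  have h0 := hv.nonneg y hy
  have h1 := hv.le_w y hy
  have hp : 0 < (1 + y ^ 2) ^ 60 := by positivity
  unfold mrf
  exact ⟨by positivity, by rw [div_le_one hp]; exact h1⟩

lemma m1f_bd {A : ℝ} {v v1 v2 : ℝ → ℝ} (hv : Wgt A v v1 v2) {y : ℝ} (hy : 0 < y) :
    |m1f v y| ≤ 1 := by
  have h := mrf_bd hv hy
  unfold mrf at h
  unfold m1f
  rw [abs_le]; constructor <;> linarith [h.1, h.2]

lemma m0f_bd {A : ℝ} {v v1 v2 : ℝ → ℝ} (hv : Wgt A v v1 v2) {y : ℝ} (hy : 0 < y) :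
    |m0f v v1 y| ≤ 5 / 2 + A := by
  have h := mrf_bd hv hy
  have hA := hv.A_nonneg
  have h1 := hv.b1 y hy
  unfold mrf at h
  have hp : 0 < (1 + y ^ 2) ^ 59 := by positivity
  have e : m0f v v1 y = 5 / 2 * (v y / (1 + y ^ 2) ^ 60) + 1 / 4 * (y * v1 y / (1 + y ^ 2) ^ 60) := by
    unfold m0f; ring
  have h2 : |y * v1 y / (1 + y ^ 2) ^ 60| ≤ A := by
    rw [abs_div, abs_mul, abs_of_pos hy, abs_of_pos (by positivity : 0 < (1 + y ^ 2) ^ 60),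
      div_le_iff₀ (by positivity)]
    have hyT : y ^ 2 ≤ 1 + y ^ 2 := by linarith
    calc y * |v1 y| ≤ y * (A * (y * (1 + y ^ 2) ^ 59)) := by gcongr
      _ = A * (y ^ 2 * (1 + y ^ 2) ^ 59) := by
          generalize (1 + y ^ 2) ^ 59 = p; ring
      _ ≤ A * ((1 + y ^ 2) * (1 + y ^ 2) ^ 59) := by gcongr
      _ = A * (1 + y ^ 2) ^ 60 := by rw [← pow_succ']
  rw [e]
  calc |5 / 2 * (v y / (1 + y ^ 2) ^ 60) + 1 / 4 * (y * v1 y / (1 + y ^ 2) ^ 60)|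
      ≤ |5 / 2 * (v y / (1 + y ^ 2) ^ 60)| + |1 / 4 * (y * v1 y / (1 + y ^ 2) ^ 60)| := abs_add_le _ _
    _ = 5 / 2 * (v y / (1 + y ^ 2) ^ 60) + 1 / 4 * |y * v1 y / (1 + y ^ 2) ^ 60| := by
        rw [abs_mul, abs_mul, abs_of_nonneg h.1]; norm_num
    _ ≤ 5 / 2 * 1 + 1 / 4 * A := by gcongr; exact h.2
    _ ≤ _ := by linarith

lemma T60_cont : Continuous (fun y : ℝ => ((1 + y ^ 2) ^ 60 : ℝ)) := by fun_prop

lemma mrf_cont {A : ℝ} {v v1 v2 : ℝ → ℝ} (hv : Wgt A v v1 v2) : Continuous (mrf v) := by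
  have h := hv.c0
  unfold mrf
  exact h.div T60_cont (fun y => by positivity)

lemma m1f_cont {A : ℝ} {v v1 v2 : ℝ → ℝ} (hv : Wgt A v v1 v2) : Continuous (m1f v) :=
  (mrf_cont hv).sub continuous_const

lemma m0f_cont {A : ℝ} {v v1 v2 : ℝ → ℝ} (hv : Wgt A v v1 v2) : Continuous (m0f v v1) := by
  have h := hv.c0
  have h1 := hv.c1
  unfold m0f
  exact Continuous.div (by fun_prop) T60_cont (fun y => by positivity)

lemma mwf_cont : Continuous mwf := by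
  unfold mwf
  exact Continuous.inv₀ (by fun_prop) (fun y => by positivity)

lemma mwf_bd (y : ℝ) : |mwf y| ≤ 1 := by
  unfold mwf
  rw [abs_of_pos (by positivity)]
  exact inv_le_one_of_one_le₀ (by nlinarith [sq_nonneg y])

/-- the Gårding inequality for test functions in Hilbert space form -/
lemma garding_iota (hg : Prof c0 C0 g) {A : ℝ} {v v1 v2 : ℝ → ℝ} (hv : Wgt A v v1 v2)
    (hs : ContDiff ℝ (⊤ : ℕ∞) v) {P : ℝ → ℂ} (hP : DD P) :
    (∫ y in Ioi (0 : ℝ), m1f v y * ‖((iota (Prof.cont hg) P hP).fst : ℝ → ℂ) y‖ ^ 2) +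
      (∫ y in Ioi (0 : ℝ), m0f v v1 y * ‖((iota (Prof.cont hg) P hP).snd : ℝ → ℂ) y‖ ^ 2) -
      C1c A C0 * (∫ y in Ioi (0 : ℝ), mwf y * ‖((iota (Prof.cont hg) P hP).snd : ℝ → ℂ) y‖ ^ 2) ≤
    (⟪bvec (Prof.cont hg) (fun y => (v y : ℂ) * P y) (dd_mul_real hs hP),
      iota (Prof.cont hg) P hP⟫_ℂ).re := by
  have hgc := Prof.cont hg
  rw [re_bvec hg hv hs hP, quad_fst, quad_snd, quad_snd]
  have h := garding_v hg hv (dd_tf hP)
  refine le_trans (le_of_eq ?_) h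
  have c1 := (cc_I2 hg hP).mul_left (m1f_cont hv)
  have c2 := (cc_I0 hP).mul_left (m0f_cont hv)
  rw [← integral_add c1.integrableOn c2.integrableOn]
  congr 1
  · refine setIntegral_congr_fun measurableSet_Ioi fun y hy => ?_
    have hp : 0 < (1 + y ^ 2) ^ 60 := by positivity
    simp only [m1f, m0f]
    generalize (1 + y ^ 2) ^ 60 = p at hp
    field_simp
  · congr 1
    refine setIntegral_congr_fun measurableSet_Ioi fun y hy => ?_
    simp only [mwf]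
    have hp : 0 < 1 + y ^ 2 := by positivity
    have e : (1 + y ^ 2) ^ 60 = (1 + y ^ 2) ^ 59 * (1 + y ^ 2) := pow_succ _ _
    rw [e]
    generalize (1 + y ^ 2) ^ 59 = q
    field_simp

end Crest.Agent.R213.A.St
end
end

-- ▼ part R213/A/StGardL
section

/-!
# Row 213, Part A: Gårding inequality for weak solutions
-/

set_option autoImplicit false

open Set MeasureTheory Filter Topology
open scoped InnerProductSpace ENNReal

noncomputable section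

namespace Crest.Agent.R213.A.St

variable {c0 C0 : ℝ} {g : ℝ → ℝ}

lemma mrf_memLp {A : ℝ} {v v1 v2 : ℝ → ℝ} (hv : Wgt A v v1 v2) :
    MemLp (fun y => (mrf v y : ℂ)) ∞ mu0 :=
  memLp_top_of (mrf_cont hv).measurable (K := 1) (fun y hy => by
    rw [abs_of_nonneg (mrf_bd hv hy).1]; exact (mrf_bd hv hy).2)

/-- `jvec (vP) = (v/w) · (iota P).snd` -/
lemma jvec_mul (hg : Prof c0 C0 g) {A : ℝ} {v v1 v2 : ℝ → ℝ} (hv : Wgt A v v1 v2)
    (hs : ContDiff ℝ (⊤ : ℕ∞) v) {P : ℝ → ℂ} (hP : DD P) :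
    jvec (fun y => (v y : ℂ) * P y) (dd_mul_real hs hP) =
      mulOp (mrf v) (mrf_memLp hv) (iota (Prof.cont hg) P hP).snd := by
  apply Lp.ext
  have h1 := toL_coe (cc_jF (dd_mul_real hs hP))
  have h2 := mulOp_coe (mrf_memLp hv) (iota (Prof.cont hg) P hP).snd
  have h3 : ((iota (Prof.cont hg) P hP).snd : ℝ → ℂ) =ᵐ[mu0] fun y => (sv y : ℂ) * P y :=
    toL_coe (cc_iF0 hP)
  filter_upwards [h1, h2, h3] with y e1 e2 e3
  rw [e2, e3]
  change (toL _ (cc_jF (dd_mul_real hs hP)) : ℝ → ℂ) y = _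
  rw [e1]
  have hp : (0 : ℝ) < (1 + y ^ 2) ^ 60 := by positivity
  have : sv y = tv y * (1 + y ^ 2) ^ 60 := tv_w.symm
  unfold mrf
  rw [this]
  generalize (1 + y ^ 2) ^ 60 = p at hp
  push_cast
  have hp' : (p : ℂ) ≠ 0 := by exact_mod_cast hp.ne'
  field_simp

/-- Gårding for weak solutions, fixed cut-off -/
lemma garding_weak_v (hg : Prof c0 C0 g) {A : ℝ} {v v1 v2 : ℝ → ℝ} (hv : Wgt A v v1 v2)
    (hs : ContDiff ℝ (⊤ : ℕ∞) v) {S : ℝ} (hS0 : 0 ≤ S) (hS : ∀ y, S ≤ y → v y = 0)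
    {e : HH} {P : ℕ → {P : ℝ → ℂ // DD P}}
    (hP : Tendsto (fun n => iota (Prof.cont hg) (P n).1 (P n).2) atTop (𝓝 e)) {f : LL}
    (hf : ∀ Q : ℝ → ℂ, ∀ hQ : DD Q, ⟪bvec (Prof.cont hg) Q hQ, e⟫_ℂ = ⟪jvec Q hQ, f⟫_ℂ) :
    (∫ y in Ioi (0 : ℝ), m1f v y * ‖(e.fst : ℝ → ℂ) y‖ ^ 2) +
      (∫ y in Ioi (0 : ℝ), m0f v v1 y * ‖(e.snd : ℝ → ℂ) y‖ ^ 2) -
      C1c A C0 * (∫ y in Ioi (0 : ℝ), mwf y * ‖(e.snd : ℝ → ℂ) y‖ ^ 2) ≤
    (⟪mulOp (mrf v) (mrf_memLp hv) e.snd, f⟫_ℂ).re := by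
  obtain ⟨K, hK0, hK⟩ := bvec_mul_le hg hv hs hS0 hS
  set z : ℕ → HH := fun n => iota (Prof.cont hg) (P n).1 (P n).2 with hz
  set B : ℕ → HH := fun n => bvec (Prof.cont hg) (fun y => (v y : ℂ) * (P n).1 y)
    (dd_mul_real hs (P n).2) with hB
  have hfst : Tendsto (fun n => (z n).fst) atTop (𝓝 e.fst) :=
    ((WithLp.fstL 2 ℂ LL LL).continuous.tendsto e).comp hP
  have hsnd : Tendsto (fun n => (z n).snd) atTop (𝓝 e.snd) :=
    ((WithLp.sndL 2 ℂ LL LL).continuous.tendsto e).comp hP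
  -- left side
  have q1 := ((quad_cont (m1f_cont hv).measurable (K := 1)
    (fun y hy => m1f_bd hv hy)).tendsto e.fst).comp hfst
  have q2 := ((quad_cont (m0f_cont hv).measurable (K := 5 / 2 + A)
    (fun y hy => m0f_bd hv hy)).tendsto e.snd).comp hsnd
  have q3 := ((quad_cont mwf_cont.measurable (K := 1)
    (fun y _ => mwf_bd y)).tendsto e.snd).comp hsnd
  have hL := (q1.add q2).sub (q3.const_mul (C1c A C0))
  -- right side
  have hz0 : Tendsto (fun n => ‖z n - e‖) atTop (𝓝 0) := by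
    have := (tendsto_iff_norm_sub_tendsto_zero).1 hP
    exact this
  have hzb : ∀ᶠ n in atTop, ‖z n‖ ≤ ‖e‖ + 1 := by
    have := hP.norm
    exact (this.eventually (gt_mem_nhds (lt_add_one ‖e‖))).mono fun n hn => hn.le
  have hBb : ∀ n, ‖B n‖ ≤ √K * ‖z n‖ := by
    intro n
    have := hK (P n).1 (P n).2
    have h1 : ‖B n‖ ^ 2 ≤ (√K * ‖z n‖) ^ 2 := by
      rw [mul_pow, Real.sq_sqrt hK0]; exact this
    exact le_of_sq_le_sq h1 (by positivity)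
  have hdiff : Tendsto (fun n => ⟪B n, z n - e⟫_ℂ) atTop (𝓝 0) := by
    rw [tendsto_zero_iff_norm_tendsto_zero]
    have h1 : Tendsto (fun n => (√K * (‖e‖ + 1)) * ‖z n - e‖) atTop (𝓝 0) := by
      simpa using hz0.const_mul (√K * (‖e‖ + 1))
    refine squeeze_zero' (Eventually.of_forall fun n => norm_nonneg _) ?_ h1
    filter_upwards [hzb] with n hn
    calc ‖⟪B n, z n - e⟫_ℂ‖ ≤ ‖B n‖ * ‖z n - e‖ := norm_inner_le_norm _ _
      _ ≤ (√K * ‖z n‖) * ‖z n - e‖ := by gcongr; exact hBb n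
      _ ≤ (√K * (‖e‖ + 1)) * ‖z n - e‖ := by gcongr
  have hj : Tendsto (fun n => ⟪jvec (fun y => (v y : ℂ) * (P n).1 y) (dd_mul_real hs (P n).2), f⟫_ℂ)
      atTop (𝓝 ⟪mulOp (mrf v) (mrf_memLp hv) e.snd, f⟫_ℂ) := by
    have h1 : Tendsto (fun n => mulOp (mrf v) (mrf_memLp hv) (z n).snd) atTop
        (𝓝 (mulOp (mrf v) (mrf_memLp hv) e.snd)) :=
      ((mulOp (mrf v) (mrf_memLp hv)).continuous.tendsto _).comp hsnd
    have h2 := h1.inner (𝕜 := ℂ) (tendsto_const_nhds (x := f))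
    refine h2.congr fun n => ?_
    rw [jvec_mul hg hv hs (P n).2]
  have hR : Tendsto (fun n => (⟪B n, z n⟫_ℂ).re) atTop
      (𝓝 (⟪mulOp (mrf v) (mrf_memLp hv) e.snd, f⟫_ℂ).re) := by
    have h1 : ∀ n, ⟪B n, z n⟫_ℂ = ⟪jvec (fun y => (v y : ℂ) * (P n).1 y)
        (dd_mul_real hs (P n).2), f⟫_ℂ + ⟪B n, z n - e⟫_ℂ := by
      intro n
      rw [inner_sub_right, ← hf _ (dd_mul_real hs (P n).2)]
      ring
    have h2 := (Complex.continuous_re.tendsto _).comp (hj.add hdiff)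
    rw [add_zero] at h2
    refine h2.congr fun n => ?_
    simp only [Function.comp_apply]
    rw [h1 n]
  exact le_of_tendsto_of_tendsto' hL hR (fun n => garding_iota hg hv hs (P n).2)

/-- integrability of `|e|²` -/
lemma int_sq (e : LL) : Integrable (fun y => ‖(e : ℝ → ℂ) y‖ ^ 2) mu0 :=
  (memLp_two_iff_integrable_sq_norm (Lp.memLp e).1).1 (Lp.memLp e)

lemma int_mw (e : LL) : Integrable (fun y => mwf y * ‖(e : ℝ → ℂ) y‖ ^ 2) mu0 := by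
  refine Integrable.bdd_mul (c := 1) (int_sq e) mwf_cont.aestronglyMeasurable ?_
  exact Eventually.of_forall fun y => by rw [Real.norm_eq_abs]; exact mwf_bd y

/-- Gårding for weak solutions -/
lemma garding_weak (hg : Prof c0 C0 g) : ∃ C2 : ℝ, 0 ≤ C2 ∧ ∀ (e : HH), e ∈ YS hg → ∀ f : LL,
    (∀ Q : ℝ → ℂ, ∀ hQ : DD Q, ⟪bvec (Prof.cont hg) Q hQ, e⟫_ℂ = ⟪jvec Q hQ, f⟫_ℂ) →
    3 / 4 * ‖e.fst‖ ^ 2 + 65 / 2 * ‖e.snd‖ ^ 2 ≤ (⟪e.snd, f⟫_ℂ).re +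
      C2 * (∫ y in Ioi (0 : ℝ), mwf y * ‖(e.snd : ℝ → ℂ) y‖ ^ 2) := by
  obtain ⟨A, hA⟩ := exists_cut
  have hC1 : 0 ≤ C1c A C0 := by unfold C1c; positivity
  refine ⟨C1c A C0 + 30, by positivity, ?_⟩
  intro e he f hf
  obtain ⟨P, hP⟩ := exists_seq hg ⟨e, he⟩
  choose v hvs hvW hv1 hv0 using fun N : ℕ => hA (N + 1) (by linarith [Nat.cast_nonneg (α := ℝ) N])
  have hW : ∀ N : ℕ, ∀ y : ℝ, 0 < y → y < N + 1 → deriv (v N) y = 120 * y * (1 + y ^ 2) ^ 59 := by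
    intro N y hy hyN
    refine w_d1 ((hvW N).d1 y hy) ?_
    filter_upwards [Ioo_mem_nhds hy hyN] with z hz using hv1 N z hz.1 hz.2.le
  have hmain : ∀ N, (∫ y in Ioi (0 : ℝ), m1f (v N) y * ‖(e.fst : ℝ → ℂ) y‖ ^ 2) +
      (∫ y in Ioi (0 : ℝ), m0f (v N) (deriv (v N)) y * ‖(e.snd : ℝ → ℂ) y‖ ^ 2) -
      C1c A C0 * (∫ y in Ioi (0 : ℝ), mwf y * ‖(e.snd : ℝ → ℂ) y‖ ^ 2) ≤
    (⟪mulOp (mrf (v N)) (mrf_memLp (hvW N)) e.snd, f⟫_ℂ).re := fun N =>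
    garding_weak_v hg (hvW N) (hvs N) (S := 2 * ((N : ℝ) + 1)) (by positivity) (hv0 N) hP hf
  have hev : ∀ y : ℝ, 0 < y → ∀ᶠ N : ℕ in atTop, y < (N : ℝ) + 1 := by
    intro y hy
    obtain ⟨n, hn⟩ := exists_nat_gt y
    filter_upwards [eventually_ge_atTop n] with N hN
    have : (n : ℝ) ≤ N := by exact_mod_cast hN
    linarith
  have l1 : Tendsto (fun N => ∫ y in Ioi (0 : ℝ), m1f (v N) y * ‖(e.fst : ℝ → ℂ) y‖ ^ 2) atTop
      (𝓝 (∫ y in Ioi (0 : ℝ), (3 / 4) * ‖(e.fst : ℝ → ℂ) y‖ ^ 2)) := by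
    refine tendsto_quad_R (m := fun N => m1f (v N)) (m' := fun _ => 3 / 4)
      (fun N => (m1f_cont (hvW N)).measurable) (K := 1)
      (fun N y hy => m1f_bd (hvW N) hy) ?_ _
    intro y hy
    filter_upwards [hev y hy] with N hN
    simp only [m1f]
    rw [hv1 N y hy hN.le, div_self (by positivity)]; norm_num
  have l2 : Tendsto (fun N => ∫ y in Ioi (0 : ℝ), m0f (v N) (deriv (v N)) y *
      ‖(e.snd : ℝ → ℂ) y‖ ^ 2) atTop
      (𝓝 (∫ y in Ioi (0 : ℝ), (65 / 2 - 30 * mwf y) * ‖(e.snd : ℝ → ℂ) y‖ ^ 2)) := by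
    refine tendsto_quad_R (m := fun N => m0f (v N) (deriv (v N)))
      (m' := fun y => 65 / 2 - 30 * mwf y)
      (fun N => (m0f_cont (hvW N)).measurable) (K := 5 / 2 + A)
      (fun N y hy => m0f_bd (hvW N) hy) ?_ _
    intro y hy
    filter_upwards [hev y hy] with N hN
    simp only [m0f]
    rw [hv1 N y hy hN.le, hW N y hy hN]
    unfold mwf
    have hT : (0 : ℝ) < 1 + y ^ 2 := by positivity
    have hyT : y ^ 2 = (1 + y ^ 2) - 1 := by ring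
    have e1 : y * (120 * y * (1 + y ^ 2) ^ 59) = 120 * y ^ 2 * (1 + y ^ 2) ^ 59 := by
      generalize (1 + y ^ 2) ^ 59 = q; ring
    rw [e1]
    have e2 : (1 + y ^ 2) ^ 60 = (1 + y ^ 2) ^ 59 * (1 + y ^ 2) := pow_succ _ _
    rw [e2]
    have hq : (0 : ℝ) < (1 + y ^ 2) ^ 59 := by positivity
    generalize (1 + y ^ 2) ^ 59 = q at hq
    rw [hyT]
    generalize 1 + y ^ 2 = T at hT
    have : (1 + (T - 1)) = T := by ring
    rw [this]
    field_simp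
    ring
  have l3 := tendsto_inner_R (m := fun N => mrf (v N)) (fun N => mrf_memLp (hvW N)) (K := 1)
    (fun N y hy => by rw [abs_of_nonneg (mrf_bd (hvW N) hy).1]; exact (mrf_bd (hvW N) hy).2)
    (fun y hy => by
      filter_upwards [hev y hy] with N hN
      simp only [mrf]
      rw [hv1 N y hy hN.le, div_self (by positivity)]) e.snd f
  have hlim := le_of_tendsto_of_tendsto' ((l1.add l2).sub_const
    (C1c A C0 * (∫ y in Ioi (0 : ℝ), mwf y * ‖(e.snd : ℝ → ℂ) y‖ ^ 2)))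
    ((Complex.continuous_re.tendsto _).comp l3) hmain
  have e1 : ∫ y in Ioi (0 : ℝ), (3 / 4) * ‖(e.fst : ℝ → ℂ) y‖ ^ 2 = 3 / 4 * ‖e.fst‖ ^ 2 := by
    rw [integral_const_mul, norm_sq_eq]
  have e2 : ∫ y in Ioi (0 : ℝ), (65 / 2 - 30 * mwf y) * ‖(e.snd : ℝ → ℂ) y‖ ^ 2 =
      65 / 2 * ‖e.snd‖ ^ 2 - 30 * ∫ y in Ioi (0 : ℝ), mwf y * ‖(e.snd : ℝ → ℂ) y‖ ^ 2 := by
    have : (fun y => (65 / 2 - 30 * mwf y) * ‖(e.snd : ℝ → ℂ) y‖ ^ 2) = fun y =>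
        65 / 2 * ‖(e.snd : ℝ → ℂ) y‖ ^ 2 - 30 * (mwf y * ‖(e.snd : ℝ → ℂ) y‖ ^ 2) := by
      funext y; ring
    rw [this, integral_sub ((int_sq _).const_mul _) ((int_mw _).const_mul _), integral_const_mul,
      integral_const_mul, norm_sq_eq]
  rw [e1, e2] at hlim
  linarith

/-- Gårding for test functions -/
lemma garding_test (hg : Prof c0 C0 g) : ∃ C2 K : ℝ, 0 ≤ C2 ∧ 0 ≤ K ∧
    ∀ (P : ℝ → ℂ) (hP : DD P), ∃ (Q : ℝ → ℂ) (hQ : DD Q),
      stX g Q ≤ K * ‖iota (Prof.cont hg) P hP‖ ^ 2 ∧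
      ⟪jvec Q hQ, (iota (Prof.cont hg) P hP).snd⟫_ℂ = ((‖(iota (Prof.cont hg) P hP).snd‖ ^ 2 : ℝ) : ℂ) ∧
      3 / 4 * ‖(iota (Prof.cont hg) P hP).fst‖ ^ 2 + 65 / 2 * ‖(iota (Prof.cont hg) P hP).snd‖ ^ 2 ≤
        (⟪bvec (Prof.cont hg) Q hQ, iota (Prof.cont hg) P hP⟫_ℂ).re +
        C2 * (∫ y in Ioi (0 : ℝ), mwf y * ‖((iota (Prof.cont hg) P hP).snd : ℝ → ℂ) y‖ ^ 2) := by
  obtain ⟨A, hA⟩ := wgt_w60
  have hC1 : 0 ≤ C1c A C0 := by unfold C1c; positivity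
  have hs : ContDiff ℝ (⊤ : ℕ∞) (fun y : ℝ => (1 + y ^ 2) ^ 60) := by fun_prop
  refine ⟨C1c A C0 + 30, Kc A C0 + 1, by positivity, by have := Kc_nonneg A C0; positivity, ?_⟩
  intro P hP
  refine ⟨_, dd_mul_real hs hP, stX_mul_le hg hA hs hP, ?_, ?_⟩
  · rw [jvec_mul hg hA hs hP]
    have : mulOp (mrf fun y => (1 + y ^ 2) ^ 60) (mrf_memLp hA) (iota (Prof.cont hg) P hP).snd =
        (iota (Prof.cont hg) P hP).snd := by
      apply Lp.ext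
      filter_upwards [mulOp_coe (mrf_memLp hA) (iota (Prof.cont hg) P hP).snd] with y hy
      rw [hy]
      simp only [mrf]
      rw [div_self (by positivity)]; simp
    rw [this, inner_self_eq_norm_sq_to_K]
    push_cast; rfl
  · have h := garding_iota hg hA hs hP
    have e1 : ∫ y in Ioi (0 : ℝ), m1f (fun y => (1 + y ^ 2) ^ 60) y *
        ‖((iota (Prof.cont hg) P hP).fst : ℝ → ℂ) y‖ ^ 2 = 3 / 4 * ‖(iota (Prof.cont hg) P hP).fst‖ ^ 2 := by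
      rw [norm_sq_eq, ← integral_const_mul]
      refine setIntegral_congr_fun measurableSet_Ioi fun y hy => ?_
      simp only [m1f]
      rw [div_self (by positivity)]; norm_num
    have e2 : ∫ y in Ioi (0 : ℝ), m0f (fun y => (1 + y ^ 2) ^ 60)
        (deriv (fun y => (1 + y ^ 2) ^ 60)) y *
        ‖((iota (Prof.cont hg) P hP).snd : ℝ → ℂ) y‖ ^ 2 =
        65 / 2 * ‖(iota (Prof.cont hg) P hP).snd‖ ^ 2 -
          30 * ∫ y in Ioi (0 : ℝ), mwf y * ‖((iota (Prof.cont hg) P hP).snd : ℝ → ℂ) y‖ ^ 2 := by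
      rw [norm_sq_eq, ← integral_const_mul, ← integral_const_mul,
        ← integral_sub ((int_sq _).const_mul _) ((int_mw _).const_mul _)]
      refine setIntegral_congr_fun measurableSet_Ioi fun y hy => ?_
      have hy : 0 < y := hy
      have hd : deriv (fun y : ℝ => (1 + y ^ 2) ^ 60) y = 120 * y * (1 + y ^ 2) ^ 59 :=
        w_d1 (v := fun y : ℝ => (1 + y ^ 2) ^ 60)
          (v1 := deriv (fun y : ℝ => (1 + y ^ 2) ^ 60)) (hA.d1 y hy) EventuallyEq.rfl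
      simp only [m0f]
      rw [hd]
      unfold mwf
      have hT : (0 : ℝ) < 1 + y ^ 2 := by positivity
      have hyT : y ^ 2 = (1 + y ^ 2) - 1 := by ring
      have e1 : y * (120 * y * (1 + y ^ 2) ^ 59) = 120 * y ^ 2 * (1 + y ^ 2) ^ 59 := by
        generalize (1 + y ^ 2) ^ 59 = q; ring
      rw [e1]
      have e2 : (1 + y ^ 2) ^ 60 = (1 + y ^ 2) ^ 59 * (1 + y ^ 2) := pow_succ _ _
      rw [e2]
      have hq : (0 : ℝ) < (1 + y ^ 2) ^ 59 := by positivity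
      generalize (1 + y ^ 2) ^ 59 = q at hq
      rw [hyT]
      generalize 1 + y ^ 2 = T at hT
      have : (1 + (T - 1)) = T := by ring
      rw [this]
      field_simp
      ring
    rw [e1, e2] at h
    linarith

end Crest.Agent.R213.A.St
end
end

-- ▼ part R213/A/StDens
section

/-!
# Row 213, Part A: closability and density (concrete function-space facts for A/Static.lean)
-/

set_option autoImplicit false

open Set MeasureTheory Filter Topology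
open scoped ENNReal ContDiff

noncomputable section

namespace Crest.Agent.R213.A

/-- square root of the weight of `stY` -/
def sv (y : ℝ) : ℝ := √(y ^ 9) * (1 + y ^ 2) ^ 30

/-- square root of the weight of `stX` -/
def tv (y : ℝ) : ℝ := √(y ^ 9) / (1 + y ^ 2) ^ 30

theorem sv_pos {y : ℝ} (hy : 0 < y) : 0 < sv y := by
  have := Real.sqrt_pos.2 (pow_pos hy 9)
  unfold sv; positivity

theorem tv_pos {y : ℝ} (hy : 0 < y) : 0 < tv y := by
  have := Real.sqrt_pos.2 (pow_pos hy 9)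
  unfold tv; positivity

theorem cdo_sqrt9 : ContDiffOn ℝ ∞ (fun y : ℝ => √(y ^ 9)) (Ioi 0) := by
  intro y hy
  have : ContDiffAt ℝ ∞ (fun y : ℝ => √(y ^ 9)) y :=
    (contDiff_id.pow 9).contDiffAt.sqrt (pow_pos (mem_Ioi.1 hy) 9).ne'
  exact this.contDiffWithinAt

theorem cdo_sv : ContDiffOn ℝ ∞ sv (Ioi 0) := by
  refine cdo_sqrt9.mul ?_
  have : ContDiff ℝ ∞ (fun y : ℝ => (1 + y ^ 2) ^ 30) := by fun_prop
  exact this.contDiffOn

theorem cdo_tv : ContDiffOn ℝ ∞ tv (Ioi 0) := by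
  refine cdo_sqrt9.div ?_ fun y _ => by positivity
  have : ContDiff ℝ ∞ (fun y : ℝ => (1 + y ^ 2) ^ 30) := by fun_prop
  exact this.contDiffOn

/-- smooth, compactly supported in `(0,∞)` -/
structure Tf (φ : ℝ → ℝ) : Prop where
  sm : ContDiff ℝ ∞ φ
  cpt : HasCompactSupport φ
  sub : tsupport φ ⊆ Ioi 0

theorem Tf.mul {φ q : ℝ → ℝ} (hφ : Tf φ) (hq : ContDiffOn ℝ ∞ q (Ioi 0)) :
    Tf (fun y => φ y * q y) := by
  have hs : tsupport (fun y => φ y * q y) ⊆ tsupport φ := tsupport_mul_subset_left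
  refine ⟨?_, hφ.cpt.mul_right, hs.trans hφ.sub⟩
  rw [contDiff_iff_contDiffAt]
  intro x
  by_cases hx : x ∈ tsupport φ
  · exact hφ.sm.contDiffAt.mul (hq.contDiffAt (isOpen_Ioi.mem_nhds (hφ.sub hx)))
  · have h1 : (fun y => φ y * q y) =ᶠ[𝓝 x] fun _ => (0 : ℝ) := by
      filter_upwards [notMem_tsupport_iff_eventuallyEq.1 hx] with y hy
      rw [hy]; simp
    exact contDiffAt_const.congr_of_eventuallyEq h1

theorem Tf.drv {φ : ℝ → ℝ} (hφ : Tf φ) : Tf (deriv φ) :=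
  ⟨(contDiff_infty_iff_deriv.1 hφ.sm).2, hφ.cpt.deriv,
    tsupport_deriv_subset.trans hφ.sub⟩

theorem Tf.zero_of_le {φ : ℝ → ℝ} (hφ : Tf φ) {y : ℝ} (hy : y ≤ 0) : φ y = 0 := by
  by_contra h
  exact absurd (hφ.sub (subset_tsupport _ h)) (not_lt.2 hy)

/-- product with a complex function continuous on `(0,∞)` -/
theorem Tf.mulC {φ : ℝ → ℝ} (hφ : Tf φ) {q : ℝ → ℂ} (hq : ContinuousOn q (Ioi 0)) :
    Continuous (fun y => (φ y : ℂ) * q y) ∧ HasCompactSupport (fun y => (φ y : ℂ) * q y) := by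
  have h0 : ∀ x, x ∉ tsupport φ → (fun y => (φ y : ℂ) * q y) =ᶠ[𝓝 x] fun _ => 0 := by
    intro x hx
    filter_upwards [notMem_tsupport_iff_eventuallyEq.1 hx] with y hy
    rw [hy]; simp
  constructor
  · rw [continuous_iff_continuousAt]
    intro x
    by_cases hx : x ∈ tsupport φ
    · exact (Complex.continuous_ofReal.comp hφ.sm.continuous).continuousAt.mul
        (hq.continuousAt (isOpen_Ioi.mem_nhds (hφ.sub hx)))
    · exact (continuousAt_const.congr (h0 x hx).symm)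
  · refine hφ.cpt.mono' ?_
    intro x hx
    by_contra h
    exact hx (h0 x h).self_of_nhds

theorem Tf.memLpC {φ : ℝ → ℝ} (hφ : Tf φ) {q : ℝ → ℂ} (hq : ContinuousOn q (Ioi 0)) :
    MemLp (fun y => (φ y : ℂ) * q y) 2 (volume.restrict (Ioi 0)) := by
  obtain ⟨h1, h2⟩ := hφ.mulC hq
  exact (h1.memLp_of_hasCompactSupport h2).restrict _

theorem Tf.integrableC {φ : ℝ → ℝ} (hφ : Tf φ) {q : ℝ → ℂ} (hq : ContinuousOn q (Ioi 0)) :
    IntegrableOn (fun y => (φ y : ℂ) * q y) (Ioi 0) := by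
  obtain ⟨h1, h2⟩ := hφ.mulC hq
  exact (h1.integrable_of_hasCompactSupport h2).integrableOn

/-! ### Test functions `DD` -/

theorem DD.cdo {P : ℝ → ℂ} (hP : DD P) : ContDiffOn ℝ ∞ P (Ioi 0) :=
  hP.1.mono Ioi_subset_Ici_self

theorem DD.cdo1 {P : ℝ → ℂ} (hP : DD P) : ContDiffOn ℝ ∞ (deriv P) (Ioi 0) :=
  hP.cdo.deriv_of_isOpen isOpen_Ioi (by simp)

theorem DD.cdo2 {P : ℝ → ℂ} (hP : DD P) : ContDiffOn ℝ ∞ (deriv (deriv P)) (Ioi 0) :=
  hP.cdo1.deriv_of_isOpen isOpen_Ioi (by simp)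

/-- integration by parts twice -/
theorem Tf.by_parts {η : ℝ → ℝ} (hη : Tf η) {P : ℝ → ℂ} (hP : DD P) :
    ∫ y in Ioi (0 : ℝ), (η y : ℂ) * deriv (deriv P) y =
      ∫ y in Ioi (0 : ℝ), ((deriv (deriv η) y : ℝ) : ℂ) * P y := by
  have i1 := hη.integrableC hP.cdo2.continuousOn
  have i2 := hη.drv.drv.integrableC hP.cdo.continuousOn
  have hd : ∀ {f : ℝ → ℂ}, ContDiffOn ℝ ∞ f (Ioi 0) → ∀ x ∈ Ioi (0 : ℝ),
      HasDerivAt f (deriv f x) x := fun hf x hx =>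
    ((hf.contDiffAt (isOpen_Ioi.mem_nhds hx)).differentiableAt (by simp)).hasDerivAt
  have hr : ∀ {f : ℝ → ℝ}, ContDiff ℝ ∞ f → ∀ x,
      HasDerivAt (fun y => (f y : ℂ)) ((deriv f x : ℝ) : ℂ) x := fun hf x =>
    ((hf.differentiable (by simp)) x).hasDerivAt.ofReal_comp
  obtain ⟨c1, s1⟩ := hη.mulC hP.cdo1.continuousOn
  obtain ⟨c2, s2⟩ := hη.drv.mulC hP.cdo.continuousOn
  have key := integral_Ioi_of_hasDerivAt_of_tendsto (a := (0 : ℝ)) (m := (0 : ℂ))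
    (f := fun y => (η y : ℂ) * deriv P y - ((deriv η y : ℝ) : ℂ) * P y)
    (f' := fun y => (η y : ℂ) * deriv (deriv P) y - ((deriv (deriv η) y : ℝ) : ℂ) * P y)
    (c1.sub c2).continuousWithinAt ?_ (i1.sub i2) ?_
  · rw [hη.zero_of_le le_rfl, hη.drv.zero_of_le le_rfl] at key
    rw [integral_sub i1 i2] at key
    simp only [Complex.ofReal_zero, zero_mul, sub_zero] at key
    exact sub_eq_zero.1 key
  · intro x hx
    have h1 := (hr hη.sm x).mul (hd hP.cdo1 x hx)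
    have h2 := (hr hη.drv.sm x).mul (hd hP.cdo x hx)
    refine (h1.sub h2).congr_deriv ?_
    ring
  · obtain ⟨R, hR⟩ := (s1.sub s2).isCompact.bddAbove
    refine (tendsto_const_nhds (x := (0 : ℂ))).congr' ?_
    filter_upwards [eventually_gt_atTop R] with y hy
    by_contra hne
    exact absurd (hR (subset_tsupport _ (Ne.symm hne))) (not_le.2 hy)

/-- Cauchy–Schwarz in `eLpNorm` form -/
theorem cs_enorm {μ : Measure ℝ} {f g : ℝ → ℂ} (hf : AEStronglyMeasurable f μ)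
    (hg : AEStronglyMeasurable g μ) :
    ‖∫ y, f y * g y ∂μ‖ₑ ≤ eLpNorm f 2 μ * eLpNorm g 2 μ := by
  calc ‖∫ y, f y * g y ∂μ‖ₑ ≤ ∫⁻ y, ‖f y * g y‖ₑ ∂μ := enorm_integral_le_lintegral_enorm _
    _ = eLpNorm (f • g) 1 μ := by
        rw [eLpNorm_one_eq_lintegral_enorm]; rfl
    _ ≤ _ := eLpNorm_smul_le_mul_eLpNorm hg hf

/-- vanishing against all test functions -/
theorem ae_zero_of_tf {F : ℝ → ℂ} (hF : MemLp F 2 (volume.restrict (Ioi 0)))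
    (h : ∀ φ, Tf φ → ∫ y in Ioi (0 : ℝ), (φ y : ℂ) * F y = 0) :
    F =ᵐ[volume.restrict (Ioi 0)] 0 := by
  have hloc : LocallyIntegrableOn F (Ioi 0) volume := by
    have h1 : LocallyIntegrable F (volume.restrict (Ioi (0 : ℝ))) :=
      hF.locallyIntegrable (by norm_num)
    intro x _
    obtain ⟨U, hU, hi⟩ := h1 x
    refine ⟨U ∩ Ioi 0, inter_mem (mem_nhdsWithin_of_mem_nhds hU) self_mem_nhdsWithin, ?_⟩
    rw [IntegrableOn, Measure.restrict_restrict' measurableSet_Ioi] at hi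
    exact hi
  have key := isOpen_Ioi.ae_eq_zero_of_integral_contDiff_smul_eq_zero hloc (by
    intro φ h1 h2 h3
    have h4 := h φ ⟨h1, h2, h3⟩
    rw [← h4]
    rw [← integral_indicator measurableSet_Ioi]
    congr 1
    funext y
    by_cases hy : y ∈ Ioi (0 : ℝ)
    · rw [indicator_of_mem hy]; simp
    · rw [indicator_of_notMem hy, Tf.zero_of_le ⟨h1, h2, h3⟩ (not_lt.1 hy), zero_smul])
  exact (ae_restrict_iff' measurableSet_Ioi).2 key

theorem dense_t {F : ℝ → ℂ} (hF : MemLp F 2 (volume.restrict (Ioi 0)))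
    (h : ∀ Q, DD Q → ∫ y in Ioi (0 : ℝ), starRingEnd ℂ ((tv y : ℂ) * Q y) * F y = 0) :
    F =ᵐ[volume.restrict (Ioi 0)] 0 := by
  refine ae_zero_of_tf hF fun φ hφ => ?_
  have hq : Tf (fun y => φ y * (tv y)⁻¹) :=
    hφ.mul (cdo_tv.inv fun y hy => (tv_pos hy).ne')
  have hQ : DD (fun y => ((φ y * (tv y)⁻¹ : ℝ) : ℂ)) := by
    refine ⟨(Complex.ofRealCLM.contDiff.comp hq.sm).contDiffOn, ?_⟩
    obtain ⟨R, hR⟩ := hq.cpt.isCompact.bddAbove
    refine ⟨R + 1, fun y hy => ?_⟩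
    have : (φ y * (tv y)⁻¹ : ℝ) = 0 := by
      by_contra hne
      have := hR (subset_tsupport _ hne)
      linarith
    simp only [this, Complex.ofReal_zero]
  rw [← h _ hQ]
  refine setIntegral_congr_fun measurableSet_Ioi fun y hy => ?_
  have h1 := (tv_pos hy).ne'
  show (φ y : ℂ) * F y = _
  congr 1
  rw [← Complex.ofReal_mul, Complex.conj_ofReal]
  congr 1
  field_simp

theorem closable {c0 C0 : ℝ} {g : ℝ → ℝ} (hg : Prof c0 C0 g) {P : ℕ → ℝ → ℂ}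
    (hP : ∀ n, DD (P n)) {F : ℝ → ℂ} (hF : MemLp F 2 (volume.restrict (Ioi 0)))
    (h0 : Tendsto (fun n => eLpNorm (fun y => (sv y : ℂ) * P n y) 2 (volume.restrict (Ioi 0)))
      atTop (𝓝 0))
    (h1 : Tendsto (fun n => eLpNorm (fun y => (sv y : ℂ) * ((y * g y : ℝ) : ℂ) *
      deriv (deriv (P n)) y - F y) 2 (volume.restrict (Ioi 0))) atTop (𝓝 0)) :
    F =ᵐ[volume.restrict (Ioi 0)] 0 := by
  refine ae_zero_of_tf hF fun φ hφ => ?_
  have hG : ContDiffOn ℝ ∞ (fun y => sv y * (y * g y)) (Ioi 0) :=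
    cdo_sv.mul (contDiff_id.mul hg.smooth).contDiffOn
  have hη : Tf (fun y => φ y * (sv y * (y * g y))) := hφ.mul hG
  set η : ℝ → ℝ := fun y => φ y * (sv y * (y * g y)) with hηdef
  have hinv : ContDiffOn ℝ ∞ (fun y => (sv y)⁻¹) (Ioi 0) := cdo_sv.inv fun y hy => (sv_pos hy).ne'
  have cR : ∀ {q : ℝ → ℝ}, ContDiffOn ℝ ∞ q (Ioi 0) →
      ContinuousOn (fun y => (q y : ℂ)) (Ioi 0) := fun hq =>
    Complex.continuous_ofReal.comp_continuousOn hq.continuousOn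
  have c1 : ContinuousOn (fun _ : ℝ => (1 : ℂ)) (Ioi 0) := continuousOn_const
  have mφ : MemLp (fun y => (φ y : ℂ)) 2 (volume.restrict (Ioi 0)) := by
    simpa using hφ.memLpC c1
  have mη : MemLp (fun y => ((deriv (deriv η) y : ℝ) : ℂ) * ((sv y)⁻¹ : ℝ)) 2
      (volume.restrict (Ioi 0)) := hη.drv.drv.memLpC (cR hinv)
  have hf : ∀ n, ContinuousOn (fun y => (sv y : ℂ) * ((y * g y : ℝ) : ℂ) *
      deriv (deriv (P n)) y) (Ioi 0) := fun n =>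
    ((cR cdo_sv).mul (cR (contDiff_id.mul hg.smooth).contDiffOn)).mul (hP n).cdo2.continuousOn
  have hid : ∀ n, ∫ y in Ioi (0 : ℝ), (φ y : ℂ) * ((sv y : ℂ) * ((y * g y : ℝ) : ℂ) *
      deriv (deriv (P n)) y) = ∫ y in Ioi (0 : ℝ), (((deriv (deriv η) y : ℝ) : ℂ) * ((sv y)⁻¹ : ℝ)) *
        ((sv y : ℂ) * P n y) := by
    intro n
    have e1 : ∫ y in Ioi (0 : ℝ), (φ y : ℂ) * ((sv y : ℂ) * ((y * g y : ℝ) : ℂ) *
        deriv (deriv (P n)) y) = ∫ y in Ioi (0 : ℝ), (η y : ℂ) * deriv (deriv (P n)) y := by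
      refine setIntegral_congr_fun measurableSet_Ioi fun y _ => ?_
      simp only [hηdef]
      push_cast
      ring
    rw [e1, hη.by_parts (hP n)]
    refine setIntegral_congr_fun measurableSet_Ioi fun y hy => ?_
    have : (sv y : ℂ) ≠ 0 := Complex.ofReal_ne_zero.2 (sv_pos hy).ne'
    push_cast
    field_simp
  have hb : ∀ n, ‖∫ y in Ioi (0 : ℝ), (φ y : ℂ) * F y‖ₑ ≤
      eLpNorm (fun y => (φ y : ℂ)) 2 (volume.restrict (Ioi 0)) *
        eLpNorm (fun y => (sv y : ℂ) * ((y * g y : ℝ) : ℂ) * deriv (deriv (P n)) y - F y) 2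
          (volume.restrict (Ioi 0)) +
      eLpNorm (fun y => ((deriv (deriv η) y : ℝ) : ℂ) * ((sv y)⁻¹ : ℝ)) 2 (volume.restrict (Ioi 0)) *
        eLpNorm (fun y => (sv y : ℂ) * P n y) 2 (volume.restrict (Ioi 0)) := by
    intro n
    have i1 : IntegrableOn (fun y => (φ y : ℂ) * ((sv y : ℂ) * ((y * g y : ℝ) : ℂ) *
      deriv (deriv (P n)) y)) (Ioi 0) := hφ.integrableC (hf n)
    have i2 : IntegrableOn (fun y => (φ y : ℂ) * F y) (Ioi 0) := MemLp.integrable_mul mφ hF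
    have m3 : AEStronglyMeasurable (fun y => (sv y : ℂ) * ((y * g y : ℝ) : ℂ) *
        deriv (deriv (P n)) y - F y) (volume.restrict (Ioi 0)) :=
      ((hf n).aestronglyMeasurable measurableSet_Ioi).sub hF.1
    have m4 : AEStronglyMeasurable (fun y => (sv y : ℂ) * P n y) (volume.restrict (Ioi 0)) :=
      ((cR cdo_sv).mul (hP n).cdo.continuousOn).aestronglyMeasurable measurableSet_Ioi
    have e : ∫ y in Ioi (0 : ℝ), (φ y : ℂ) * F y =
        (∫ y in Ioi (0 : ℝ), (((deriv (deriv η) y : ℝ) : ℂ) * ((sv y)⁻¹ : ℝ)) * ((sv y : ℂ) * P n y)) -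
        ∫ y in Ioi (0 : ℝ), (φ y : ℂ) * ((sv y : ℂ) * ((y * g y : ℝ) : ℂ) *
          deriv (deriv (P n)) y - F y) := by
      rw [← hid n]
      have : ∀ y, (φ y : ℂ) * ((sv y : ℂ) * ((y * g y : ℝ) : ℂ) *
          deriv (deriv (P n)) y - F y) = (φ y : ℂ) * ((sv y : ℂ) * ((y * g y : ℝ) : ℂ) *
          deriv (deriv (P n)) y) - (φ y : ℂ) * F y := fun y => mul_sub _ _ _
      simp_rw [this]
      rw [integral_sub i1 i2]
      ring
    rw [e]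
    refine (enorm_sub_le).trans ?_
    rw [add_comm]
    exact add_le_add (cs_enorm mφ.1 m3) (cs_enorm mη.1 m4)
  have hlim : Tendsto (fun n => eLpNorm (fun y => (φ y : ℂ)) 2 (volume.restrict (Ioi 0)) *
        eLpNorm (fun y => (sv y : ℂ) * ((y * g y : ℝ) : ℂ) * deriv (deriv (P n)) y - F y) 2
          (volume.restrict (Ioi 0)) +
      eLpNorm (fun y => ((deriv (deriv η) y : ℝ) : ℂ) * ((sv y)⁻¹ : ℝ)) 2 (volume.restrict (Ioi 0)) *
        eLpNorm (fun y => (sv y : ℂ) * P n y) 2 (volume.restrict (Ioi 0))) atTop (𝓝 0) := by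
    have a1 := ENNReal.Tendsto.const_mul (a := eLpNorm (fun y => (φ y : ℂ)) 2
      (volume.restrict (Ioi 0))) h1 (Or.inr mφ.2.ne)
    have a2 := ENNReal.Tendsto.const_mul (a := eLpNorm (fun y => ((deriv (deriv η) y : ℝ) : ℂ) *
      ((sv y)⁻¹ : ℝ)) 2 (volume.restrict (Ioi 0))) h0 (Or.inr mη.2.ne)
    simpa using a1.add a2
  have hz := ge_of_tendsto' hlim hb
  exact enorm_eq_zero.1 (le_antisymm hz bot_le)

end Crest.Agent.R213.A
end
end

-- ▼ part R213/A/StRell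
section

/-!
# Row 213, Part A: `st_rellich` (helper337)

Two Hardy inequalities near `0`, Poincaré on short intervals in `[η, Y0]`.
-/

set_option autoImplicit false

open Set MeasureTheory Filter Topology intervalIntegral

noncomputable section

namespace Crest.Agent.R213.A.Rell

/-- derivative within `[0,∞)` -/
def dW (P : ℝ → ℂ) : ℝ → ℂ := derivWithin P (Ici 0)

theorem der {P : ℝ → ℂ} (hP : DD P) {y : ℝ} (hy : 0 ≤ y) :
    HasDerivWithinAt P (dW P y) (Ici 0) y :=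
  ((hP.1.differentiableOn (by simp)) y hy).hasDerivWithinAt

theorem derAt {P : ℝ → ℂ} (hP : DD P) {y : ℝ} (hy : 0 < y) : HasDerivAt P (dW P y) y :=
  (der hP hy.le).hasDerivAt (Ici_mem_nhds hy)

theorem deriv_eq {P : ℝ → ℂ} (hP : DD P) {y : ℝ} (hy : 0 < y) : deriv P y = dW P y :=
  (derAt hP hy).deriv

theorem dd_dW {P : ℝ → ℂ} (hP : DD P) : DD (dW P) := by
  refine ⟨hP.1.derivWithin (uniqueDiffOn_Ici 0) (by simp), ?_⟩
  obtain ⟨R, hR⟩ := hP.2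
  refine ⟨max R 0 + 1, fun y hy => ?_⟩
  have hy0 : 0 < y := by have := le_max_right R 0; linarith
  have hyR : R < y := by have := le_max_left R 0; linarith
  have hev : P =ᶠ[𝓝 y] fun _ => 0 := by
    filter_upwards [lt_mem_nhds hyR] with z hz using hR z hz.le
  have : HasDerivAt P 0 y := (hasDerivAt_const y (0 : ℂ)).congr_of_eventuallyEq hev
  have h2 := (derAt hP hy0).unique this
  exact h2

theorem deriv2_eq {P : ℝ → ℂ} (hP : DD P) {y : ℝ} (hy : 0 < y) :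
    deriv (deriv P) y = dW (dW P) y := by
  have hev : deriv P =ᶠ[𝓝 y] dW P := by
    filter_upwards [lt_mem_nhds hy] with z hz using deriv_eq hP hz
  rw [hev.deriv_eq]
  exact deriv_eq (dd_dW hP) hy


theorem contOn_Icc {P : ℝ → ℂ} (hP : DD P) {a b : ℝ} (ha : 0 ≤ a) : ContinuousOn P (Icc a b) :=
  hP.1.continuousOn.mono (fun _ hx => ha.trans hx.1)

/-- a common vanishing bound. -/
theorem exists_bd {P : ℝ → ℂ} (hP : DD P) (B0 : ℝ) :
    ∃ B, B0 ≤ B ∧ 0 < B ∧ (∀ y, B ≤ y → P y = 0) ∧ (∀ y, B ≤ y → dW P y = 0) ∧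
      ∀ y, B ≤ y → dW (dW P) y = 0 := by
  obtain ⟨R, hR⟩ := hP.2
  obtain ⟨R1, hR1⟩ := (dd_dW hP).2
  obtain ⟨R2, hR2⟩ := (dd_dW (dd_dW hP)).2
  refine ⟨max (max (max R R1) (max R2 B0)) 1, ?_, ?_, ?_, ?_, ?_⟩
  · exact (le_max_right _ _).trans ((le_max_right _ _).trans (le_max_left _ _))
  · exact lt_of_lt_of_le one_pos (le_max_right _ _)
  · intro y hy
    exact hR y (le_trans ((le_max_left _ _).trans ((le_max_left _ _).trans (le_max_left _ _))) hy)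
  · intro y hy
    exact hR1 y (le_trans ((le_max_right _ _).trans ((le_max_left _ _).trans (le_max_left _ _))) hy)
  · intro y hy
    exact hR2 y (le_trans ((le_max_left _ _).trans ((le_max_right _ _).trans (le_max_left _ _))) hy)

theorem integral_Ioi_eq {f : ℝ → ℝ} {B : ℝ} (hB : 0 ≤ B) (hf : ∀ y, B ≤ y → f y = 0) :
    ∫ y in Ioi (0 : ℝ), f y = ∫ y in (0 : ℝ)..B, f y := by
  rw [intervalIntegral.integral_of_le hB]
  apply setIntegral_eq_of_subset_of_forall_sdiff_eq_zero measurableSet_Ioi Ioc_subset_Ioi_self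
  intro y hy
  apply hf
  by_contra h
  exact hy.2 ⟨hy.1, (not_le.1 h).le⟩

/-- **Hardy** on `[0,B]`. -/
theorem hardy {v : ℝ → ℂ} (hv : DD v) {B : ℝ} (hB : 0 < B) (hvB : v B = 0) (m : ℕ) :
    ∫ y in (0 : ℝ)..B, y ^ m * ‖v y‖ ^ 2 ≤
      4 / ((m : ℝ) + 1) ^ 2 * ∫ y in (0 : ℝ)..B, y ^ (m + 2) * ‖dW v y‖ ^ 2 := by
  have cv : ContinuousOn v (Icc 0 B) := contOn_Icc hv le_rfl
  have cv1 : ContinuousOn (dW v) (Icc 0 B) := contOn_Icc (dd_dW hv) le_rfl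
  -- Re (conj v * v')
  set q : ℝ → ℝ := fun y => (v y).re * (dW v y).re + (v y).im * (dW v y).im with hq
  have cq : ContinuousOn q (Icc 0 B) := by
    have e1 := Complex.continuous_re.comp_continuousOn cv
    have e2 := Complex.continuous_im.comp_continuousOn cv
    have e3 := Complex.continuous_re.comp_continuousOn cv1
    have e4 := Complex.continuous_im.comp_continuousOn cv1
    exact (e1.mul e3).add (e2.mul e4)
  have hns : ∀ z : ℂ, ‖z‖ ^ 2 = z.re * z.re + z.im * z.im := by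
    intro z
    rw [← Complex.normSq_eq_norm_sq, Complex.normSq_apply]
  have hder : ∀ y ∈ Ioo 0 B, HasDerivAt (fun y => y ^ (m + 1) * ‖v y‖ ^ 2)
      (((m : ℝ) + 1) * y ^ m * ‖v y‖ ^ 2 + y ^ (m + 1) * (2 * q y)) y := by
    intro y hy
    have h1 := derAt hv hy.1
    have hre : HasDerivAt (fun y => (v y).re) (dW v y).re y :=
      Complex.reCLM.hasFDerivAt.comp_hasDerivAt y h1
    have him : HasDerivAt (fun y => (v y).im) (dW v y).im y :=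
      Complex.imCLM.hasFDerivAt.comp_hasDerivAt y h1
    have h2 : HasDerivAt (fun y => ‖v y‖ ^ 2) (2 * q y) y := by
      have h3 := (hre.mul hre).add (him.mul him)
      refine (h3.congr_deriv ?_).congr_of_eventuallyEq ?_
      · simp only [hq]; ring
      · filter_upwards with z
        rw [hns]; rfl
    have h4 := (hasDerivAt_pow (m + 1) y).mul h2
    refine h4.congr_deriv ?_
    push_cast
    simp
  have hcont : ContinuousOn (fun y => y ^ (m + 1) * ‖v y‖ ^ 2) (Icc 0 B) := by fun_prop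
  have hint : IntervalIntegrable
      (fun y => ((m : ℝ) + 1) * y ^ m * ‖v y‖ ^ 2 + y ^ (m + 1) * (2 * q y)) volume 0 B := by
    apply ContinuousOn.intervalIntegrable
    rw [uIcc_of_le hB.le]
    fun_prop
  have hFTC := intervalIntegral.integral_eq_sub_of_hasDerivAt_of_le hB.le hcont hder hint
  rw [hvB] at hFTC
  simp only [norm_zero, ne_eq, OfNat.ofNat_ne_zero, not_false_eq_true, zero_pow, mul_zero,
    add_eq_zero, one_ne_zero, and_false, zero_mul, sub_self] at hFTC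
  have i1 : IntervalIntegrable (fun y => y ^ m * ‖v y‖ ^ 2) volume 0 B := by
    apply ContinuousOn.intervalIntegrable
    rw [uIcc_of_le hB.le]; fun_prop
  have i2 : IntervalIntegrable (fun y => y ^ (m + 1) * (2 * q y)) volume 0 B := by
    apply ContinuousOn.intervalIntegrable
    rw [uIcc_of_le hB.le]; fun_prop
  have i3 : IntervalIntegrable (fun y => y ^ (m + 2) * ‖dW v y‖ ^ 2) volume 0 B := by
    apply ContinuousOn.intervalIntegrable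
    rw [uIcc_of_le hB.le]; fun_prop
  set c : ℝ := (m : ℝ) + 1 with hc
  have hc0 : 0 < c := by positivity
  have e1 : ∫ y in (0 : ℝ)..B, (c * y ^ m * ‖v y‖ ^ 2 + y ^ (m + 1) * (2 * q y)) =
      c * (∫ y in (0 : ℝ)..B, y ^ m * ‖v y‖ ^ 2) + ∫ y in (0 : ℝ)..B, y ^ (m + 1) * (2 * q y) := by
    have : ∀ y : ℝ, c * y ^ m * ‖v y‖ ^ 2 + y ^ (m + 1) * (2 * q y) =
        c * (y ^ m * ‖v y‖ ^ 2) + y ^ (m + 1) * (2 * q y) := by intro y; ring
    simp_rw [this]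
    rw [intervalIntegral.integral_add (i1.const_mul c) i2, intervalIntegral.integral_const_mul]
  have e2 : - ∫ y in (0 : ℝ)..B, y ^ (m + 1) * (2 * q y) ≤
      c / 2 * (∫ y in (0 : ℝ)..B, y ^ m * ‖v y‖ ^ 2) +
        2 / c * ∫ y in (0 : ℝ)..B, y ^ (m + 2) * ‖dW v y‖ ^ 2 := by
    rw [← intervalIntegral.integral_neg, ← intervalIntegral.integral_const_mul,
      ← intervalIntegral.integral_const_mul, ← intervalIntegral.integral_add (i1.const_mul _)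
        (i3.const_mul _)]
    apply intervalIntegral.integral_mono_on hB.le i2.neg ((i1.const_mul _).add (i3.const_mul _))
    intro y hy
    have hy0 := hy.1
    have hqle : -q y ≤ ‖v y‖ * ‖dW v y‖ := by
      have h5 : |q y| ≤ ‖v y‖ * ‖dW v y‖ := by
        have : q y = (star (v y) * dW v y).re := by simp [hq]
        rw [this]
        refine (Complex.abs_re_le_norm _).trans (le_of_eq ?_)
        rw [norm_mul, norm_star]
      have := neg_abs_le (q y)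
      linarith
    have hym : 0 ≤ y ^ m := pow_nonneg hy0 m
    have key : -(y * (2 * q y)) ≤ c / 2 * ‖v y‖ ^ 2 + 2 / c * (y ^ 2 * ‖dW v y‖ ^ 2) := by
      have h6 : 0 ≤ (c * ‖v y‖ - 2 * (y * ‖dW v y‖)) ^ 2 / (2 * c) := by positivity
      have h7 : (c * ‖v y‖ - 2 * (y * ‖dW v y‖)) ^ 2 / (2 * c) =
          c / 2 * ‖v y‖ ^ 2 + 2 / c * (y ^ 2 * ‖dW v y‖ ^ 2) - 2 * y * (‖v y‖ * ‖dW v y‖) := by
        field_simp; ring
      have h8 : -(y * (2 * q y)) ≤ 2 * y * (‖v y‖ * ‖dW v y‖) := by nlinarith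
      linarith
    calc -(y ^ (m + 1) * (2 * q y)) = y ^ m * (-(y * (2 * q y))) := by ring
      _ ≤ y ^ m * (c / 2 * ‖v y‖ ^ 2 + 2 / c * (y ^ 2 * ‖dW v y‖ ^ 2)) :=
          mul_le_mul_of_nonneg_left key hym
      _ = _ := by ring
  rw [e1] at hFTC
  have e3 : c / 2 * (∫ y in (0 : ℝ)..B, y ^ m * ‖v y‖ ^ 2) ≤
      2 / c * ∫ y in (0 : ℝ)..B, y ^ (m + 2) * ‖dW v y‖ ^ 2 := by linarith
  have e4 : 2 / c * (c / 2 * (∫ y in (0 : ℝ)..B, y ^ m * ‖v y‖ ^ 2)) ≤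
      2 / c * (2 / c * ∫ y in (0 : ℝ)..B, y ^ (m + 2) * ‖dW v y‖ ^ 2) :=
    mul_le_mul_of_nonneg_left e3 (by positivity)
  calc _ = 2 / c * (c / 2 * (∫ y in (0 : ℝ)..B, y ^ m * ‖v y‖ ^ 2)) := by field_simp
    _ ≤ _ := e4
    _ = _ := by field_simp; ring

/-- Poincaré on a short interval. -/
theorem poincare {v : ℝ → ℂ} (hv : DD v) {a b : ℝ} (ha : 0 ≤ a) (hab : a < b) :
    ∫ y in a..b, ‖v y‖ ^ 2 ≤
      2 / (b - a) * ‖∫ y in a..b, v y‖ ^ 2 + 2 * (b - a) ^ 2 * ∫ y in a..b, ‖dW v y‖ ^ 2 := by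
  have hd : 0 < b - a := by linarith
  have cv : ContinuousOn v (Icc a b) := contOn_Icc hv ha
  have cv1 : ContinuousOn (dW v) (Icc a b) := contOn_Icc (dd_dW hv) ha
  set T : ℝ := ∫ y in a..b, ‖dW v y‖ with hT
  have iv : IntervalIntegrable v volume a b := by
    apply ContinuousOn.intervalIntegrable; rwa [uIcc_of_le hab.le]
  have hi1 : ∀ c d : ℝ, a ≤ c → c ≤ d → d ≤ b → IntervalIntegrable (fun y => ‖dW v y‖) volume c d := by
    intro c d hc hcd hdb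
    apply ContinuousOn.intervalIntegrable
    rw [uIcc_of_le hcd]
    exact (cv1.mono (Icc_subset_Icc hc hdb)).norm
  have hi2 : ∀ c d : ℝ, a ≤ c → c ≤ d → d ≤ b → IntervalIntegrable (dW v) volume c d := by
    intro c d hc hcd hdb
    apply ContinuousOn.intervalIntegrable
    rw [uIcc_of_le hcd]
    exact cv1.mono (Icc_subset_Icc hc hdb)
  have hT0 : 0 ≤ T := intervalIntegral.integral_nonneg hab.le (fun y _ => norm_nonneg _)
  have hsub : ∀ c d : ℝ, a ≤ c → c ≤ d → d ≤ b → ‖v d - v c‖ ≤ T := by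
    intro c d hc hcd hdb
    have hFTC : ∫ y in c..d, dW v y = v d - v c := by
      apply intervalIntegral.integral_eq_sub_of_hasDerivAt_of_le hcd
        (cv.mono (Icc_subset_Icc hc hdb)) _ (hi2 c d hc hcd hdb)
      intro y hy
      exact derAt hv (lt_of_le_of_lt (ha.trans hc) hy.1)
    rw [← hFTC]
    calc ‖∫ y in c..d, dW v y‖ ≤ ∫ y in c..d, ‖dW v y‖ :=
          intervalIntegral.norm_integral_le_integral_norm hcd
      _ ≤ T := by
          apply intervalIntegral.integral_mono_interval hc hcd hdb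
          · exact Eventually.of_forall (fun y => norm_nonneg _)
          · exact hi1 a b le_rfl hab.le le_rfl
  have hsub' : ∀ y ∈ Icc a b, ∀ z ∈ Icc a b, ‖v y - v z‖ ≤ T := by
    intro y hy z hz
    rcases le_total y z with h | h
    · rw [norm_sub_rev]; exact hsub y z hy.1 h hz.2
    · exact hsub z y hz.1 h hy.2
  have hpt : ∀ y ∈ Icc a b, ‖v y‖ ^ 2 ≤ 2 / (b - a) ^ 2 * ‖∫ z in a..b, v z‖ ^ 2 + 2 * T ^ 2 := by
    intro y hy
    have e1 : ((b - a : ℝ) : ℂ) * v y = (∫ z in a..b, v z) + ∫ z in a..b, (v y - v z) := by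
      rw [intervalIntegral.integral_sub intervalIntegrable_const iv,
        intervalIntegral.integral_const, Complex.real_smul]
      ring
    have e2 : ‖∫ z in a..b, (v y - v z)‖ ≤ T * (b - a) := by
      have := intervalIntegral.norm_integral_le_of_norm_le_const (a := a) (b := b)
        (f := fun z => v y - v z) (C := T) (by
          intro z hz
          rw [uIoc_of_le hab.le] at hz
          exact hsub' y hy z ⟨hz.1.le, hz.2⟩)
      rwa [abs_of_pos hd] at this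
    have e3 : (b - a) * ‖v y‖ ≤ ‖∫ z in a..b, v z‖ + T * (b - a) := by
      have : (b - a) * ‖v y‖ = ‖((b - a : ℝ) : ℂ) * v y‖ := by
        rw [norm_mul, Complex.norm_real, Real.norm_of_nonneg hd.le]
      rw [this, e1]
      exact (norm_add_le _ _).trans (by linarith)
    have e4 : ‖v y‖ ≤ ‖∫ z in a..b, v z‖ / (b - a) + T := by
      rw [← sub_le_iff_le_add, le_div_iff₀ hd]
      linarith
    have e5 : ‖v y‖ ^ 2 ≤ (‖∫ z in a..b, v z‖ / (b - a) + T) ^ 2 :=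
      pow_le_pow_left₀ (norm_nonneg _) e4 2
    have e6 : (‖∫ z in a..b, v z‖ / (b - a) + T) ^ 2 ≤
        2 * (‖∫ z in a..b, v z‖ / (b - a)) ^ 2 + 2 * T ^ 2 := by
      nlinarith [sq_nonneg (‖∫ z in a..b, v z‖ / (b - a) - T)]
    calc _ ≤ _ := e5
      _ ≤ _ := e6
      _ = _ := by rw [div_pow]; ring
  have hT2 : T ^ 2 ≤ (b - a) * ∫ y in a..b, ‖dW v y‖ ^ 2 := by
    have := C.cs hab.le (f := fun y => ‖dW v y‖) (g := fun _ => (1 : ℝ)) cv1.norm continuousOn_const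
    simp only [mul_one, one_pow, intervalIntegral.integral_const, smul_eq_mul] at this
    linarith
  calc ∫ y in a..b, ‖v y‖ ^ 2
      ≤ ∫ y in a..b, (2 / (b - a) ^ 2 * ‖∫ z in a..b, v z‖ ^ 2 + 2 * T ^ 2) := by
        apply intervalIntegral.integral_mono_on hab.le
        · apply ContinuousOn.intervalIntegrable
          rw [uIcc_of_le hab.le]; exact cv.norm.pow 2
        · exact intervalIntegrable_const
        · exact hpt
    _ = 2 / (b - a) * ‖∫ z in a..b, v z‖ ^ 2 + 2 * (b - a) * T ^ 2 := by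
        rw [intervalIntegral.integral_const, smul_eq_mul]
        field_simp
    _ ≤ _ := by
        have : 2 * (b - a) * T ^ 2 ≤ 2 * (b - a) * ((b - a) * ∫ y in a..b, ‖dW v y‖ ^ 2) :=
          mul_le_mul_of_nonneg_left hT2 (by positivity)
        nlinarith

/-- `stY` as an interval integral. -/
theorem stY_eq {g : ℝ → ℝ} {P : ℝ → ℂ} (hP : DD P) {B : ℝ} (hB : 0 ≤ B)
    (h0 : ∀ y, B ≤ y → P y = 0) (h2 : ∀ y, B ≤ y → dW (dW P) y = 0) :
    stY g P = ∫ y in (0 : ℝ)..B, y ^ 9 * w60 y * (((y * g y) ^ 2) * ‖dW (dW P) y‖ ^ 2 + ‖P y‖ ^ 2) := by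
  unfold stY
  rw [← integral_Ioi_eq hB (f := fun y => y ^ 9 * w60 y *
    (((y * g y) ^ 2) * ‖dW (dW P) y‖ ^ 2 + ‖P y‖ ^ 2)) (fun y hy => by simp [h0 y hy, h2 y hy])]
  apply setIntegral_congr_fun measurableSet_Ioi
  intro y hy
  simp only
  rw [deriv2_eq hP hy]

/-- both Hardy inequalities, in terms of `stY`. -/
theorem hardy_stY {c0 C0 : ℝ} {g : ℝ → ℝ} (hg : Prof c0 C0 g) {P : ℝ → ℂ} (hP : DD P) {B : ℝ}
    (hB : 0 < B) (h0 : ∀ y, B ≤ y → P y = 0) (h1 : ∀ y, B ≤ y → dW P y = 0)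
    (h2 : ∀ y, B ≤ y → dW (dW P) y = 0) :
    (∫ y in (0 : ℝ)..B, y ^ 7 * ‖P y‖ ^ 2 ≤ 1 / (400 * c0 ^ 2) * stY g P) ∧
      ∫ y in (0 : ℝ)..B, y ^ 9 * ‖dW P y‖ ^ 2 ≤ 1 / (25 * c0 ^ 2) * stY g P := by
  have hc0 := hg.c0_pos
  have a1 := hardy hP hB (h0 B le_rfl) 7
  have a2 := hardy (dd_dW hP) hB (h1 B le_rfl) 9
  have cP : ContinuousOn P (Icc 0 B) := contOn_Icc hP le_rfl
  have cP2 : ContinuousOn (dW (dW P)) (Icc 0 B) := contOn_Icc (dd_dW (dd_dW hP)) le_rfl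
  have cg : Continuous g := hg.smooth.continuous
  have cw : Continuous w60 := by unfold w60; fun_prop
  have a3 : ∫ y in (0 : ℝ)..B, y ^ 11 * ‖dW (dW P) y‖ ^ 2 ≤ 1 / c0 ^ 2 * stY g P := by
    rw [stY_eq hP hB.le h0 h2, ← intervalIntegral.integral_const_mul]
    apply intervalIntegral.integral_mono_on hB.le
    · apply ContinuousOn.intervalIntegrable
      rw [uIcc_of_le hB.le]; fun_prop
    · apply ContinuousOn.intervalIntegrable
      rw [uIcc_of_le hB.le]; fun_prop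
    · intro y hy
      have hy0 := hy.1
      have hl := hg.lower y hy0
      have hw : 1 ≤ w60 y := by
        unfold w60
        exact one_le_pow₀ (by nlinarith [sq_nonneg y])
      have hg2 : c0 ^ 2 * y ^ 2 ≤ (y * g y) ^ 2 := by
        have : c0 ^ 2 ≤ g y ^ 2 := pow_le_pow_left₀ hc0.le hl 2
        nlinarith [sq_nonneg y]
      have h9 : 0 ≤ y ^ 9 := pow_nonneg hy0 9
      have hN := sq_nonneg ‖dW (dW P) y‖
      have hPn := sq_nonneg ‖P y‖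
      have key : c0 ^ 2 * (y ^ 2 * ‖dW (dW P) y‖ ^ 2) ≤
          w60 y * ((y * g y) ^ 2 * ‖dW (dW P) y‖ ^ 2 + ‖P y‖ ^ 2) := by
        have k1 : c0 ^ 2 * (y ^ 2 * ‖dW (dW P) y‖ ^ 2) ≤ (y * g y) ^ 2 * ‖dW (dW P) y‖ ^ 2 := by
          nlinarith
        have k2 : 0 ≤ (y * g y) ^ 2 * ‖dW (dW P) y‖ ^ 2 := by positivity
        nlinarith
      calc y ^ 11 * ‖dW (dW P) y‖ ^ 2
          = 1 / c0 ^ 2 * (y ^ 9 * (c0 ^ 2 * (y ^ 2 * ‖dW (dW P) y‖ ^ 2))) := by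
            field_simp
        _ ≤ 1 / c0 ^ 2 * (y ^ 9 * (w60 y * ((y * g y) ^ 2 * ‖dW (dW P) y‖ ^ 2 + ‖P y‖ ^ 2))) := by
            gcongr
        _ = _ := by ring
  norm_num at a1 a2
  have b2 : ∫ y in (0 : ℝ)..B, y ^ 9 * ‖dW P y‖ ^ 2 ≤ 1 / (25 * c0 ^ 2) * stY g P := by
    calc _ ≤ _ := a2
      _ ≤ 1 / 25 * (1 / c0 ^ 2 * stY g P) := by gcongr
      _ = _ := by field_simp
  refine ⟨?_, b2⟩
  calc _ ≤ _ := a1
    _ ≤ 1 / 16 * (1 / (25 * c0 ^ 2) * stY g P) := by gcongr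
    _ = _ := by field_simp; ring

end Crest.Agent.R213.A.Rell

namespace Crest.Agent.R213.A

open Rell

theorem st_rellich {c0 C0 : ℝ} {g : ℝ → ℝ} (hg : Prof c0 C0 g) {ε Y0 : ℝ} (hε : 0 < ε)
    (hY : 0 < Y0) :
    ∃ (n : ℕ) (a b : Fin n → ℝ) (K : ℝ), 0 ≤ K ∧ (∀ i, 0 < a i ∧ a i < b i) ∧ ∀ P, DD P →
      ∫ y in Ioc 0 Y0, y ^ 9 * ‖P y‖ ^ 2 ≤
        ε * stY g P + K * ∑ i, ‖∫ y in Ioc (a i) (b i), P y‖ ^ 2 := by
  have hc0 := hg.c0_pos
  -- choice of η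
  obtain ⟨η, hη0, hηY, hη⟩ : ∃ η : ℝ, 0 < η ∧ η < Y0 ∧ η ^ 2 * (1 / (400 * c0 ^ 2)) ≤ ε / 2 := by
    refine ⟨min (Y0 / 2) (√(200 * c0 ^ 2 * ε)), by positivity, ?_, ?_⟩
    · exact (min_le_left _ _).trans_lt (by linarith)
    · have h1 : (min (Y0 / 2) (√(200 * c0 ^ 2 * ε))) ^ 2 ≤ (√(200 * c0 ^ 2 * ε)) ^ 2 :=
        pow_le_pow_left₀ (by positivity) (min_le_right _ _) 2
      rw [Real.sq_sqrt (by positivity)] at h1
      calc _ ≤ 200 * c0 ^ 2 * ε * (1 / (400 * c0 ^ 2)) := by gcongr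
        _ = ε / 2 := by field_simp; ring
  -- choice of n
  set Q : ℝ := 2 * Y0 ^ 9 * Y0 ^ 2 * (η ^ 9)⁻¹ * (1 / (25 * c0 ^ 2)) with hQ
  have hQ0 : 0 ≤ Q := by positivity
  obtain ⟨n, hn0, hn⟩ : ∃ n : ℕ, 0 < n ∧ Q / (n : ℝ) ^ 2 ≤ ε / 2 := by
    obtain ⟨n, hn⟩ := exists_nat_gt (max 1 (2 * Q / ε))
    have hn1 : (1 : ℝ) < n := (le_max_left _ _).trans_lt hn
    have hn2 : 2 * Q / ε < n := (le_max_right _ _).trans_lt hn
    refine ⟨n, by exact_mod_cast (by linarith : (0 : ℝ) < n), ?_⟩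
    rw [div_le_iff₀ (by positivity)]
    rw [div_lt_iff₀ hε] at hn2
    nlinarith
  have hnR : (0 : ℝ) < n := by exact_mod_cast hn0
  set ℓ : ℝ := (Y0 - η) / n with hℓ
  have hℓ0 : 0 < ℓ := div_pos (by linarith) hnR
  have hℓY : ℓ ≤ Y0 / n := by
    rw [hℓ]; gcongr; linarith
  set pt : ℕ → ℝ := fun i => η + i * ℓ with hpt
  have hpt0 : pt 0 = η := by simp [hpt]
  have hptn : pt n = Y0 := by
    simp only [hpt, hℓ]
    field_simp
    ring
  have hptmono : ∀ i, pt i < pt (i + 1) := by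
    intro i
    simp only [hpt]
    push_cast
    nlinarith
  have hptsub : ∀ i, pt (i + 1) - pt i = ℓ := by
    intro i
    simp only [hpt]
    push_cast
    ring
  have hptη : ∀ i, η ≤ pt i := by
    intro i
    simp only [hpt]
    have : (0 : ℝ) ≤ i := Nat.cast_nonneg i
    nlinarith
  have hptY : ∀ i, i ≤ n → pt i ≤ Y0 := by
    intro i hi
    rw [← hptn]
    simp only [hpt]
    have : (i : ℝ) ≤ n := by exact_mod_cast hi
    nlinarith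
  refine ⟨n, fun i => pt i, fun i => pt (i + 1), Y0 ^ 9 * (2 / ℓ), by positivity,
    fun i => ⟨lt_of_lt_of_le hη0 (hptη i), hptmono i⟩, ?_⟩
  intro P hP
  obtain ⟨B, hYB, hB, h0, h1, h2⟩ := exists_bd hP Y0
  obtain ⟨H7, H9⟩ := hardy_stY hg hP hB h0 h1 h2
  have cP : ∀ a b : ℝ, 0 ≤ a → ContinuousOn P (Icc a b) := fun a b ha => contOn_Icc hP ha
  have cP1 : ∀ a b : ℝ, 0 ≤ a → ContinuousOn (dW P) (Icc a b) :=
    fun a b ha => contOn_Icc (dd_dW hP) ha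
  have iP : ∀ a b : ℝ, 0 ≤ a → a ≤ b → ∀ m : ℕ,
      IntervalIntegrable (fun y => y ^ m * ‖P y‖ ^ 2) volume a b := by
    intro a b ha hab m
    have := cP a b ha
    apply ContinuousOn.intervalIntegrable
    rw [uIcc_of_le hab]; fun_prop
  have iP1 : ∀ a b : ℝ, 0 ≤ a → a ≤ b → ∀ m : ℕ,
      IntervalIntegrable (fun y => y ^ m * ‖dW P y‖ ^ 2) volume a b := by
    intro a b ha hab m
    have := cP1 a b ha
    apply ContinuousOn.intervalIntegrable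
    rw [uIcc_of_le hab]; fun_prop
  -- split
  have hsplit : ∫ y in Ioc 0 Y0, y ^ 9 * ‖P y‖ ^ 2 =
      (∫ y in (0 : ℝ)..η, y ^ 9 * ‖P y‖ ^ 2) +
        ∑ i ∈ Finset.range n, ∫ y in pt i..pt (i + 1), y ^ 9 * ‖P y‖ ^ 2 := by
    rw [intervalIntegral.sum_integral_adjacent_intervals (a := pt) (fun k hk =>
      iP _ _ (hη0.le.trans (hptη k)) (hptmono k).le 9), hpt0, hptn,
      intervalIntegral.integral_add_adjacent_intervals (iP _ _ le_rfl hη0.le 9)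
        (iP _ _ hη0.le hηY.le 9), intervalIntegral.integral_of_le hY.le]
  rw [hsplit]
  -- first part
  have p1 : ∫ y in (0 : ℝ)..η, y ^ 9 * ‖P y‖ ^ 2 ≤ ε / 2 * stY g P := by
    have hst : 0 ≤ ∫ y in (0 : ℝ)..B, y ^ 7 * ‖P y‖ ^ 2 :=
      intervalIntegral.integral_nonneg hB.le (fun y hy => mul_nonneg (pow_nonneg hy.1 7) (sq_nonneg _))
    have hstY : 0 ≤ stY g P := by
      have : 0 ≤ 1 / (400 * c0 ^ 2) * stY g P := hst.trans H7
      by_contra hneg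
      push Not at hneg
      have h3 : 1 / (400 * c0 ^ 2) * stY g P < 0 := mul_neg_of_pos_of_neg (by positivity) hneg
      linarith
    calc ∫ y in (0 : ℝ)..η, y ^ 9 * ‖P y‖ ^ 2
        ≤ ∫ y in (0 : ℝ)..η, η ^ 2 * (y ^ 7 * ‖P y‖ ^ 2) := by
          apply intervalIntegral.integral_mono_on hη0.le (iP _ _ le_rfl hη0.le 9)
            ((iP _ _ le_rfl hη0.le 7).const_mul _)
          intro y hy
          have h3 : y ^ 2 ≤ η ^ 2 := pow_le_pow_left₀ hy.1 hy.2 2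
          have h4 : 0 ≤ y ^ 7 * ‖P y‖ ^ 2 := mul_nonneg (pow_nonneg hy.1 7) (sq_nonneg _)
          calc y ^ 9 * ‖P y‖ ^ 2 = y ^ 2 * (y ^ 7 * ‖P y‖ ^ 2) := by ring
            _ ≤ _ := mul_le_mul_of_nonneg_right h3 h4
      _ = η ^ 2 * ∫ y in (0 : ℝ)..η, y ^ 7 * ‖P y‖ ^ 2 := intervalIntegral.integral_const_mul _ _
      _ ≤ η ^ 2 * ∫ y in (0 : ℝ)..B, y ^ 7 * ‖P y‖ ^ 2 := by
          apply mul_le_mul_of_nonneg_left _ (by positivity)
          apply intervalIntegral.integral_mono_interval le_rfl hη0.le (hηY.le.trans hYB)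
          · refine (ae_restrict_mem measurableSet_Ioc).mono ?_
            intro y hy
            exact mul_nonneg (pow_nonneg hy.1.le 7) (sq_nonneg _)
          · exact iP _ _ le_rfl hB.le 7
      _ ≤ η ^ 2 * (1 / (400 * c0 ^ 2) * stY g P) := by gcongr
      _ = (η ^ 2 * (1 / (400 * c0 ^ 2))) * stY g P := by ring
      _ ≤ ε / 2 * stY g P := by gcongr
  have hstY : 0 ≤ stY g P := by
    have hst : 0 ≤ ∫ y in (0 : ℝ)..B, y ^ 7 * ‖P y‖ ^ 2 :=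
      intervalIntegral.integral_nonneg hB.le (fun y hy => mul_nonneg (pow_nonneg hy.1 7) (sq_nonneg _))
    have : 0 ≤ 1 / (400 * c0 ^ 2) * stY g P := hst.trans H7
    by_contra hneg
    push Not at hneg
    have h3 : 1 / (400 * c0 ^ 2) * stY g P < 0 := mul_neg_of_pos_of_neg (by positivity) hneg
    linarith
  -- one short interval
  have p2 : ∀ i ∈ Finset.range n, ∫ y in pt i..pt (i + 1), y ^ 9 * ‖P y‖ ^ 2 ≤
      Y0 ^ 9 * (2 / ℓ) * ‖∫ y in Ioc (pt i) (pt (i + 1)), P y‖ ^ 2 +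
        2 * Y0 ^ 9 * ℓ ^ 2 * (η ^ 9)⁻¹ * ∫ y in pt i..pt (i + 1), y ^ 9 * ‖dW P y‖ ^ 2 := by
    intro i hi
    have hin : i + 1 ≤ n := Finset.mem_range.1 hi
    have hi0 : 0 ≤ pt i := hη0.le.trans (hptη i)
    have hpo := poincare hP hi0 (hptmono i)
    rw [hptsub i] at hpo
    have q1 : ∫ y in pt i..pt (i + 1), y ^ 9 * ‖P y‖ ^ 2 ≤
        Y0 ^ 9 * ∫ y in pt i..pt (i + 1), ‖P y‖ ^ 2 := by
      rw [← intervalIntegral.integral_const_mul]
      apply intervalIntegral.integral_mono_on (hptmono i).le (iP _ _ hi0 (hptmono i).le 9)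
      · have := iP _ _ hi0 (hptmono i).le 0
        simp only [pow_zero, one_mul] at this
        exact this.const_mul _
      · intro y hy
        have : y ^ 9 ≤ Y0 ^ 9 := pow_le_pow_left₀ (hi0.trans hy.1) (hy.2.trans (hptY _ hin)) 9
        exact mul_le_mul_of_nonneg_right this (sq_nonneg _)
    have q2 : ∫ y in pt i..pt (i + 1), ‖dW P y‖ ^ 2 ≤
        (η ^ 9)⁻¹ * ∫ y in pt i..pt (i + 1), y ^ 9 * ‖dW P y‖ ^ 2 := by
      rw [← intervalIntegral.integral_const_mul]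
      apply intervalIntegral.integral_mono_on (hptmono i).le
      · have := iP1 _ _ hi0 (hptmono i).le 0
        simpa only [pow_zero, one_mul] using this
      · exact (iP1 _ _ hi0 (hptmono i).le 9).const_mul _
      · intro y hy
        have h3 : η ^ 9 ≤ y ^ 9 := pow_le_pow_left₀ hη0.le ((hptη i).trans hy.1) 9
        have h4 : 1 ≤ (η ^ 9)⁻¹ * y ^ 9 := by
          rw [inv_mul_eq_div, le_div_iff₀ (by positivity)]
          linarith
        calc ‖dW P y‖ ^ 2 = 1 * ‖dW P y‖ ^ 2 := by ring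
          _ ≤ ((η ^ 9)⁻¹ * y ^ 9) * ‖dW P y‖ ^ 2 := mul_le_mul_of_nonneg_right h4 (sq_nonneg _)
          _ = _ := by ring
    have q3 : ∫ y in Ioc (pt i) (pt (i + 1)), P y = ∫ y in pt i..pt (i + 1), P y :=
      (intervalIntegral.integral_of_le (hptmono i).le).symm
    rw [q3]
    have q4 : 2 * ℓ ^ 2 * ∫ y in pt i..pt (i + 1), ‖dW P y‖ ^ 2 ≤
        2 * ℓ ^ 2 * ((η ^ 9)⁻¹ * ∫ y in pt i..pt (i + 1), y ^ 9 * ‖dW P y‖ ^ 2) := by gcongr
    have hY9 : 0 ≤ Y0 ^ 9 := by positivity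
    have q5 := mul_le_mul_of_nonneg_left (hpo.trans (add_le_add_right q4 _)) hY9
    calc _ ≤ _ := q1
      _ ≤ _ := q5
      _ = _ := by ring
  have p3 : ∑ i ∈ Finset.range n, ∫ y in pt i..pt (i + 1), y ^ 9 * ‖dW P y‖ ^ 2 ≤
      1 / (25 * c0 ^ 2) * stY g P := by
    rw [intervalIntegral.sum_integral_adjacent_intervals (a := pt) (fun k hk =>
      iP1 _ _ (hη0.le.trans (hptη k)) (hptmono k).le 9), hpt0, hptn]
    refine le_trans ?_ H9
    apply intervalIntegral.integral_mono_interval hη0.le hηY.le hYB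
    · refine (ae_restrict_mem measurableSet_Ioc).mono ?_
      intro y hy
      exact mul_nonneg (pow_nonneg hy.1.le 9) (sq_nonneg _)
    · exact iP1 _ _ le_rfl hB.le 9
  have p4 : ∑ i ∈ Finset.range n, ∫ y in pt i..pt (i + 1), y ^ 9 * ‖P y‖ ^ 2 ≤
      Y0 ^ 9 * (2 / ℓ) * ∑ i ∈ Finset.range n, ‖∫ y in Ioc (pt i) (pt (i + 1)), P y‖ ^ 2 +
        2 * Y0 ^ 9 * ℓ ^ 2 * (η ^ 9)⁻¹ * (1 / (25 * c0 ^ 2) * stY g P) := by
    refine (Finset.sum_le_sum p2).trans ?_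
    rw [Finset.sum_add_distrib, ← Finset.mul_sum, ← Finset.mul_sum]
    gcongr
  have p5 : 2 * Y0 ^ 9 * ℓ ^ 2 * (η ^ 9)⁻¹ * (1 / (25 * c0 ^ 2) * stY g P) ≤ ε / 2 * stY g P := by
    have h3 : ℓ ^ 2 ≤ (Y0 / n) ^ 2 := pow_le_pow_left₀ hℓ0.le hℓY 2
    calc _ ≤ 2 * Y0 ^ 9 * (Y0 / n) ^ 2 * (η ^ 9)⁻¹ * (1 / (25 * c0 ^ 2) * stY g P) := by gcongr
      _ = Q / (n : ℝ) ^ 2 * stY g P := by rw [hQ, div_pow]; ring
      _ ≤ _ := by gcongr
  have p6 : ∑ i : Fin n, ‖∫ y in Ioc (pt i) (pt (i + 1)), P y‖ ^ 2 =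
      ∑ i ∈ Finset.range n, ‖∫ y in Ioc (pt i) (pt (i + 1)), P y‖ ^ 2 :=
    Fin.sum_univ_eq_sum_range (fun i => ‖∫ y in Ioc (pt i) (pt (i + 1)), P y‖ ^ 2) n
  rw [p6]
  linarith

end Crest.Agent.R213.A
end
end

-- ▼ part R213/A/Static
section

/-!
# Row 213, Part A: `inner_static`
-/

set_option autoImplicit false

open Set MeasureTheory Filter Topology
open scoped InnerProductSpace ENNReal

noncomputable section

namespace Crest.Agent.R213.A.St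

variable {c0 C0 : ℝ} {g : ℝ → ℝ}

/-- the functional `P ↦ ∫_a^b P` as an `L²` vector -/
lemma memLp_ind {a b : ℝ} (ha : 0 < a) :
    MemLp (fun y => ((Ioc a b).indicator (fun y => (sv y)⁻¹) y : ℂ)) 2 mu0 := by
  have hm : AEStronglyMeasurable (fun y => ((Ioc a b).indicator (fun y => ((sv y : ℂ))⁻¹) y : ℂ)) mu0 := by
    refine (Measurable.indicator ?_ measurableSet_Ioc).aestronglyMeasurable
    exact (Complex.measurable_ofReal.comp sv_cont.measurable).inv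
  have hc : ContinuousOn (fun y => ((sv y : ℂ))⁻¹) (Icc a b) := by
    refine ContinuousOn.inv₀ (Complex.continuous_ofReal.comp sv_cont).continuousOn ?_
    intro y hy
    exact_mod_cast (sv_pos (lt_of_lt_of_le ha hy.1)).ne'
  have h1 : MemLp (fun y => ((sv y : ℂ))⁻¹) 2 (volume.restrict (Ioc a b)) := by
    have hfin : IsFiniteMeasure (volume.restrict (Ioc a b)) :=
      ⟨by rw [Measure.restrict_apply_univ, Real.volume_Ioc]; exact ENNReal.ofReal_lt_top⟩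
    obtain ⟨K, hK⟩ := (isCompact_Icc (a := a) (b := b)).exists_bound_of_continuousOn hc
    refine MemLp.of_bound ((Complex.measurable_ofReal.comp sv_cont.measurable).inv).aestronglyMeasurable
      K ?_
    filter_upwards [ae_restrict_mem measurableSet_Ioc] with y hy
    exact hK y (Ioc_subset_Icc_self hy)
  have h2 : MemLp ((Ioc a b).indicator (fun y => ((sv y : ℂ))⁻¹)) 2 volume :=
    (memLp_indicator_iff_restrict measurableSet_Ioc).2 h1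
  exact h2.restrict _

lemma inner_ind (hg : Prof c0 C0 g) {a b : ℝ} (ha : 0 < a) {P : ℝ → ℂ} (hP : DD P) :
    ⟪(memLp_ind (b := b) ha).toLp _, (iota (Prof.cont hg) P hP).snd⟫_ℂ = ∫ y in Ioc a b, P y := by
  rw [L2.inner_def]
  have h3 : ((iota (Prof.cont hg) P hP).snd : ℝ → ℂ) =ᵐ[mu0] fun y => (sv y : ℂ) * P y :=
    toL_coe (cc_iF0 hP)
  have h1 : ∫ y, ⟪(((memLp_ind (b := b) ha).toLp _ : LL) : ℝ → ℂ) y,
      ((iota (Prof.cont hg) P hP).snd : ℝ → ℂ) y⟫_ℂ ∂mu0 =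
      ∫ y in Ioi (0 : ℝ), (Ioc a b).indicator P y := by
    refine integral_congr_ae ?_
    filter_upwards [h3, (memLp_ind (b := b) ha).coeFn_toLp, ae_restrict_mem measurableSet_Ioi]
      with y e3 e1 hy
    rw [e1, e3, RCLike.inner_apply]
    by_cases hyI : y ∈ Ioc a b
    · rw [indicator_of_mem hyI, indicator_of_mem hyI]
      have : (sv y : ℂ) ≠ 0 := by exact_mod_cast (sv_pos hy).ne'
      rw [map_inv₀, Complex.conj_ofReal]
      field_simp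
    · rw [indicator_of_notMem hyI, indicator_of_notMem hyI]; simp
  rw [h1, setIntegral_indicator measurableSet_Ioc]
  congr 2
  ext y
  simp only [mem_inter_iff, mem_Ioi, mem_Ioc]
  constructor
  · exact fun h => h.2
  · exact fun h => ⟨ha.trans h.1, h⟩

/-- compactness for test functions -/
lemma compact_test (hg : Prof c0 C0 g) {ε : ℝ} (hε : 0 < ε) :
    ∃ (N : ℕ) (f : Fin N → LL) (C' : ℝ), 0 ≤ C' ∧ ∀ (P : ℝ → ℂ) (hP : DD P),
      (∫ y in Ioi (0 : ℝ), mwf y * ‖((iota (Prof.cont hg) P hP).snd : ℝ → ℂ) y‖ ^ 2) ≤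
        ε * ‖iota (Prof.cont hg) P hP‖ ^ 2 +
          C' * ∑ i, ‖⟪f i, (iota (Prof.cont hg) P hP).snd⟫_ℂ‖ ^ 2 := by
  obtain ⟨Y0, hY0⟩ : ∃ Y0 : ℝ, Y0 = √(2 / ε) + 1 := ⟨_, rfl⟩
  have hY : 0 < Y0 := by rw [hY0]; positivity
  have hYe : 1 / (1 + Y0 ^ 2) ≤ ε / 2 := by
    have h1 : 2 / ε ≤ Y0 ^ 2 := by
      calc 2 / ε = √(2 / ε) ^ 2 := (Real.sq_sqrt (by positivity)).symm
        _ ≤ Y0 ^ 2 := by
            rw [hY0]
            exact pow_le_pow_left₀ (Real.sqrt_nonneg _) (by linarith) 2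
    rw [div_le_div_iff₀ (by positivity) (by norm_num)]
    have : 2 ≤ ε * Y0 ^ 2 := by
      have := mul_le_mul_of_nonneg_left h1 hε.le
      rwa [mul_div_cancel₀ _ hε.ne'] at this
    nlinarith
  obtain ⟨T0, hT0⟩ : ∃ T0 : ℝ, T0 = (1 + Y0 ^ 2) ^ 60 := ⟨_, rfl⟩
  have hT0p : 0 < T0 := by rw [hT0]; positivity
  obtain ⟨n, a, b, K, hK, hab, h⟩ := st_rellich hg (ε := ε / (2 * T0)) (Y0 := Y0) (by positivity) hY
  refine ⟨n, fun i => (memLp_ind (b := b i) (hab i).1).toLp _, T0 * K, by positivity, ?_⟩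
  intro P hP
  have hR := h P hP
  simp_rw [inner_ind hg (hab _).1 hP]
  rw [quad_snd, norm_iota_sq_stY]
  have hsY : (∫ y in Ioi (0 : ℝ), y ^ 9 * (1 + y ^ 2) ^ 60 * ‖P y‖ ^ 2) ≤ stY g P := by
    rw [← norm_iota_sq_stY (Prof.cont hg) hP, norm_iota_sq]
    linarith [nonneg_I2 (g := g) (P := P)]
  have c9 : CC (fun y => y ^ 9 * ‖P y‖ ^ 2) :=
    (cc_norm_sq (cc0 hP).1 (cc0 hP).2).mul_left (a := fun y => y ^ 9) (by fun_prop)
  have cX := cc_I0 hP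
  have h1 : ∫ y in Ioi (0 : ℝ), mwf y * (y ^ 9 * (1 + y ^ 2) ^ 60 * ‖P y‖ ^ 2) ≤
      1 / (1 + Y0 ^ 2) * (∫ y in Ioi (0 : ℝ), y ^ 9 * (1 + y ^ 2) ^ 60 * ‖P y‖ ^ 2) +
      T0 * ∫ y in Ioc 0 Y0, y ^ 9 * ‖P y‖ ^ 2 := by
    have e1 : ∫ y in Ioc 0 Y0, y ^ 9 * ‖P y‖ ^ 2 =
        ∫ y in Ioi (0 : ℝ), (Ioc 0 Y0).indicator (fun y => y ^ 9 * ‖P y‖ ^ 2) y := by
      rw [setIntegral_indicator measurableSet_Ioc]
      congr 2
      ext y; simp only [mem_inter_iff, mem_Ioi, mem_Ioc]; tauto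
    rw [e1, ← integral_const_mul, ← integral_const_mul, ← integral_add
      (cX.integrableOn.const_mul _) ((c9.integrableOn.indicator measurableSet_Ioc).const_mul _)]
    refine setIntegral_mono_on (cX.mul_left mwf_cont).integrableOn
      ((cX.integrableOn.const_mul _).add ((c9.integrableOn.indicator measurableSet_Ioc).const_mul _))
      measurableSet_Ioi fun y hy => ?_
    have hy : 0 < y := hy
    by_cases hyY : y ≤ Y0
    · have hmem : y ∈ Ioc 0 Y0 := ⟨hy, hyY⟩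
      rw [indicator_of_mem hmem]
      have h2 : mwf y ≤ 1 := (abs_le.1 (mwf_bd y)).2
      have h3 : (1 + y ^ 2) ^ 60 ≤ T0 := by rw [hT0]; gcongr
      have h4 : 0 ≤ 1 / (1 + Y0 ^ 2) * (y ^ 9 * (1 + y ^ 2) ^ 60 * ‖P y‖ ^ 2) := by positivity
      calc mwf y * (y ^ 9 * (1 + y ^ 2) ^ 60 * ‖P y‖ ^ 2)
          ≤ 1 * (y ^ 9 * T0 * ‖P y‖ ^ 2) := by
            refine mul_le_mul h2 ?_ (by positivity) (by norm_num)
            gcongr
        _ = T0 * (y ^ 9 * ‖P y‖ ^ 2) := by ring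
        _ ≤ _ := by linarith
    · push Not at hyY
      have hmem : y ∉ Ioc 0 Y0 := fun h => absurd h.2 (not_le.2 hyY)
      rw [indicator_of_notMem hmem, mul_zero, add_zero]
      have h2 : mwf y ≤ 1 / (1 + Y0 ^ 2) := by
        unfold mwf
        rw [← one_div]
        gcongr
      gcongr
  have hS0 : 0 ≤ stY g P := by rw [← norm_iota_sq_stY (Prof.cont hg) hP]; positivity
  have h2 : 1 / (1 + Y0 ^ 2) * (∫ y in Ioi (0 : ℝ), y ^ 9 * (1 + y ^ 2) ^ 60 * ‖P y‖ ^ 2) ≤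
      ε / 2 * stY g P := by
    refine mul_le_mul hYe hsY nonneg_I0 (by positivity)
  have h3 : T0 * ∫ y in Ioc 0 Y0, y ^ 9 * ‖P y‖ ^ 2 ≤
      ε / 2 * stY g P + T0 * K * ∑ i, ‖∫ y in Ioc (a i) (b i), P y‖ ^ 2 := by
    calc T0 * ∫ y in Ioc 0 Y0, y ^ 9 * ‖P y‖ ^ 2
        ≤ T0 * (ε / (2 * T0) * stY g P + K * ∑ i, ‖∫ y in Ioc (a i) (b i), P y‖ ^ 2) := by gcongr
      _ = _ := by field_simp
  linarith

lemma eLpNorm_eq_norm (e : LL) : eLpNorm (e : ℝ → ℂ) 2 mu0 = ENNReal.ofReal ‖e‖ := by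
  rw [Lp.norm_def, ENNReal.ofReal_toReal (Lp.eLpNorm_ne_top e)]

/-- closability in Hilbert space form -/
lemma closable_YS (hg : Prof c0 C0 g) {e : HH} (he : e ∈ YS hg) (h0 : e.snd = 0) : e = 0 := by
  obtain ⟨P, hP⟩ := exists_seq hg ⟨e, he⟩
  have hfst : Tendsto (fun n => (iota (Prof.cont hg) (P n).1 (P n).2).fst) atTop (𝓝 e.fst) :=
    ((WithLp.fstL 2 ℂ LL LL).continuous.tendsto e).comp hP
  have hsnd : Tendsto (fun n => (iota (Prof.cont hg) (P n).1 (P n).2).snd) atTop (𝓝 e.snd) :=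
    ((WithLp.sndL 2 ℂ LL LL).continuous.tendsto e).comp hP
  have t0 : Tendsto (fun n => eLpNorm (fun y => (Crest.Agent.R213.A.sv y : ℂ) * (P n).1 y) 2
      (volume.restrict (Ioi 0))) atTop (𝓝 0) := by
    have h1 : Tendsto (fun n => ENNReal.ofReal ‖(iota (Prof.cont hg) (P n).1 (P n).2).snd‖) atTop
        (𝓝 0) := by
      have := ENNReal.tendsto_ofReal hsnd.norm
      rwa [h0, norm_zero, ENNReal.ofReal_zero] at this
    refine h1.congr fun n => ?_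
    rw [← eLpNorm_eq_norm]
    exact eLpNorm_congr_ae (toL_coe (cc_iF0 (P n).2))
  have t1 : Tendsto (fun n => eLpNorm (fun y => (Crest.Agent.R213.A.sv y : ℂ) *
      ((y * g y : ℝ) : ℂ) * deriv (deriv (P n).1) y - (e.fst : ℝ → ℂ) y) 2
      (volume.restrict (Ioi 0))) atTop (𝓝 0) := by
    have h1 : Tendsto (fun n => ENNReal.ofReal ‖(iota (Prof.cont hg) (P n).1 (P n).2).fst - e.fst‖)
        atTop (𝓝 0) := by
      have := ENNReal.tendsto_ofReal ((tendsto_iff_norm_sub_tendsto_zero).1 hfst)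
      rwa [ENNReal.ofReal_zero] at this
    refine h1.congr fun n => ?_
    rw [← eLpNorm_eq_norm]
    refine eLpNorm_congr_ae ?_
    have h2 : ((iota (Prof.cont hg) (P n).1 (P n).2).fst : ℝ → ℂ) =ᵐ[mu0] _ :=
      toL_coe (cc_iF1 (Prof.cont hg) (P n).2)
    filter_upwards [Lp.coeFn_sub (iota (Prof.cont hg) (P n).1 (P n).2).fst e.fst, h2,
      ae_restrict_mem measurableSet_Ioi] with y e1 e2 hy
    rw [e1, Pi.sub_apply, e2]
    have : deriv (deriv (P n).1) y = D2 (P n).1 y := DD.deriv2_eq hy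
    rw [this]
    have : Crest.Agent.R213.A.sv y = sv y := rfl
    rw [this]; push_cast; ring
  have hz := closable hg (fun n => (P n).2) (Lp.memLp e.fst) t0 t1
  have hf : e.fst = 0 := by
    apply Lp.ext
    filter_upwards [hz, Lp.coeFn_zero ℂ 2 mu0] with y h1 h2
    rw [h1, h2]
  apply (WithLp.equiv 2 (LL × LL)).injective
  exact Prod.ext hf h0

/-- the spectral data -/
theorem exists_specData (hg : Prof c0 C0 g) :
    ∃ D : SpecData {P : ℝ → ℂ // DD P} (YS hg) LL,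
      (65 : ℝ) / 2 - 1 / 8 ≤ D.α₁ ∧ (∀ P, D.nX P = √(stX g P.1)) ∧
      (∀ P, ‖D.ι P‖ ^ 2 = stY g P.1) ∧
      (∀ (κ ξ : ℝ) P Q, stForm g κ ξ Q.1 P.1 = ⟪D.b Q, D.ι P⟫_ℂ -
        (((65 / 2 - κ : ℝ) : ℂ) + ξ * Complex.I) * ⟪D.j Q, D.J (D.ι P)⟫_ℂ) := by
  obtain ⟨C2, hC2, hw⟩ := garding_weak hg
  obtain ⟨C2', K, hC2', hK, ht⟩ := garding_test hg
  have hbin : ∀ (Q : {P : ℝ → ℂ // DD P}) (e : YS hg),
      ⟪(YS hg).orthogonalProjectionOnto (bvec (Prof.cont hg) Q.1 Q.2), e⟫_ℂ =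
        ⟪bvec (Prof.cont hg) Q.1 Q.2, (e : HH)⟫_ℂ := fun Q e =>
    Submodule.inner_orthogonalProjectionOnto_eq_of_mem_right e _
  have hnorm : ∀ e : HH, ‖e‖ ^ 2 = ‖e.fst‖ ^ 2 + ‖e.snd‖ ^ 2 := fun e =>
    WithLp.prod_norm_sq_eq_of_L2 e
  have hk0 : ∀ e : LL, 0 ≤ ∫ y in Ioi (0 : ℝ), mwf y * ‖(e : ℝ → ℂ) y‖ ^ 2 := fun e =>
    integral_nonneg fun y => mul_nonneg (by unfold mwf; positivity) (sq_nonneg _)
  refine ⟨{
    ι := fun P => ⟨iota (Prof.cont hg) P.1 P.2, iota_mem hg P.2⟩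
    J := (WithLp.sndL 2 ℂ LL LL).comp (YS hg).subtypeL
    b := fun Q => (YS hg).orthogonalProjectionOnto (bvec (Prof.cont hg) Q.1 Q.2)
    j := fun Q => jvec Q.1 Q.2
    nX := fun P => √(stX g P.1)
    k := fun e => √(∫ y in Ioi (0 : ℝ), mwf y * ‖((e : HH).snd : ℝ → ℂ) y‖ ^ 2)
    c := 1 / 8
    C := C2 + C2' + √K
    α₁ := 65 / 2 - 1 / 8
    c_pos := by norm_num
    C_nonneg := by positivity
    dens := ?_
    garding := ?_
    gardingD := ?_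
    compact := ?_ }, le_rfl, fun P => rfl,
    fun P => norm_iota_sq_stY (Prof.cont hg) P.2, ?_⟩
  · -- dens
    intro e he
    have h0 : (e : HH).snd = 0 := by
      have h1 := dense_t (Lp.memLp (e : HH).snd) (fun Q hQ => by
        have := he ⟨Q, hQ⟩
        change ⟪jvec Q hQ, (e : HH).snd⟫_ℂ = 0 at this
        rw [jvec, inner_toL_left] at this
        exact this)
      apply Lp.ext
      filter_upwards [h1, Lp.coeFn_zero ℂ 2 mu0] with y h1 h2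
      rw [h1, h2]
    exact Subtype.ext (closable_YS hg e.2 h0)
  · -- garding
    intro e f hf
    have h1 := hw e.1 e.2 f (fun Q hQ => by
      have := hf ⟨Q, hQ⟩
      rwa [hbin] at this)
    change 1 / 8 * ‖(e : HH)‖ ^ 2 + (65 / 2 - 1 / 8) * ‖(e : HH).snd‖ ^ 2 ≤
      (⟪(e : HH).snd, f⟫_ℂ).re + (C2 + C2' + √K) *
        (√(∫ y in Ioi (0 : ℝ), mwf y * ‖((e : HH).snd : ℝ → ℂ) y‖ ^ 2)) ^ 2
    rw [Real.sq_sqrt (hk0 _), hnorm]
    have h2 := hk0 (e : HH).snd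
    have h3 : 0 ≤ (C2' + √K) * ∫ y in Ioi (0 : ℝ), mwf y * ‖((e : HH).snd : ℝ → ℂ) y‖ ^ 2 := by
      positivity
    have h4 : 0 ≤ ‖(e : HH).fst‖ ^ 2 := by positivity
    nlinarith
  · -- gardingD
    intro P α ω M hα hM hb
    obtain ⟨Q, hQ, h1, h2, h3⟩ := ht P.1 P.2
    have h4 := hb ⟨Q, hQ⟩
    rw [hbin] at h4
    set z : HH := iota (Prof.cont hg) P.1 P.2 with hz
    change ‖⟪bvec (Prof.cont hg) Q hQ, z⟫_ℂ - ((α : ℂ) + ω * Complex.I) * ⟪jvec Q hQ, z.snd⟫_ℂ‖ ≤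
      M * √(stX g Q) at h4
    change 1 / 8 * ‖z‖ ^ 2 ≤ (C2 + C2' + √K) * M * ‖z‖ + (C2 + C2' + √K) *
        (√(∫ y in Ioi (0 : ℝ), mwf y * ‖(z.snd : ℝ → ℂ) y‖ ^ 2)) ^ 2
    rw [Real.sq_sqrt (hk0 _)]
    have h5 : (⟪bvec (Prof.cont hg) Q hQ, z⟫_ℂ).re - α * ‖z.snd‖ ^ 2 ≤ M * (√K * ‖z‖) := by
      have e1 : (⟪bvec (Prof.cont hg) Q hQ, z⟫_ℂ - ((α : ℂ) + ω * Complex.I) *
          ⟪jvec Q hQ, z.snd⟫_ℂ).re = (⟪bvec (Prof.cont hg) Q hQ, z⟫_ℂ).re - α * ‖z.snd‖ ^ 2 := by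
        rw [h2, Complex.sub_re, Complex.re_mul_ofReal]
        simp
      rw [← e1]
      refine (Complex.re_le_norm _).trans (h4.trans ?_)
      refine mul_le_mul_of_nonneg_left ?_ hM
      rw [show √K * ‖z‖ = √(K * ‖z‖ ^ 2) by
        rw [Real.sqrt_mul hK, Real.sqrt_sq (norm_nonneg _)]]
      exact Real.sqrt_le_sqrt h1
    have h6 := hnorm z
    have h7 := hk0 z.snd
    have h8 : 0 ≤ (C2 + √K) * ∫ y in Ioi (0 : ℝ), mwf y * ‖(z.snd : ℝ → ℂ) y‖ ^ 2 := by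
      positivity
    have h9 : 0 ≤ (C2 + C2') * M * ‖z‖ := by positivity
    have h10 : 0 ≤ ‖z.fst‖ ^ 2 := by positivity
    have h11 : 0 ≤ ‖z.snd‖ ^ 2 := by positivity
    have h12 : α * ‖z.snd‖ ^ 2 ≤ (65 / 2 - 1 / 8) * ‖z.snd‖ ^ 2 :=
      mul_le_mul_of_nonneg_right hα h11
    rw [h6]
    have e2 : (C2 + C2' + √K) * M * ‖z‖ = (C2 + C2') * M * ‖z‖ + M * (√K * ‖z‖) := by ring
    have e3 : (C2 + C2' + √K) * ∫ y in Ioi (0 : ℝ), mwf y * ‖(z.snd : ℝ → ℂ) y‖ ^ 2 =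
      (C2 + √K) * (∫ y in Ioi (0 : ℝ), mwf y * ‖(z.snd : ℝ → ℂ) y‖ ^ 2) +
        C2' * ∫ y in Ioi (0 : ℝ), mwf y * ‖(z.snd : ℝ → ℂ) y‖ ^ 2 := by ring
    rw [e2, e3]
    linarith
  · -- compact
    intro ε hε
    obtain ⟨N, f, C', hC', h⟩ := compact_test hg hε
    refine ⟨N, f, C', hC', fun e => ?_⟩
    change (√(∫ y in Ioi (0 : ℝ), mwf y * ‖((e : HH).snd : ℝ → ℂ) y‖ ^ 2)) ^ 2 ≤
      ε * ‖(e : HH)‖ ^ 2 + C' * ∑ i, ‖⟪f i, (e : HH).snd⟫_ℂ‖ ^ 2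
    rw [Real.sq_sqrt (hk0 _)]
    obtain ⟨P, hP⟩ := exists_seq hg e
    have hsnd : Tendsto (fun n => (iota (Prof.cont hg) (P n).1 (P n).2).snd) atTop
        (𝓝 (e : HH).snd) :=
      ((WithLp.sndL 2 ℂ LL LL).continuous.tendsto (e : HH)).comp hP
    have q3 := ((quad_cont mwf_cont.measurable (K := 1)
      (fun y _ => mwf_bd y)).tendsto (e : HH).snd).comp hsnd
    have q4 : Tendsto (fun n => ε * ‖iota (Prof.cont hg) (P n).1 (P n).2‖ ^ 2 +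
        C' * ∑ i, ‖⟪f i, (iota (Prof.cont hg) (P n).1 (P n).2).snd⟫_ℂ‖ ^ 2) atTop
        (𝓝 (ε * ‖(e : HH)‖ ^ 2 + C' * ∑ i, ‖⟪f i, (e : HH).snd⟫_ℂ‖ ^ 2)) := by
      refine ((hP.norm.pow 2).const_mul ε).add (Tendsto.const_mul C' ?_)
      refine tendsto_finsetSum _ fun i _ => ?_
      exact ((tendsto_const_nhds (x := f i)).inner (𝕜 := ℂ) hsnd).norm.pow 2
    exact le_of_tendsto_of_tendsto' q3 q4 (fun n => h (P n).1 (P n).2)
  · -- form identity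
    intro κ ξ P Q
    have e1 := stForm_eq (Prof.cont hg) κ ξ P.2 Q.2
    have e2 := (hbin Q ⟨iota (Prof.cont hg) P.1 P.2, iota_mem hg P.2⟩).symm
    have e3 : ⟪bvec (Prof.cont hg) Q.1 Q.2, iota (Prof.cont hg) P.1 P.2⟫_ℂ =
        ⟪(YS hg).orthogonalProjectionOnto (bvec (Prof.cont hg) Q.1 Q.2),
          (⟨iota (Prof.cont hg) P.1 P.2, iota_mem hg P.2⟩ : YS hg)⟫_ℂ := e2
    rw [e3] at e1
    exact e1

end Crest.Agent.R213.A.St

namespace Crest.Agent.R213.A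

/-- The stationary estimate: there is a good exponent `κ ∈ (1/8,1/4)`. -/
theorem inner_static {c0 C0 : ℝ} {g : ℝ → ℝ} (hg : Prof c0 C0 g) :
    ∃ κ ∈ Ioo (1 / 8 : ℝ) (1 / 4), ∃ C : ℝ, 0 ≤ C ∧ StEst g κ C := by
  obtain ⟨D, hα, hn, hY, hform⟩ := St.exists_specData hg
  obtain ⟨κ, hκ, C, hC, h⟩ := D.exists_good_kappa hα
  refine ⟨κ, hκ, C ^ 2, by positivity, ?_⟩
  intro ξ P hP S hS hb
  have h1 := h ξ ⟨P, hP⟩ (√S) (Real.sqrt_nonneg _) (fun Q => by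
    rw [← hform κ ξ ⟨P, hP⟩ Q, hn Q]
    have h2 := hb Q.1 Q.2
    have h3 : ‖stForm g κ ξ Q.1 P‖ = √(‖stForm g κ ξ Q.1 P‖ ^ 2) :=
      (Real.sqrt_sq (norm_nonneg _)).symm
    rw [h3, ← Real.sqrt_mul hS]
    exact Real.sqrt_le_sqrt h2)
  rw [← hY ⟨P, hP⟩]
  calc ‖D.ι ⟨P, hP⟩‖ ^ 2 ≤ (C * √S) ^ 2 := pow_le_pow_left₀ (norm_nonneg _) h1 2
    _ = C ^ 2 * S := by rw [mul_pow, Real.sq_sqrt hS]

end Crest.Agent.R213.A
end
end

-- ▼ part R213/A/WeakExists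

/-!
# Row 213, PART A: `weak_exists`
-/

set_option autoImplicit false

open Set MeasureTheory Filter Topology

noncomputable section

namespace Crest.Agent.R213

theorem weak_exists {c0 C0 : ℝ} {g : ℝ → ℝ} (hg : Prof c0 C0 g) :
    ∃ κ ∈ Ioo (1 / 8 : ℝ) (1 / 4), ∃ L1 C : ℝ, ∀ L ≥ L1, ∀ φ m : ℝ → ℝ → ℝ, Bg c0 C0 g L φ m →
      ∀ E h : ℝ → ℝ → ℝ, Sm (Ioo 0 1) L E → Sm (Ioo 0 1) L h →
        N2 L (Wt'' κ) E < ⊤ → N2 L (Wt κ) h < ⊤ →
      ∃ b δ : ℝ → ℝ → ℝ, Measurable (fun p : ℝ × ℝ => b p.1 p.2) ∧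
        Measurable (fun p : ℝ × ℝ => δ p.1 p.2) ∧
        N2 L (Wt κ) b + N2 L (Wt' κ) δ ≤
          ENNReal.ofReal C * (N2 L (Wt κ) h + N2 L (Wt'' κ) E) ∧
        (∃ u : ℕ → ℝ → ℝ → ℝ, (∀ k, Tst L (u k)) ∧
          Tendsto (fun k => N2 L (Wt κ) (fun τ x => φ τ x * dx L (dx L (u k)) τ x - b τ x))
            atTop (𝓝 0) ∧
          Tendsto (fun k => N2 L (Wt' κ) (fun τ x => u k τ x - δ τ x)) atTop (𝓝 0)) ∧
        (∀ ψ, Tst L ψ →
          II L (fun τ x => x ^ 9 * (dt ψ τ x * δ τ x + φ τ x * dx L (dx L ψ) τ x * b τ x)) =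
            II L (fun τ x => x ^ 9 * (E τ x * ψ τ x + h τ x * φ τ x * dx L (dx L ψ) τ x))) :=
  A.weak_exists_of hg (A.inner_static hg)

end Crest.Agent.R213
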